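import Mathlib

/-!
# Two topological lemmas on local homeomorphisms  (TASK)

`exists_lift_of_compact`: let `S` be the set of `s ∈ [0,1]` such that a lift exists on `[0,s]`, and
`σ = sSup S`.  Lifts are unique (`IsSeparatedMap.eqOn_of_comp_eqOn`, `T2Space.isSeparatedMap`,
`hp.isLocallyInjective`).  Take `sₙ ∈ S` tending to `σ` with lifts `Γₙ`; `Γₙ sₙ ∈ K` has a cluster
point `w`, `p w = c σ`; with the local homeomorphism `U → V` at `w`, for `n` large `Γₙ sₙ ∈ U` and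
`c` maps `[sₙ, σ + η] ∩ [0,1]` into `V`; extend `Γₙ` by the local inverse.  So `σ ∈ S` and `σ = 1`.
`isCoveringMap_of_lifts`: for `f` in the fibre over `z₀` let `σ f b` be the end point of the lift of
`c b` from `f`; `IsLocalHomeomorph.continuous_lift` (on `I × W`) gives continuity in `b`,
`IsLocalHomeomorph.isOpenEmbedding_of_comp` shows `σ f` is an open embedding; images are disjoint
(uniqueness of lifts with the same end point) and cover `p ⁻¹' W` (lift the reversed path and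
reverse it).  Finish with `IsOpen.trivializationDiscrete` and `IsEvenlyCovered.of_trivialization`
(treat the empty fibre with `IsEvenlyCovered.of_preimage_eq_empty`), or build the homeomorphism
`p ⁻¹' W ≃ₜ W × fibre` directly.
-/

namespace Vale.Agent.P255

open Set

variable {X Y : Type*} [TopologicalSpace X] [TopologicalSpace Y] {p : X → Y}

theorem cover_extend {c : ℝ → Y} (e : OpenPartialHomeomorph X Y) (he : p = e) {s s' : ℝ}
    (h0 : 0 ≤ s) (hs : s ≤ s') (hc : ContinuousOn c (Icc s s')) (ht : ∀ t ∈ Icc s s', c t ∈ e.target)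
    {Γ : ℝ → X} (hΓ : ContinuousOn Γ (Icc 0 s)) (hl : ∀ t ∈ Icc 0 s, p (Γ t) = c t)
    (hm : Γ s ∈ e.source) :
    ∃ Γ' : ℝ → X, ContinuousOn Γ' (Icc 0 s') ∧ Γ' 0 = Γ 0 ∧ ∀ t ∈ Icc 0 s', p (Γ' t) = c t := by
  classical
  have e1 : EqOn (fun t => if t ≤ s then Γ t else e.symm (c t)) Γ (Icc 0 s) :=
    fun t ht => if_pos ht.2
  have e2 : EqOn (fun t => if t ≤ s then Γ t else e.symm (c t)) (fun t => e.symm (c t))
      (Icc s s') := by
    intro t ht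
    by_cases h : t ≤ s
    · have : t = s := le_antisymm h ht.1
      subst this
      simp only [le_refl, if_true]
      rw [← hl t ⟨h0, le_rfl⟩, he, e.left_inv hm]
    · exact if_neg h
  refine ⟨fun t => if t ≤ s then Γ t else e.symm (c t), ?_, if_pos h0, fun t ht' => ?_⟩
  · rw [← Icc_union_Icc_eq_Icc h0 hs]
    exact (hΓ.congr e1).union_of_isClosed ((e.continuousOn_symm.comp hc ht).congr e2) isClosed_Icc
      isClosed_Icc
  · rcases le_total t s with h | h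
    · rw [e1 ⟨ht'.1, h⟩]
      exact hl t ⟨ht'.1, h⟩
    · rw [e2 ⟨h, ht'.2⟩, he]
      exact e.right_inv (ht t ⟨h, ht'.2⟩)

theorem exists_lift_of_compact [T2Space X] [T2Space Y] (hp : IsLocalHomeomorph p) {c : ℝ → Y}
    (hc : ContinuousOn c (Icc 0 1)) {w₀ : X} (h0 : p w₀ = c 0) {K : Set X} (hK : IsCompact K)
    (hb : ∀ s ∈ Icc (0 : ℝ) 1, ∀ Γ : ℝ → X, ContinuousOn Γ (Icc 0 s) → Γ 0 = w₀ →
      (∀ t ∈ Icc 0 s, p (Γ t) = c t) → Γ s ∈ K) :
    ∃ Γ : ℝ → X, ContinuousOn Γ (Icc 0 1) ∧ Γ 0 = w₀ ∧ ∀ t ∈ Icc (0 : ℝ) 1, p (Γ t) = c t := by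
  let S : Set ℝ := {s | ∃ Γ : ℝ → X, ContinuousOn Γ (Icc 0 s) ∧ Γ 0 = w₀ ∧
    ∀ t ∈ Icc 0 s, p (Γ t) = c t}
  let A : Set (ℝ × X) := {q | q.1 ∈ Icc (0 : ℝ) 1 ∧ ∃ Γ : ℝ → X, ContinuousOn Γ (Icc 0 q.1) ∧
    Γ 0 = w₀ ∧ (∀ t ∈ Icc 0 q.1, p (Γ t) = c t) ∧ Γ q.1 = q.2}
  have hA : closure A ⊆ Icc (0 : ℝ) 1 ×ˢ K := by
    refine closure_minimal ?_ (isClosed_Icc.prod hK.isClosed)
    rintro ⟨s, w⟩ ⟨h1, Γ, h2, h3, h4, h5⟩
    exact ⟨h1, h5 ▸ hb s h1 Γ h2 h3 h4⟩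
  have hA2 : closure A ⊆ {q ∈ Icc (0 : ℝ) 1 ×ˢ (univ : Set X) | p q.2 = c q.1} := by
    refine closure_minimal ?_ ((isClosed_Icc.prod isClosed_univ).isClosed_eq
      (hp.continuous.comp continuous_snd).continuousOn
      (hc.comp continuous_fst.continuousOn fun q hq => hq.1))
    rintro ⟨s, w⟩ ⟨h1, Γ, -, -, h4, h5⟩
    exact ⟨⟨h1, trivial⟩, h5 ▸ h4 s ⟨h1.1, le_rfl⟩⟩
  have key : ∀ q ∈ closure A, ∃ η > 0, ∀ s' ∈ Icc (0 : ℝ) 1, |s' - q.1| < η → s' ∈ S := by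
    rintro ⟨σ, w⟩ hq
    obtain ⟨⟨hσ, -⟩, hw⟩ := hA2 hq
    obtain ⟨e, hwe, he⟩ := hp w
    have h1 : c ⁻¹' e.target ∈ nhdsWithin σ (Icc 0 1) := by
      refine hc σ hσ (e.open_target.mem_nhds ?_)
      have : c σ = e w := by rw [← he]; exact hw.symm
      rw [this]
      exact e.map_source hwe
    obtain ⟨η, hη, h2⟩ := Metric.mem_nhdsWithin_iff.1 h1
    refine ⟨η, hη, fun s' hs' hd => ?_⟩
    obtain ⟨⟨s, w'⟩, ⟨h3, h4⟩, h5, Γ, h6, h7, h8, h9⟩ := mem_closure_iff.1 hq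
      (Metric.ball σ η ×ˢ e.source) (Metric.isOpen_ball.prod e.open_source)
      ⟨Metric.mem_ball_self hη, hwe⟩
    rcases le_total s' s with h | h
    · exact ⟨Γ, h6.mono (Icc_subset_Icc_right h), h7, fun t ht => h8 t ⟨ht.1, ht.2.trans h⟩⟩
    · have hsub : Icc s s' ⊆ Icc (0 : ℝ) 1 := Icc_subset_Icc h5.1 hs'.2
      obtain ⟨Γ', g1, g2, g3⟩ := cover_extend e he h5.1 h (hc.mono hsub) (fun t ht => by
        refine h2 ⟨?_, hsub ht⟩
        have a1 := abs_lt.1 (show |s - σ| < η from h3)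
        have a2 := abs_lt.1 (show |s' - σ| < η from hd)
        rw [Metric.mem_ball, Real.dist_eq, abs_lt]
        constructor <;> linarith [ht.1, ht.2]) h6 h8 (h9 ▸ h4)
      exact ⟨Γ', g1, g2.trans h7, g3⟩
  have hSA : ∀ s ∈ S ∩ Icc (0 : ℝ) 1, ∃ w, (s, w) ∈ closure A := by
    rintro s ⟨⟨Γ, h1, h2, h3⟩, hs⟩
    exact ⟨Γ s, subset_closure ⟨hs, Γ, h1, h2, h3, rfl⟩⟩
  have hcl : IsClosed (S ∩ Icc (0 : ℝ) 1) := by
    have h1 : IsCompact (closure A) :=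
      (isCompact_Icc.prod hK).of_isClosed_subset isClosed_closure hA
    have h2 : S ∩ Icc (0 : ℝ) 1 = Prod.fst '' closure A := by
      ext s
      constructor
      · intro hs
        obtain ⟨w, hw⟩ := hSA s hs
        exact ⟨_, hw, rfl⟩
      · rintro ⟨q, hq, rfl⟩
        obtain ⟨η, hη, h3⟩ := key q hq
        exact ⟨h3 _ (hA hq).1 (by simpa using hη), (hA hq).1⟩
    rw [h2]
    exact (h1.image continuous_fst).isClosed
  refine hcl.mem_of_ge_of_forall_exists_gt ⟨fun _ => w₀, continuousOn_const, rfl, fun t ht => ?_⟩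
    zero_le_one fun x hx => ?_
  · rw [le_antisymm ht.2 ht.1]
    exact h0
  · obtain ⟨w, hw⟩ := hSA x ⟨hx.1, Ico_subset_Icc_self hx.2⟩
    obtain ⟨η, hη, h3⟩ := key _ hw
    have h4 : x < min (x + η / 2) 1 := lt_min (by linarith) hx.2.2
    have h5 := min_le_left (x + η / 2) 1
    refine ⟨min (x + η / 2) 1, h3 _ ⟨hx.2.1.trans h4.le, min_le_right _ _⟩ ?_, h4, min_le_right _ _⟩
    rw [abs_lt]
    constructor <;> linarith

theorem isCoveringMap_of_lifts [T2Space X] (hp : IsLocalHomeomorph p)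
    (h : ∀ z₀ : Y, ∃ W : Set Y, IsOpen W ∧ z₀ ∈ W ∧ ∃ c : Y → ℝ → Y,
      ContinuousOn (fun q : Y × ℝ => c q.1 q.2) (W ×ˢ Icc 0 1) ∧
      ∀ b ∈ W, c b 0 = z₀ ∧ c b 1 = b ∧
        (∀ w, p w = z₀ → ∃ Γ : ℝ → X, ContinuousOn Γ (Icc 0 1) ∧ Γ 0 = w ∧
          ∀ t ∈ Icc (0 : ℝ) 1, p (Γ t) = c b t) ∧
        (∀ w, p w = b → ∃ Γ : ℝ → X, ContinuousOn Γ (Icc 0 1) ∧ Γ 0 = w ∧
          ∀ t ∈ Icc (0 : ℝ) 1, p (Γ t) = c b (1 - t))) :
    IsCoveringMap p := by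
  intro z₀
  obtain ⟨W, hW, hz, c, hc, hb⟩ := h z₀
  have sep : IsSeparatedMap p := T2Space.isSeparatedMap p
  have uniq : ∀ {Γ Γ' : ℝ → X}, ContinuousOn Γ (Icc 0 1) → ContinuousOn Γ' (Icc 0 1) →
      (∀ t ∈ Icc (0 : ℝ) 1, p (Γ t) = p (Γ' t)) → ∀ a ∈ Icc (0 : ℝ) 1, Γ a = Γ' a →
      EqOn Γ Γ' (Icc 0 1) := fun h1 h2 h3 a ha h4 =>
    sep.eqOn_of_comp_eqOn hp.isLocallyInjective isPreconnected_Icc h1 h2 h3 ha h4
  have hd : DiscreteTopology (p ⁻¹' {z₀}) := by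
    have : Subsingleton (p '' (p ⁻¹' {z₀})) :=
      (subsingleton_coe _).2 (subsingleton_singleton.anti (image_preimage_subset _ _))
    exact (hp.isLocalHomeomorphOn.mono (subset_univ _)).discreteTopology_of_image
  choose L hL1 hL2 hL3 using fun (b : W) (f : p ⁻¹' {z₀}) => (hb b b.2).2.2.1 f f.2
  have hσ : ∀ q : W × p ⁻¹' {z₀}, p (L q.1 q.2 1) = q.1 := fun q => by
    rw [hL3 _ _ 1 ⟨zero_le_one, le_rfl⟩, (hb _ q.1.2).2.1]
  have hcont : ∀ f : p ⁻¹' {z₀}, Continuous fun b : W => L b f 1 := by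
    intro f
    have h1 : Continuous fun q : unitInterval × W => c q.2 q.1 :=
      hc.comp_continuous (f := fun q : unitInterval × W => ((q.2 : Y), (q.1 : ℝ))) (by fun_prop)
        fun q => ⟨q.2.2, q.1.2⟩
    have h2 := hp.continuous_lift sep ⟨_, h1⟩ (g := fun q : unitInterval × W => L q.2 f q.1)
      (funext fun q => hL3 _ _ _ q.1.2) (by simpa [hL2] using continuous_const)
      fun b => (hL1 b f).comp_continuous continuous_subtype_val fun t => t.2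
    exact h2.comp (Continuous.prodMk_right (1 : unitInterval))
  have hopen : ∀ f : p ⁻¹' {z₀}, IsOpenMap fun b : W => L b f 1 := by
    intro f
    refine (hp.isOpenEmbedding_of_comp ?_ (hcont f)).isOpenMap
    have : (p ∘ fun b : W => L b f 1) = Subtype.val := funext fun b => hσ (b, f)
    rw [this]
    exact hW.isOpenEmbedding_subtypeVal
  have hmem : ∀ q : W × p ⁻¹' {z₀}, L q.1 q.2 1 ∈ p ⁻¹' W := fun q => by
    rw [mem_preimage, hσ]; exact q.1.2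
  have hΦ : IsHomeomorph ((p ⁻¹' W).codRestrict (fun q : W × p ⁻¹' {z₀} => L q.1 q.2 1) hmem) := by
    refine ⟨(continuous_prod_of_discrete_right.2 hcont).codRestrict _,
      (isOpenMap_prod_of_discrete_right.2 hopen).codRestrict _, ?_, ?_⟩
    · rintro ⟨b, f⟩ ⟨b', f'⟩ e
      have e1 : L b f 1 = L b' f' 1 := congrArg Subtype.val e
      have e2 : b = b' := Subtype.ext ((hσ (b, f)).symm.trans ((congrArg p e1).trans (hσ (b', f'))))
      subst e2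
      have e3 := uniq (hL1 b f) (hL1 b f') (fun t ht => (hL3 b f t ht).trans (hL3 b f' t ht).symm)
        1 ⟨zero_le_one, le_rfl⟩ e1 ⟨le_rfl, zero_le_one⟩
      rw [hL2, hL2] at e3
      exact Prod.ext rfl (Subtype.ext e3)
    · rintro ⟨w, hw⟩
      obtain ⟨Γ, h1, h2, h3⟩ := (hb _ hw).2.2.2 w rfl
      have hf : Γ 1 ∈ p ⁻¹' {z₀} := by
        rw [mem_preimage, h3 1 ⟨zero_le_one, le_rfl⟩, sub_self]
        exact (hb _ hw).1
      refine ⟨(⟨p w, hw⟩, ⟨Γ 1, hf⟩), Subtype.ext ?_⟩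
      have hm : ∀ t ∈ Icc (0 : ℝ) 1, 1 - t ∈ Icc (0 : ℝ) 1 := fun t ht =>
        ⟨by linarith [ht.2], by linarith [ht.1]⟩
      have e3 := uniq (hL1 ⟨p w, hw⟩ ⟨Γ 1, hf⟩) (Γ' := fun t => Γ (1 - t))
        (h1.comp (by fun_prop) hm) (fun t ht => by rw [hL3 _ _ t ht, h3 _ (hm t ht), sub_sub_cancel])
        0 ⟨le_rfl, zero_le_one⟩ (by rw [hL2, sub_zero]) ⟨zero_le_one, le_rfl⟩
      simpa [h2] using e3
  refine ⟨hd, W, hz, hW, hW.preimage hp.continuous, (hΦ.homeomorph _).symm, fun x => ?_⟩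
  have := congrArg (fun y : p ⁻¹' W => p y) ((hΦ.homeomorph _).apply_symm_apply x)
  exact (hσ _).symm.trans this

end Vale.Agent.P255
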