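import Vale.Agent.P255.Geo

/-!
# Jacobi fields: uniqueness, Gauss lemma, growth in nonpositive curvature  (TASK)

`nsq` is the squared length, read in the preferred chart; near `t` it can be read in any fixed
chart (`nsq_eventually`, from the transformation law and `g.compat`).
`eventually_lin`: `jacobi_iff` at all nearby times.
`hasDerivAt_deriv_nsq`: `nsq' = 2 G(J, V)` near `t`, differentiate again (`hasDerivAt_inner`).
`eq_zero`: the set of times near which all components of `J` vanish is open, closed, and contains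
`t₀` (uniqueness for the linear system `(J, K)' = (K, lin ..)`: Gronwall /
`ODE_solution_unique_of_eventually` with a time dependent linear field, or
`eq_zero_of_abs_deriv_le_mul_abs_self_of_eq_zero_right` in both time directions).
`gauss`: `m t = g(J, γ')` is chart independent, `m' = G(V, γ')`, `m'' = -G(R(J,γ')γ',γ') = 0`
(`riem_skew`), `m 0 = 0`.
`expand`: `n = nsq` satisfies `n ≥ 0`, `n 0 = 0`, `n' 0 = 0`, `n'' 0 = 2c`, `n'' ≥ 2 G(V,V)`,
`n'² ≤ 2 n n''` (`sq_le`); conclude `n 1 ≥ c` (`real_expand`: if `c > 0`, `n' > 0` and `n > 0` on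
`(0,1]`, `n' / (2 √n)` is monotone and tends to `√c` at `0⁺`).
-/

namespace Vale.Agent.P255

open scoped ContDiff Topology Manifold
open Set

theorem real_expand {n n1 n2 : ℝ → ℝ} (h1 : ∀ t, HasDerivAt n (n1 t) t)
    (h2 : ∀ t, HasDerivAt n1 (n2 t) t) (h0 : ∀ t, 0 ≤ n t) (hn : n 0 = 0) (hn1 : n1 0 = 0)
    (hpos : ∀ t, 0 ≤ n2 t) (hcs : ∀ t, n1 t ^ 2 ≤ 2 * n t * n2 t) : n2 0 / 2 ≤ n 1 := by
  have hconv : ∀ ε : ℝ, 0 < ε → ConvexOn ℝ univ fun t => √(n t + ε) := by
    intro ε hε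
    have hp : ∀ t, 0 < n t + ε := fun t => by linarith [h0 t]
    have d1 : ∀ t, HasDerivAt (fun t => √(n t + ε)) (n1 t / (2 * √(n t + ε))) t :=
      fun t => ((h1 t).add_const ε).sqrt (hp t).ne'
    refine convexOn_of_hasDerivWithinAt2_nonneg convex_univ
      (fun t _ => (d1 t).continuousAt.continuousWithinAt) (fun t _ => (d1 t).hasDerivWithinAt)
      (fun t _ => ((h2 t).div ((d1 t).const_mul 2)
        (mul_pos two_pos (Real.sqrt_pos.2 (hp t))).ne').hasDerivWithinAt) fun t _ => ?_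
    have hr := Real.sqrt_pos.2 (hp t)
    have hr2 := Real.mul_self_sqrt (hp t).le
    refine div_nonneg ?_ (sq_nonneg _)
    have e : n2 t * (2 * √(n t + ε)) - n1 t * (2 * (n1 t / (2 * √(n t + ε)))) =
        (2 * (√(n t + ε) * √(n t + ε)) * n2 t - n1 t ^ 2) / √(n t + ε) := by
      field_simp
    rw [e, hr2]
    refine div_nonneg ?_ hr.le
    nlinarith [hcs t, mul_nonneg hε.le (hpos t)]
  have hle : ∀ t, 0 ≤ t → t ≤ 1 → n t ≤ t ^ 2 * n 1 := by
    intro t t0 t1
    have key : √(n t) ≤ t * √(n 1) := by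
      have c1 : Filter.Tendsto (fun ε : ℝ => √(n t + ε)) (𝓝[>] 0) (𝓝 (√(n t + 0))) :=
        (Continuous.tendsto (by fun_prop) 0).mono_left nhdsWithin_le_nhds
      have c2 : Filter.Tendsto (fun ε : ℝ => (1 - t) * √(n 0 + ε) + t * √(n 1 + ε)) (𝓝[>] 0)
          (𝓝 ((1 - t) * √(n 0 + 0) + t * √(n 1 + 0))) :=
        (Continuous.tendsto (by fun_prop) 0).mono_left nhdsWithin_le_nhds
      have := le_of_tendsto_of_tendsto c1 c2 (eventually_mem_nhdsWithin.mono fun ε hε => by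
        simpa using (hconv ε hε).2 (mem_univ 0) (mem_univ 1) (sub_nonneg.2 t1) t0 (by ring))
      simpa [hn] using this
    have := pow_le_pow_left₀ (Real.sqrt_nonneg _) key 2
    rwa [mul_pow, Real.sq_sqrt (h0 t), Real.sq_sqrt (h0 1)] at this
  by_contra hc
  obtain ⟨m, m1, m2⟩ := exists_between (not_le.1 hc)
  have d1 : ∀ t, HasDerivAt (fun t => n t - m * t ^ 2) (n1 t - m * (2 * t)) t := fun t => by
    simpa using (h1 t).fun_sub ((hasDerivAt_pow 2 t).const_mul m)
  have e1 : deriv (fun t => n t - m * t ^ 2) = fun t => n1 t - m * (2 * t) :=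
    funext fun t => (d1 t).deriv
  have d2 : HasDerivAt (fun t => n1 t - m * (2 * t)) (n2 0 - m * 2) 0 := by
    simpa using (h2 0).fun_sub (((hasDerivAt_id (0 : ℝ)).const_mul 2).const_mul m)
  have hmin := isLocalMin_of_deriv_deriv_pos (f := fun t => n t - m * t ^ 2) (x₀ := 0)
    (by rw [e1, d2.deriv]; linarith) (by simp [e1, hn1]) (d1 0).continuousAt
  obtain ⟨t, ht, t0, t1⟩ := ((hmin.filter_mono (nhdsWithin_le_nhds (s := Ioi 0))).and
    (Ioo_mem_nhdsGT (zero_lt_one' ℝ))).exists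
  have := hle t t0.le t1.le
  simp only [hn] at ht
  nlinarith [pow_pos t0 2]

variable {E M : Type*} [NormedAddCommGroup E] [NormedSpace ℝ E] [FiniteDimensional ℝ E]
  [TopologicalSpace M] [ChartedSpace E M] [IsManifold 𝓘(ℝ, E) ∞ M]
  {e : OpenPartialHomeomorph M E}

namespace Metric

variable {g : Metric E M} {γ : ℝ → M} {s : Set ℝ} {J : OpenPartialHomeomorph M E → ℝ → E}

/-- Squared length of a field along `γ`. -/
noncomputable def nsq (g : Metric E M) (γ : ℝ → M) (J : OpenPartialHomeomorph M E → ℝ → E)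
    (t : ℝ) : ℝ :=
  g.ip (γ t) (J (chartAt E (γ t)) t) (J (chartAt E (γ t)) t)

theorem sub_add_cancel_jac {A : Type*} [AddCommGroup A] (a b : A) : -a - b + a = -b := by abel

omit [FiniteDimensional ℝ E] [IsManifold 𝓘(ℝ, E) ∞ M] in
theorem IsJacobi.ip_chart_jac {J' : OpenPartialHomeomorph M E → ℝ → E} (hJ : g.IsJacobi γ s J)
    (hJ' : g.IsJacobi γ s J') (he : e ∈ atlas E M) {t : ℝ} (ht : t ∈ s) (hx : γ t ∈ e.source) :
    g.g e (e (γ t)) (J e t) (J' e t) =
      g.ip (γ t) (J (chartAt E (γ t)) t) (J' (chartAt E (γ t)) t) := by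
  rw [g.compat e he _ (chart_mem_atlas E (γ t)) _ hx (mem_chart_source E _),
    ← hJ.1 e he _ (chart_mem_atlas E (γ t)) t ht hx (mem_chart_source E _),
    ← hJ'.1 e he _ (chart_mem_atlas E (γ t)) t ht hx (mem_chart_source E _)]
  rfl

omit [FiniteDimensional ℝ E] [IsManifold 𝓘(ℝ, E) ∞ M] in
theorem IsJacobi.hasDerivAt_cov_jac (hJ : g.IsJacobi γ s J) (he : e ∈ atlas E M) {t : ℝ}
    (ht : t ∈ s) (hx : γ t ∈ e.source) :
    HasDerivAt (g.cov γ e (J e))
      (-chr (g.g e) (e (γ t)) (deriv (e ∘ γ) t) (g.cov γ e (J e) t) -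
        riem (g.g e) (e (γ t)) (J e t) (deriv (e ∘ γ) t) (deriv (e ∘ γ) t)) t := by
  obtain ⟨-, h2, h3⟩ := hJ.2 e he t ht hx
  refine h2.hasDerivAt.congr_deriv ?_
  rw [cov] at h3
  rw [← sub_eq_zero, ← h3]
  abel

theorem IsJacobi.nsq_chart (hJ : g.IsJacobi γ s J) (he : e ∈ atlas E M) {t : ℝ} (ht : t ∈ s)
    (hx : γ t ∈ e.source) : g.nsq γ J t = g.g e (e (γ t)) (J e t) (J e t) := by
  exact (hJ.ip_chart_jac hJ he ht hx).symm

/-- The linearised geodesic system holds near `t` in a chart around `γ t`. -/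
theorem IsJacobi.eventually_lin (hJ : g.IsJacobi γ s J) (hγ : g.IsGeodesic γ s) (hs : IsOpen s)
    (he : e ∈ atlas E M) {t : ℝ} (ht : t ∈ s) (hx : γ t ∈ e.source) :
    ∀ᶠ t' in 𝓝 t, HasDerivAt (J e) (deriv (J e) t') t' ∧ HasDerivAt (deriv (J e))
      (lin (g.g e) (e (γ t')) (deriv (e ∘ γ) t') (J e t') (deriv (J e) t')) t' := by
  filter_upwards [hγ.eventually hs he ht hx] with t' ⟨h1, h2, h3, h4⟩
  have hd := (hJ.2 e he t' h1 h2).1.hasDerivAt
  exact ⟨hd, ((g.loc he).jacobi_iff (e.map_source h2) h3 h4 hd).1 (hJ.hasDerivAt_cov_jac he h1 h2)⟩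

theorem IsJacobi.hasDerivAt_nsq (hJ : g.IsJacobi γ s J) (hγ : g.IsGeodesic γ s) (hs : IsOpen s)
    (he : e ∈ atlas E M) {t : ℝ} (ht : t ∈ s) (hx : γ t ∈ e.source) :
    HasDerivAt (g.nsq γ J) (2 * g.g e (e (γ t)) (J e t) (g.cov γ e (J e) t)) t := by
  have hev := hγ.eventually hs he ht hx
  have hd := (hJ.2 e he t ht hx).1.hasDerivAt
  have := (g.loc he).hasDerivAt_inner (x := e ∘ γ) (e.map_source hx) hev.self_of_nhds.2.2.1 hd hd
  refine (this.congr_of_eventuallyEq (hev.mono fun t' h => hJ.nsq_chart he h.1 h.2.1)).congr_deriv ?_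
  rw [two_mul]
  congr 1
  exact g.symm e he _ (e.map_source hx) _ _

theorem IsJacobi.hasDerivAt_deriv_nsq (hJ : g.IsJacobi γ s J) (hγ : g.IsGeodesic γ s)
    (hs : IsOpen s) (he : e ∈ atlas E M) {t : ℝ} (ht : t ∈ s) (hx : γ t ∈ e.source) :
    HasDerivAt (deriv (g.nsq γ J))
      (2 * (g.g e (e (γ t)) (g.cov γ e (J e) t) (g.cov γ e (J e) t) - g.g e (e (γ t))
        (riem (g.g e) (e (γ t)) (J e t) (deriv (e ∘ γ) t) (deriv (e ∘ γ) t)) (J e t))) t := by
  have hev := hγ.eventually hs he ht hx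
  have hd := (hJ.2 e he t ht hx).1.hasDerivAt
  have := ((g.loc he).hasDerivAt_inner (x := e ∘ γ) (e.map_source hx) hev.self_of_nhds.2.2.1 hd
    (hJ.hasDerivAt_cov_jac he ht hx)).const_mul 2
  refine (this.congr_of_eventuallyEq (hev.mono fun t' h =>
    (hJ.hasDerivAt_nsq hγ hs he h.1 h.2.1).deriv)).congr_deriv ?_
  rw [g.symm e he _ (e.map_source hx) (riem _ _ _ _ _)]
  simp only [Function.comp_apply, cov, sub_add_cancel_jac, map_neg]
  ring

theorem IsJacobi.local_zero_jac (hJ : g.IsJacobi γ s J) (hγ : g.IsGeodesic γ s) (hs : IsOpen s)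
    (he : e ∈ atlas E M) {t : ℝ} (ht : t ∈ s) (hx : γ t ∈ e.source)
    (h0 : J e t = 0) (h1 : deriv (J e) t = 0) : ∀ᶠ t' in 𝓝 t, J (chartAt E (γ t')) t' = 0 := by
  have hev := hγ.eventually hs he ht hx
  set L : ℝ → E × E →L[ℝ] E × E :=
    fun u => fderiv ℝ (spray (g.g e)) (e (γ u), deriv (e ∘ γ) u) with hL
  have hcont : ContinuousAt L t := by
    have k1 : ContDiffAt ℝ ∞ (spray (g.g e)) (e (γ t), deriv (e ∘ γ) t) :=
      (g.loc he).contDiffOn_spray.contDiffAt
        ((e.open_target.prod isOpen_univ).mem_nhds ⟨e.map_source hx, trivial⟩)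
    exact ContinuousAt.comp (f := fun u => (e (γ u), deriv (e ∘ γ) u))
      (k1.continuousAt_fderiv (by simp))
      (hev.self_of_nhds.2.2.1.continuousAt.prodMk hev.self_of_nhds.2.2.2.continuousAt)
  have hb : ∀ᶠ u in 𝓝 t, ‖L u‖₊ < ‖L t‖₊ + 1 :=
    hcont.nnnorm.eventually (gt_mem_nhds (lt_add_one _))
  have := ODE_solution_unique_of_eventually (v := fun u z => L u z) (s := fun _ => univ)
    (K := ‖L t‖₊ + 1) (f := fun u => (J e u, deriv (J e) u)) (g := fun _ => 0) (t₀ := t)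
    (hb.mono fun u hu => ((L u).lipschitz.weaken hu.le).lipschitzOnWith)
    (by
      filter_upwards [hev, hJ.eventually_lin hγ hs he ht hx] with u u1 u2
      refine ⟨(u2.1.prodMk u2.2).congr_deriv ?_, trivial⟩
      exact ((g.loc he).fderiv_spray (z := (e (γ u), deriv (e ∘ γ) u)) (e.map_source u1.2.1)
        (J e u, deriv (J e) u)).symm)
    (Filter.Eventually.of_forall fun u => ⟨by simpa using hasDerivAt_const u (0 : E × E), trivial⟩)
    (by simp [h0, h1])
  filter_upwards [hev, this] with u u1 u2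
  rw [hJ.1 e he _ (chart_mem_atlas E (γ u)) u u1.1 u1.2.1 (mem_chart_source E _),
    show J e u = 0 from congrArg Prod.fst u2, map_zero]

theorem IsJacobi.eq_zero (hJ : g.IsJacobi γ s J) (hγ : g.IsGeodesic γ s) (hs : IsOpen s)
    (hs' : IsPreconnected s) (he : e ∈ atlas E M) {t₀ : ℝ} (ht₀ : t₀ ∈ s) (hx : γ t₀ ∈ e.source)
    (h0 : J e t₀ = 0) (h1 : deriv (J e) t₀ = 0) {t : ℝ} (ht : t ∈ s) :
    J (chartAt E (γ t)) t = 0 := by
  have hc : ∀ t, γ t ∈ (chartAt E (γ t)).source := fun t => mem_chart_source E _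
  have ha : ∀ t, chartAt E (γ t) ∈ atlas E M := fun t => chart_mem_atlas E _
  have hsub : s ⊆ {t | ∀ᶠ t' in 𝓝 t, J (chartAt E (γ t')) t' = 0} := by
    refine hs'.subset_of_closure_inter_subset isOpen_setOfPred_eventually_nhds
      ⟨t₀, ht₀, hJ.local_zero_jac hγ hs he ht₀ hx h0 h1⟩ ?_
    rintro t ⟨hcl, ht⟩
    have hev := hγ.eventually hs (ha t) ht (hc t)
    have hlin := (hJ.eventually_lin hγ hs (ha t) ht (hc t)).self_of_nhds
    have hfr : ∃ᶠ t' in 𝓝 t, J (chartAt E (γ t)) t' = 0 ∧ deriv (J (chartAt E (γ t))) t' = 0 := by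
      refine ((mem_closure_iff_frequently.1 hcl).and_eventually hev.eventually_nhds).mono ?_
      rintro t' ⟨k1, k2⟩
      have : J (chartAt E (γ t)) =ᶠ[𝓝 t'] fun _ => 0 := by
        filter_upwards [k1, k2] with u u1 u2
        rw [hJ.1 _ (ha u) _ (ha t) u u2.1 (hc u) u2.2.1, u1, map_zero]
      exact ⟨this.self_of_nhds, by rw [this.deriv_eq, deriv_const]⟩
    exact hJ.local_zero_jac hγ hs (ha t) ht (hc t)
      (tendsto_nhds_unique_of_frequently_eq hlin.1.continuousAt tendsto_const_nhds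
        (hfr.mono fun _ h => h.1))
      (tendsto_nhds_unique_of_frequently_eq hlin.2.continuousAt tendsto_const_nhds
        (hfr.mono fun _ h => h.2))
  exact (show ∀ᶠ t' in 𝓝 t, J (chartAt E (γ t')) t' = 0 from hsub ht).self_of_nhds

/-- Gauss lemma. -/
theorem IsJacobi.gauss (hJ : g.IsJacobi γ univ J) (hγ : g.IsGeodesic γ univ)
    (h0 : J (chartAt E (γ 0)) 0 = 0) (he : e ∈ atlas E M) {t : ℝ} (hx : γ t ∈ e.source) :
    g.g e (e (γ t)) (J e t) (deriv (e ∘ γ) t) =
      t * g.ip (γ 0) (deriv (J (chartAt E (γ 0))) 0) (vel E γ 0) := by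
  have hc : ∀ t, γ t ∈ (chartAt E (γ t)).source := fun t => mem_chart_source E _
  have ha : ∀ t, chartAt E (γ t) ∈ atlas E M := fun t => chart_mem_atlas E _
  set m : ℝ → ℝ := fun t => g.ip (γ t) (J (chartAt E (γ t)) t) (vel E γ t) with hm
  have e0 : ∀ {e}, e ∈ atlas E M → ∀ {t}, γ t ∈ e.source →
      m t = g.g e (e (γ t)) (J e t) (deriv (e ∘ γ) t) := fun {e} he {t} hx => by
    rw [g.compat e he _ (ha t) _ hx (hc t), ← hJ.1 e he _ (ha t) t trivial hx (hc t),
      ← (hasDerivAt_chart he (ha t) (hγ.1.continuousAt Filter.univ_mem) hx (hc t)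
        (hγ.2 e he t trivial hx).1.hasDerivAt).deriv]
    rfl
  have d1 : ∀ {e}, e ∈ atlas E M → ∀ {t}, γ t ∈ e.source →
      HasDerivAt m (g.g e (e (γ t)) (g.cov γ e (J e) t) (deriv (e ∘ γ) t)) t :=
    fun {e} he {t} hx => by
    have hev := hγ.eventually isOpen_univ he trivial hx
    have := (g.loc he).hasDerivAt_inner (x := e ∘ γ) (e.map_source hx) hev.self_of_nhds.2.2.1
      (hJ.2 e he t trivial hx).1.hasDerivAt hev.self_of_nhds.2.2.2
    refine (this.congr_of_eventuallyEq (hev.mono fun t' h => e0 he h.2.1)).congr_deriv ?_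
    simp [cov]
  have d2 : ∀ t, HasDerivAt (deriv m) 0 t := fun t => by
    have hev := hγ.eventually isOpen_univ (ha t) trivial (hc t)
    have := (g.loc (ha t)).hasDerivAt_inner (x := chartAt E (γ t) ∘ γ)
      ((chartAt E (γ t)).map_source (hc t)) hev.self_of_nhds.2.2.1
      (hJ.hasDerivAt_cov_jac (ha t) trivial (hc t)) hev.self_of_nhds.2.2.2
    refine (this.congr_of_eventuallyEq (hev.mono fun t' h => (d1 (ha t) h.2.1).deriv)).congr_deriv ?_
    simp only [Function.comp_apply, sub_add_cancel_jac, map_neg, neg_add_cancel, map_zero, add_zero,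
      neg_apply, neg_eq_zero]
    exact (g.loc (ha t)).riem_skew ((chartAt E (γ t)).map_source (hc t)) _ _ _
  have c1 : ∀ t, deriv m t = deriv m 0 := fun t =>
    is_const_of_deriv_eq_zero (fun t => (d2 t).differentiableAt) (fun t => (d2 t).deriv) t 0
  have d3 : ∀ t, HasDerivAt (fun t => m t - t * deriv m 0) 0 t := fun t => by
    have := (d1 (ha t) (hc t)).differentiableAt.hasDerivAt.fun_sub
      ((hasDerivAt_id t).mul_const (deriv m 0))
    simpa [c1 t] using this
  have c2 := is_const_of_deriv_eq_zero (fun t => (d3 t).differentiableAt) (fun t => (d3 t).deriv) t 0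
  have m0 : m 0 = 0 := by simp [hm, h0]
  rw [← e0 he hx]
  rw [m0, zero_mul, sub_zero, sub_eq_zero, (d1 (ha 0) (hc 0)).deriv, cov, h0, ← chrL_apply, map_zero,
    add_zero] at c2
  exact c2

/-- Rauch comparison with flat space. -/
theorem IsJacobi.expand (hg : g.NPC) (hJ : g.IsJacobi γ univ J) (hγ : g.IsGeodesic γ univ)
    (h0 : J (chartAt E (γ 0)) 0 = 0) :
    g.ip (γ 0) (deriv (J (chartAt E (γ 0))) 0) (deriv (J (chartAt E (γ 0))) 0) ≤ g.nsq γ J 1 := by
  have hc : ∀ t, γ t ∈ (chartAt E (γ t)).source := fun t => mem_chart_source E _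
  have ha : ∀ t, chartAt E (γ t) ∈ atlas E M := fun t => chart_mem_atlas E _
  have hU : ∀ t, chartAt E (γ t) (γ t) ∈ (chartAt E (γ t)).target :=
    fun t => (chartAt E (γ t)).map_source (hc t)
  have d1 := fun t => hJ.hasDerivAt_nsq hγ isOpen_univ (ha t) trivial (hc t)
  have d2 := fun t => hJ.hasDerivAt_deriv_nsq hγ isOpen_univ (ha t) trivial (hc t)
  have hn : ∀ t, 0 ≤ g.nsq γ J t := fun t => (g.loc (ha t)).nonneg (hU t) _
  have := real_expand (fun t => (d1 t).differentiableAt.hasDerivAt) d2 hn (by simp [nsq, h0])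
    (by rw [(d1 0).deriv, h0]; simp)
    (fun t => mul_nonneg two_pos.le (sub_nonneg.2 ((hg _ (ha t) _ (hU t) _ _).trans
      ((g.loc (ha t)).nonneg (hU t) _)))) fun t => by
      rw [(d1 t).deriv]
      have k1 := (g.loc (ha t)).sq_le (hU t) (J (chartAt E (γ t)) t)
        (g.cov γ (chartAt E (γ t)) (J (chartAt E (γ t))) t)
      have k2 := mul_nonneg (hn t) (neg_nonneg.2 (hg _ (ha t) _ (hU t) (J (chartAt E (γ t)) t)
        (deriv (chartAt E (γ t) ∘ γ) t)))
      rw [← hJ.nsq_chart (ha t) trivial (hc t)] at k1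
      nlinarith
  rw [cov, h0, ← chrL_apply, map_zero, add_zero, map_zero, sub_zero] at this
  refine le_trans (le_of_eq ?_) this
  rw [mul_div_cancel_left₀ _ two_ne_zero]
  rfl

end Metric

end Vale.Agent.P255
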