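import Mathlib

/-!
# Local flows depend differentiably on the initial point  (TASK)

Plan: apply Picard–Lindelöf with Lipschitz dependence
(`IsPicardLindelof.of_contDiffAt_one`,
`IsPicardLindelof.exists_forall_mem_closedBall_eq_hasDerivWithinAt_lipschitzOnWith`) to the
extended field `(z, Y) ↦ (V z, (fderiv V z).comp Y)` on `F × (F →L F)` at `(z₀, id)`.  Shrink
`ε, r` so that all `φ z t` stay in a closed ball `B ⊆ Ω` on which `fderiv V` is bounded and
Lipschitz (use the Lipschitz dependence on `z` and continuity in `t`, or first cut `V` off /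
use `hf.lipschitzOnWith`, `mem_closedBall`-type bounds by the speed bound `L * ε`).
`HasFDerivAt`: `e t = φ (z+h) t - φ z t - Y z t h` has `e 0 = 0` and
`‖e'‖ ≤ K ‖e‖ + C ‖h‖²`; Gronwall (`norm_le_gronwallBound_of_norm_deriv_right_le`, for negative
times apply it to `t ↦ e (-t)`) gives `‖e t‖ ≤ C' ‖h‖²`.
-/

namespace Vale.Agent.P255

open scoped ContDiff Topology
open Set Metric

theorem flow_gronwall_pos {F : Type*} [NormedAddCommGroup F] [NormedSpace ℝ F] {e e' : ℝ → F}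
    {ε K δ : ℝ} (hK : 0 < K) (hδ : 0 ≤ δ) (hd : ∀ t ∈ Ioo (-ε) ε, HasDerivAt e (e' t) t)
    (h0 : e 0 = 0) (hb : ∀ t ∈ Ioo (-ε) ε, ‖e' t‖ ≤ K * ‖e t‖ + δ) {t : ℝ} (ht0 : 0 ≤ t)
    (ht : t < ε) : ‖e t‖ ≤ δ / K * Real.exp (K * ε) := by
  have hsub : Icc 0 t ⊆ Ioo (-ε) ε := fun s hs => ⟨by linarith [hs.1], hs.2.trans_lt ht⟩
  have h1 := norm_le_gronwallBound_of_norm_deriv_right_le (f := e) (f' := e') (δ := 0) (K := K)
    (ε := δ) (a := 0) (b := t) (fun s hs => (hd s (hsub hs)).continuousAt.continuousWithinAt)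
    (fun s hs => (hd s (hsub (Ico_subset_Icc_self hs))).hasDerivWithinAt) (by simp [h0])
    (fun s hs => hb s (hsub (Ico_subset_Icc_self hs))) t (right_mem_Icc.2 ht0)
  rw [gronwallBound_of_K_ne_0 hK.ne'] at h1
  simp only [zero_mul, zero_add, sub_zero] at h1
  refine h1.trans (mul_le_mul_of_nonneg_left ?_ (div_nonneg hδ hK.le))
  have := Real.exp_le_exp.2 (mul_le_mul_of_nonneg_left ht.le hK.le)
  linarith

theorem flow_gronwall {F : Type*} [NormedAddCommGroup F] [NormedSpace ℝ F] {e e' : ℝ → F}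
    {ε K δ : ℝ} (hK : 0 < K) (hδ : 0 ≤ δ) (hd : ∀ t ∈ Ioo (-ε) ε, HasDerivAt e (e' t) t)
    (h0 : e 0 = 0) (hb : ∀ t ∈ Ioo (-ε) ε, ‖e' t‖ ≤ K * ‖e t‖ + δ) {t : ℝ}
    (ht : t ∈ Ioo (-ε) ε) : ‖e t‖ ≤ δ / K * Real.exp (K * ε) := by
  rcases le_total 0 t with h | h
  · exact flow_gronwall_pos hK hδ hd h0 hb h ht.2
  · have hneg : ∀ s ∈ Ioo (-ε) ε, -s ∈ Ioo (-ε) ε := fun s hs =>
      ⟨by linarith [hs.2], by linarith [hs.1]⟩
    have h1 := flow_gronwall_pos (e := fun s => e (-s)) (e' := fun s => -e' (-s)) hK hδ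
      (fun s hs => ((hd _ (hneg s hs)).scomp s (hasDerivAt_neg s)).congr_deriv (by simp))
      (by simpa using h0) (fun s hs => by simpa using hb _ (hneg s hs)) (t := -t) (by linarith)
      (by linarith [ht.1])
    simpa using h1

theorem flow_taylor {F : Type*} [NormedAddCommGroup F] [NormedSpace ℝ F] {V : F → F}
    {B : Set F} (hB : Convex ℝ B) (hV : ∀ x ∈ B, DifferentiableAt ℝ V x) {K : NNReal}
    (hK : LipschitzOnWith K (fderiv ℝ V) B) {x y : F} (hx : x ∈ B) (hy : y ∈ B) :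
    ‖V y - V x - fderiv ℝ V x (y - x)‖ ≤ K * ‖y - x‖ * ‖y - x‖ := by
  refine Convex.norm_image_sub_le_of_norm_hasFDerivWithin_le' (f' := fderiv ℝ V)
    (s := B ∩ closedBall x ‖y - x‖) (fun w hw => (hV w hw.1).hasFDerivAt.hasFDerivWithinAt)
    (fun w hw => ?_) (hB.inter (convex_closedBall _ _)) ⟨hx, mem_closedBall_self (norm_nonneg _)⟩
    ⟨hy, by rw [mem_closedBall, dist_eq_norm]⟩
  refine (hK.norm_sub_le hw.1 hx).trans (mul_le_mul_of_nonneg_left ?_ K.2)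
  rw [← dist_eq_norm]
  exact hw.2

theorem exists_flow {F : Type*} [NormedAddCommGroup F] [NormedSpace ℝ F] [FiniteDimensional ℝ F]
    {V : F → F} {Ω : Set F} (hΩ : IsOpen Ω) (hV : ContDiffOn ℝ ∞ V Ω) {z₀ : F} (hz : z₀ ∈ Ω) :
    ∃ ε > 0, ∃ r > 0, ∃ (φ : F → ℝ → F) (Y : F → ℝ → F →L[ℝ] F),
      (∀ z ∈ ball z₀ r, φ z 0 = z ∧ Y z 0 = ContinuousLinearMap.id ℝ F ∧ ∀ t ∈ Ioo (-ε) ε,
        φ z t ∈ Ω ∧ HasDerivAt (φ z) (V (φ z t)) t ∧
        HasDerivAt (Y z) ((fderiv ℝ V (φ z t)).comp (Y z t)) t ∧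
        HasFDerivAt (fun z' => φ z' t) (Y z t) z) ∧
      ∀ t ∈ Ioo (-ε) ε, ContinuousOn (fun z => Y z t) (ball z₀ r) := by
  have hVz : ContDiffAt ℝ ∞ V z₀ := hV.contDiffAt (hΩ.mem_nhds hz)
  have hA : ContDiffAt ℝ 1 (fderiv ℝ V) z₀ := hVz.fderiv_right (by norm_cast)
  have hV1 : ContDiffAt ℝ 1 V z₀ := hVz.of_le (by norm_cast)
  obtain ⟨K', s, hs, hK'⟩ := hA.exists_lipschitzOnWith
  obtain ⟨ρ, hρ, hρs⟩ := Metric.nhds_basis_closedBall.mem_iff.1
    (Filter.inter_mem hs (hΩ.mem_nhds hz))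
  have hKB : LipschitzOnWith K' (fderiv ℝ V) (closedBall z₀ ρ) :=
    hK'.mono fun x hx => (hρs hx).1
  have hVB : ∀ x ∈ closedBall z₀ ρ, DifferentiableAt ℝ V x := fun x hx =>
    (hV.contDiffAt (hΩ.mem_nhds (hρs hx).2)).differentiableAt (by simp)
  obtain ⟨M, hM0, hM⟩ : ∃ M : ℝ, 0 < M ∧ ∀ x ∈ closedBall z₀ ρ, ‖fderiv ℝ V x‖ ≤ M := by
    obtain ⟨C, hC⟩ := (isCompact_closedBall z₀ ρ).exists_bound_of_continuousOn hKB.continuousOn
    exact ⟨max C 1, lt_max_of_lt_right one_pos, fun x hx => (hC x hx).trans (le_max_left _ _)⟩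
  let G : F × (F →L[ℝ] F) → F × (F →L[ℝ] F) := fun p => (V p.1, (fderiv ℝ V p.1).comp p.2)
  have hG : ContDiffAt ℝ 1 G (z₀, ContinuousLinearMap.id ℝ F) :=
    (hV1.comp (z₀, ContinuousLinearMap.id ℝ F) contDiffAt_fst).prodMk
      ((hA.comp (z₀, ContinuousLinearMap.id ℝ F) contDiffAt_fst).clm_comp contDiffAt_snd)
  obtain ⟨ε, hε, a, r, L, K, hr, hpl⟩ := IsPicardLindelof.of_contDiffAt_one hG
  obtain ⟨α, hα, L', hL'⟩ :=
    (hpl 0).exists_forall_mem_closedBall_eq_hasDerivWithinAt_lipschitzOnWith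
  simp only [zero_sub, zero_add] at hα hL'
  have hr' : (0 : ℝ) < r := hr
  have hmem : ∀ z ∈ ball z₀ (r : ℝ), (z, ContinuousLinearMap.id ℝ F) ∈
      closedBall (z₀, ContinuousLinearMap.id ℝ F) (r : ℝ) := by
    intro z hz'
    rw [mem_closedBall, Prod.dist_eq, dist_self, max_eq_left dist_nonneg]
    exact (mem_ball.1 hz').le
  have hder : ∀ z ∈ ball z₀ (r : ℝ), ∀ t ∈ Ioo (-ε) ε,
      HasDerivAt (α (z, ContinuousLinearMap.id ℝ F)) (G (α (z, ContinuousLinearMap.id ℝ F) t)) t :=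
    fun z hz' t ht => ((hα _ (hmem z hz')).2 t (Ioo_subset_Icc_self ht)).hasDerivAt
      (Icc_mem_nhds ht.1 ht.2)
  have hlip : ∀ t ∈ Ioo (-ε) ε, ∀ z ∈ ball z₀ (r : ℝ), ∀ z' ∈ ball z₀ (r : ℝ),
      dist (α (z, ContinuousLinearMap.id ℝ F) t) (α (z', ContinuousLinearMap.id ℝ F) t) ≤
        L' * dist z z' := by
    intro t ht z hz' z' hz''
    have h1 := (hL' t (Ioo_subset_Icc_self ht)).dist_le_mul _ (hmem z hz') _ (hmem z' hz'')
    rwa [Prod.dist_eq (x := (z, _)), dist_self, max_eq_left dist_nonneg] at h1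
  have h00 : (0 : ℝ) ∈ Ioo (-ε) ε := ⟨by linarith, hε⟩
  obtain ⟨ε₁, hε₁, hcont⟩ := Metric.continuousAt_iff.1
    (hder z₀ (mem_ball_self hr') 0 h00).continuousAt (ρ / 2) (by linarith)
  rw [(hα _ (hmem z₀ (mem_ball_self hr'))).1] at hcont
  have hL0 : (0 : ℝ) ≤ L' := L'.2
  have hsubt : Ioo (-min ε ε₁) (min ε ε₁) ⊆ Ioo (-ε) ε :=
    Ioo_subset_Ioo (neg_le_neg (min_le_left _ _)) (min_le_left _ _)
  have hsubz : ball z₀ (min (r : ℝ) (ρ / 2 / (L' + 1))) ⊆ ball z₀ (r : ℝ) :=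
    ball_subset_ball (min_le_left _ _)
  have hin : ∀ z ∈ ball z₀ (min (r : ℝ) (ρ / 2 / (L' + 1))), ∀ t ∈ Ioo (-min ε ε₁) (min ε ε₁),
      (α (z, ContinuousLinearMap.id ℝ F) t).1 ∈ closedBall z₀ ρ := by
    intro z hz' t ht
    have h1 := hlip t (hsubt ht) z (hsubz hz') z₀ (mem_ball_self hr')
    have h2 : dist t 0 < ε₁ := by
      rw [Real.dist_0_eq_abs, abs_lt]
      exact ⟨(neg_le_neg (min_le_right _ _)).trans_lt ht.1, ht.2.trans_le (min_le_right _ _)⟩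
    have h3 := hcont h2
    have h4 : dist z z₀ ≤ ρ / 2 / (L' + 1) := (mem_ball.1 hz').le.trans (min_le_right _ _)
    rw [le_div_iff₀ (by linarith)] at h4
    have h5 := dist_triangle (α (z, ContinuousLinearMap.id ℝ F) t)
      (α (z₀, ContinuousLinearMap.id ℝ F) t) (z₀, ContinuousLinearMap.id ℝ F)
    have h6 : dist (α (z, ContinuousLinearMap.id ℝ F) t).1 z₀ ≤
        dist (α (z, ContinuousLinearMap.id ℝ F) t) (z₀, ContinuousLinearMap.id ℝ F) :=
      le_max_left _ _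
    rw [mem_closedBall]
    nlinarith [dist_nonneg (x := z) (y := z₀)]
  have hd1 : ∀ z ∈ ball z₀ (r : ℝ), ∀ t ∈ Ioo (-ε) ε,
      HasDerivAt (fun t => (α (z, ContinuousLinearMap.id ℝ F) t).1)
        (V (α (z, ContinuousLinearMap.id ℝ F) t).1) t :=
    fun z hz' t ht => (hder z hz' t ht).fst
  have hd2 : ∀ z ∈ ball z₀ (r : ℝ), ∀ t ∈ Ioo (-ε) ε,
      HasDerivAt (fun t => (α (z, ContinuousLinearMap.id ℝ F) t).2)
        ((fderiv ℝ V (α (z, ContinuousLinearMap.id ℝ F) t).1).comp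
          (α (z, ContinuousLinearMap.id ℝ F) t).2) t :=
    fun z hz' t ht => (hder z hz' t ht).snd
  refine ⟨min ε ε₁, lt_min hε hε₁, min (r : ℝ) (ρ / 2 / (L' + 1)), lt_min hr' (by positivity),
    fun z t => (α (z, ContinuousLinearMap.id ℝ F) t).1,
    fun z t => (α (z, ContinuousLinearMap.id ℝ F) t).2, fun z hz' => ⟨?_, ?_, fun t ht =>
      ⟨(hρs (hin z hz' t ht)).2, hd1 z (hsubz hz') t (hsubt ht), hd2 z (hsubz hz') t (hsubt ht),
        ?_⟩⟩, fun t ht => ?_⟩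
  · exact congrArg Prod.fst (hα _ (hmem z (hsubz hz'))).1
  · exact congrArg Prod.snd (hα _ (hmem z (hsubz hz'))).1
  · rw [hasFDerivAt_iff_isLittleO_nhds_zero]
    refine Asymptotics.IsBigO.trans_isLittleO (g := fun h : F => ‖h‖ ^ 2)
      (Asymptotics.IsBigO.of_bound (K' * L' ^ 2 / M * Real.exp (M * min ε ε₁)) ?_)
      (Asymptotics.isLittleO_norm_pow_id one_lt_two)
    have hev : ∀ᶠ h in 𝓝 (0 : F), z + h ∈ ball z₀ (min (r : ℝ) (ρ / 2 / (L' + 1))) := by
      have h1 : ContinuousAt (fun h : F => z + h) 0 := by fun_prop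
      exact h1.eventually (isOpen_ball.mem_nhds (by simpa using hz'))
    filter_upwards [hev] with h hh
    have key := flow_gronwall (ε := min ε ε₁) (K := M) (δ := K' * L' ^ 2 * ‖h‖ ^ 2)
      (e := fun t => (α (z + h, ContinuousLinearMap.id ℝ F) t).1 -
        (α (z, ContinuousLinearMap.id ℝ F) t).1 - (α (z, ContinuousLinearMap.id ℝ F) t).2 h)
      (e' := fun t => V (α (z + h, ContinuousLinearMap.id ℝ F) t).1 -
        V (α (z, ContinuousLinearMap.id ℝ F) t).1 -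
        fderiv ℝ V (α (z, ContinuousLinearMap.id ℝ F) t).1
          ((α (z, ContinuousLinearMap.id ℝ F) t).2 h)) hM0 (by positivity)
      (fun s hs => by
        have h1 := ((hd1 _ (hsubz hh) s (hsubt hs)).sub (hd1 z (hsubz hz') s (hsubt hs))).sub
          ((hd2 z (hsubz hz') s (hsubt hs)).clm_apply (hasDerivAt_const s h))
        exact h1.congr_deriv (by simp))
      (by simp [(hα _ (hmem z (hsubz hz'))).1, (hα _ (hmem _ (hsubz hh))).1])
      (fun s hs => by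
        have h1 := flow_taylor (convex_closedBall z₀ ρ) hVB hKB (hin z hz' s hs) (hin _ hh s hs)
        have h2 := hlip s (hsubt hs) _ (hsubz hh) z (hsubz hz')
        have h3 : ‖(α (z + h, ContinuousLinearMap.id ℝ F) s).1 -
            (α (z, ContinuousLinearMap.id ℝ F) s).1‖ ≤ L' * ‖h‖ := by
          rw [dist_self_add_left] at h2
          rw [← dist_eq_norm]
          exact (le_max_left _ _).trans h2
        generalize (α (z + h, ContinuousLinearMap.id ℝ F) s).1 = y at h1 h3 ⊢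
        have h4 := hM _ (hin z hz' s hs)
        generalize (α (z, ContinuousLinearMap.id ℝ F) s).1 = x at h1 h3 h4 ⊢
        generalize (α (z, ContinuousLinearMap.id ℝ F) s).2 h = w
        have e : V y - V x - fderiv ℝ V x w =
            fderiv ℝ V x (y - x - w) + (V y - V x - fderiv ℝ V x (y - x)) := by
          rw [map_sub (fderiv ℝ V x) (y - x) w]
          abel
        rw [e]
        refine (norm_add_le _ _).trans (add_le_add ((fderiv ℝ V x).le_of_opNorm_le h4 _)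
          (h1.trans ?_))
        calc K' * ‖y - x‖ * ‖y - x‖ ≤ K' * (L' * ‖h‖) * (L' * ‖h‖) := by gcongr
          _ = _ := by ring) ht
    refine key.trans (le_of_eq ?_)
    rw [norm_pow, norm_norm]
    ring
  · refine continuous_snd.comp_continuousOn (LipschitzOnWith.continuousOn (K := L') ?_)
    exact LipschitzOnWith.of_dist_le_mul fun z hz' z' hz'' =>
      hlip t (hsubt ht) z (hsubz hz') z' (hsubz hz'')

end Vale.Agent.P255
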