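import Vale.Agent.P255.Geo
import Vale.Agent.P255.Flow

/-!
# Completeness of closed manifolds; systole  (TASK)

`exists_short`: for `x₀` take `e = chartAt x₀`, the flow of `spray (g.g e)` near `(e x₀, 0)` inside
`Ω = (ball ⊆ target) ×ˢ univ` (`exists_flow`); `exists_bounds` turns small speed into small chart
velocity, uniformly on a neighbourhood of `x₀`; the curve `e.symm ∘ fst ∘ φ z` is a geodesic
(`isGeodesic_of_local`); a vector `v` in the chart at `x` is moved to the chart `e` by the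
derivative of the transition (`g.compat`, `hasDerivAt_chart`, `fderiv_tr_trans`).  Finite subcover.
`exists_geodesic`: for speed `< δ`, the set of `T` such that a geodesic on `Ioo (-T) T` with the
initial data exists is unbounded (extend at `±(T - ε/2)` by `exists_short`, `speed_const`, glue by
`unique`); then define `γ t` from a geodesic on `Ioo (-(|t|+1)) (|t|+1)`; general speed by
`comp_affine`.
`systole`: with the same local flows, a geodesic with small initial velocity `w` in the chart `e`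
stays in a compact ball on `[0, τ]`, has `‖x'‖ ≤ C ‖w‖` (speed is constant), `‖x''‖ ≤ C' ‖w‖²`,
so `‖x τ - x 0 - τ w‖ ≤ C'' ‖w‖² < τ ‖w‖`; `exp x u = geo x (u / τ) τ` (`geo_smul`).
-/

namespace Vale.Agent.P255

open scoped ContDiff Topology Manifold
open Set

variable {E M : Type*} [NormedAddCommGroup E] [NormedSpace ℝ E] [FiniteDimensional ℝ E]
  [TopologicalSpace M] [ChartedSpace E M] [IsManifold 𝓘(ℝ, E) ∞ M] [T2Space M] [CompactSpace M]

namespace Metric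

variable (g : Metric E M)

omit [FiniteDimensional ℝ E] [IsManifold 𝓘(ℝ, E) ∞ M] [T2Space M] [CompactSpace M] in
theorem geo2_deriv_affine (f : ℝ → E) (c d t : ℝ) :
    deriv (fun s => f (c * s + d)) t = c • deriv f (c * t + d) := by
  rw [deriv_comp_mul_left c (fun s => f (s + d)) t, deriv_comp_add_const]

omit [T2Space M] [CompactSpace M] in
/-- short geodesics near a point, staying in a prescribed part of the chart -/
theorem geo2_local (x₀ : M) {W : Set E} (hW : IsOpen W) (hWt : W ⊆ (chartAt E x₀).target)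
    (h0 : chartAt E x₀ x₀ ∈ W) : ∃ δ > 0, ∃ ε > 0, ∀ᶠ x in 𝓝 x₀, ∀ v : E, g.ip x v v < δ →
      ∃ γ, g.IsGeodesic γ (Ioo (-ε) ε) ∧ γ 0 = x ∧ deriv (chartAt E x ∘ γ) 0 = v ∧
        ∀ t ∈ Ioo (-ε) ε, γ t ∈ (chartAt E x₀).source ∧ chartAt E x₀ (γ t) ∈ W := by
  set e := chartAt E x₀ with he'
  have he : e ∈ atlas E M := chart_mem_atlas E x₀
  have hl := g.loc he
  obtain ⟨ε, hε, r, hr, φ, Y, hφ, -⟩ := exists_flow (V := spray (g.g e)) (Ω := W ×ˢ univ)
    (hW.prod isOpen_univ) (hl.contDiffOn_spray.mono (prod_mono hWt subset_rfl))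
    (z₀ := (e x₀, 0)) ⟨h0, mem_univ _⟩
  obtain ⟨ρ, hρ, hρt⟩ := _root_.Metric.nhds_basis_closedBall.mem_iff.1
    (e.open_target.mem_nhds (hWt h0))
  obtain ⟨c, C, hc, -, hb⟩ := hl.exists_bounds (isCompact_closedBall (e x₀) ρ) hρt
  refine ⟨c * r ^ 2, by positivity, ε, hε, ?_⟩
  have hca : ContinuousAt e x₀ := e.continuousAt (mem_chart_source E x₀)
  filter_upwards [e.open_source.mem_nhds (mem_chart_source E x₀),
    hca (_root_.Metric.ball_mem_nhds _ hr), hca (_root_.Metric.closedBall_mem_nhds _ hρ)]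
    with x hx hxr hxρ v hv
  set w := fderiv ℝ (e ∘ (chartAt E x).symm) (chartAt E x x) v with hw
  have h1 : g.ip x v v = g.g e (e x) w w :=
    g.compat _ (chart_mem_atlas E x) e he x (mem_chart_source E x) hx v v
  have h2 : ‖w‖ < r := by
    have h3 := (hb (e x) hxρ w).1
    have h4 : ‖w‖ ^ 2 < r ^ 2 := lt_of_mul_lt_mul_left (by linarith) hc.le
    exact lt_of_pow_lt_pow_left₀ 2 hr.le h4
  have hz : (e x, w) ∈ _root_.Metric.ball (e x₀, (0 : E)) r := by
    rw [← ball_prod_same]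
    exact ⟨hxr, mem_ball_zero_iff.2 h2⟩
  obtain ⟨hφ0, -, hφt⟩ := hφ _ hz
  have hmem : ∀ t ∈ Ioo (-ε) ε, (φ (e x, w) t).1 ∈ e.target := fun t ht => hWt (hφt t ht).1.1
  have hfst : ∀ t ∈ Ioo (-ε) ε, HasDerivAt (fun s => (φ (e x, w) s).1) (φ (e x, w) t).2 t :=
    fun t ht => (hφt t ht).2.1.fst
  have hsnd : ∀ t ∈ Ioo (-ε) ε, HasDerivAt (fun s => (φ (e x, w) s).2)
      (-chr (g.g e) (φ (e x, w) t).1 (φ (e x, w) t).2 (φ (e x, w) t).2) t :=
    fun t ht => (hφt t ht).2.1.snd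
  have hcont : ∀ t ∈ Ioo (-ε) ε, ContinuousAt (fun s => e.symm (φ (e x, w) s).1) t := fun t ht =>
    ContinuousAt.comp (f := fun s => (φ (e x, w) s).1) (e.continuousAt_symm (hmem t ht))
      (hfst t ht).continuousAt
  have hder : ∀ t ∈ Ioo (-ε) ε, HasDerivAt (e ∘ fun s => e.symm (φ (e x, w) s).1)
      (φ (e x, w) t).2 t := fun t ht => by
    refine (hfst t ht).congr_of_eventuallyEq ?_
    filter_upwards [isOpen_Ioo.mem_nhds ht] with s hs
    exact e.right_inv (hmem s hs)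
  have h00 : (0 : ℝ) ∈ Ioo (-ε) ε := ⟨by linarith, hε⟩
  have hγ0 : e.symm (φ (e x, w) 0).1 = x := by
    rw [hφ0]
    exact e.left_inv hx
  refine ⟨fun s => e.symm (φ (e x, w) s).1, isGeodesic_of_local isOpen_Ioo
    (fun t ht => (hcont t ht).continuousWithinAt) fun t ht => ⟨e, he, e.map_target (hmem t ht),
      fun s => (φ (e x, w) s).2, ?_, ?_⟩, hγ0, ?_, fun t ht => ⟨e.map_target (hmem t ht), ?_⟩⟩
  · filter_upwards [isOpen_Ioo.mem_nhds ht] with s hs
    exact hder s hs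
  · rw [e.right_inv (hmem t ht)]
    exact hsnd t ht
  · have h5 := hasDerivAt_chart he (chart_mem_atlas E x) (hcont 0 h00)
      (e.map_target (hmem 0 h00)) (by rw [hγ0]; exact mem_chart_source E x) (hder 0 h00)
    rw [h5.deriv, hγ0, hφ0]
    rw [hw, fderiv_tr_trans (chart_mem_atlas E x) he (chart_mem_atlas E x) (mem_chart_source E x)
      hx (mem_chart_source E x), fderiv_tr_self (mem_chart_source E x)]
  · rw [e.right_inv (hmem t ht)]
    exact (hφt t ht).1.1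

theorem exists_short : ∃ δ > 0, ∃ ε > 0, ∀ (x : M) (v : E), g.ip x v v < δ →
    ∃ γ, g.IsGeodesic γ (Ioo (-ε) ε) ∧ γ 0 = x ∧ deriv (chartAt E x ∘ γ) 0 = v := by
  have key : ∃ δ > 0, ∃ ε > 0, ∀ x ∈ (univ : Set M), ∀ v : E, g.ip x v v < δ →
      ∃ γ, g.IsGeodesic γ (Ioo (-ε) ε) ∧ γ 0 = x ∧ deriv (chartAt E x ∘ γ) 0 = v := by
    refine isCompact_univ.induction_on (p := fun s => ∃ δ > 0, ∃ ε > 0, ∀ x ∈ s, ∀ v : E,
      g.ip x v v < δ → ∃ γ, g.IsGeodesic γ (Ioo (-ε) ε) ∧ γ 0 = x ∧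
        deriv (chartAt E x ∘ γ) 0 = v) ⟨1, one_pos, 1, one_pos, fun x hx => hx.elim⟩ ?_ ?_ ?_
    · rintro s t hst ⟨δ, hδ, ε, hε, h⟩
      exact ⟨δ, hδ, ε, hε, fun x hx => h x (hst hx)⟩
    · rintro s t ⟨δ, hδ, ε, hε, h⟩ ⟨δ', hδ', ε', hε', h'⟩
      refine ⟨min δ δ', lt_min hδ hδ', min ε ε', lt_min hε hε', fun x hx v hv => ?_⟩
      rcases hx with hx | hx
      · obtain ⟨γ, a, b⟩ := h x hx v (hv.trans_le (min_le_left _ _))
        exact ⟨γ, a.mono (Ioo_subset_Ioo (neg_le_neg (min_le_left _ _)) (min_le_left _ _)), b⟩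
      · obtain ⟨γ, a, b⟩ := h' x hx v (hv.trans_le (min_le_right _ _))
        exact ⟨γ, a.mono (Ioo_subset_Ioo (neg_le_neg (min_le_right _ _)) (min_le_right _ _)), b⟩
    · intro x₀ _
      obtain ⟨δ, hδ, ε, hε, h⟩ := g.geo2_local x₀ (chartAt E x₀).open_target subset_rfl
        (mem_chart_target E x₀)
      refine ⟨_, mem_nhdsWithin_of_mem_nhds h, δ, hδ, ε, hε, fun x hx v hv => ?_⟩
      obtain ⟨γ, a, b, c, -⟩ := hx v hv
      exact ⟨γ, a, b, c⟩
  obtain ⟨δ, hδ, ε, hε, h⟩ := key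
  exact ⟨δ, hδ, ε, hε, fun x => h x (mem_univ x)⟩

omit [FiniteDimensional ℝ E] [IsManifold 𝓘(ℝ, E) ∞ M] [T2Space M] [CompactSpace M] in
/-- being a geodesic is a local property -/
theorem geo2_of_locally {γ : ℝ → M} {s : Set ℝ}
    (h : ∀ t ∈ s, ∃ γ' s', g.IsGeodesic γ' s' ∧ s' ∈ 𝓝 t ∧ γ =ᶠ[𝓝 t] γ') : g.IsGeodesic γ s := by
  refine ⟨fun t ht => ?_, fun e he t ht hx => ?_⟩
  · obtain ⟨γ', s', a, b, c⟩ := h t ht
    exact ((a.1.continuousAt b).congr c.symm).continuousWithinAt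
  · obtain ⟨γ', s', a, b, c⟩ := h t ht
    have e1 : γ t = γ' t := c.eq_of_nhds
    have e2 : e ∘ γ =ᶠ[𝓝 t] e ∘ γ' := c.fun_comp e
    obtain ⟨h1, h2⟩ := a.2 e he t (mem_of_mem_nhds b) (e1 ▸ hx)
    refine ⟨e2.differentiableAt_iff.2 h1, ?_⟩
    rw [e2.deriv_eq, e1]
    exact h2.congr_of_eventuallyEq e2.deriv

omit [CompactSpace M] in
theorem geo2_extend {δ ε : ℝ} (hε : 0 < ε) (hs : ∀ (x : M) (v : E), g.ip x v v < δ →
      ∃ γ, g.IsGeodesic γ (Ioo (-ε) ε) ∧ γ 0 = x ∧ deriv (chartAt E x ∘ γ) 0 = v)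
    {γ : ℝ → M} {a b t₁ : ℝ} (hγ : g.IsGeodesic γ (Ioo a b)) (ht : t₁ ∈ Ioo a b)
    (hv : g.ip (γ t₁) (vel E γ t₁) (vel E γ t₁) < δ) :
    ∃ γ', g.IsGeodesic γ' (Ioo a b ∪ Ioo (t₁ - ε) (t₁ + ε)) ∧ EqOn γ' γ (Ioo a b) := by
  classical
  obtain ⟨σ, hσ, h0, h1⟩ := hs _ _ hv
  have hσ' : g.IsGeodesic (fun t => σ (1 * t + -t₁)) (Ioo (t₁ - ε) (t₁ + ε)) :=
    (hσ.comp_affine isOpen_Ioo 1 (-t₁)).mono fun t ht => ⟨by linarith [ht.1], by linarith [ht.2]⟩
  have e0 : 1 * t₁ + -t₁ = 0 := by ring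
  have heq : EqOn γ (fun t => σ (1 * t + -t₁)) (Ioo a b ∩ Ioo (t₁ - ε) (t₁ + ε)) := by
    refine (hγ.mono inter_subset_left).unique (hσ'.mono inter_subset_right)
      (isOpen_Ioo.inter isOpen_Ioo) ((convex_Ioo _ _).inter (convex_Ioo _ _)).isPreconnected
      (t₀ := t₁) ⟨ht, by linarith, by linarith⟩ (chart_mem_atlas E (γ t₁))
      (mem_chart_source E _) (by rw [e0, h0]) ?_
    have := geo2_deriv_affine (chartAt E (γ t₁) ∘ σ) 1 (-t₁) t₁
    rw [e0, h1, one_smul] at this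
    exact this.symm
  refine ⟨fun t => if t ∈ Ioo a b then γ t else σ (1 * t + -t₁), g.geo2_of_locally ?_,
    fun t ht => if_pos ht⟩
  rintro t (ht | ht)
  · refine ⟨γ, _, hγ, isOpen_Ioo.mem_nhds ht, ?_⟩
    filter_upwards [isOpen_Ioo.mem_nhds ht] with s hs
    exact if_pos hs
  · refine ⟨_, _, hσ', isOpen_Ioo.mem_nhds ht, ?_⟩
    filter_upwards [isOpen_Ioo.mem_nhds ht] with s hs
    by_cases h : s ∈ Ioo a b
    · rw [if_pos h]
      exact heq ⟨h, hs⟩
    · exact if_neg h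

omit [CompactSpace M] in
theorem geo2_long {δ ε : ℝ} (hε : 0 < ε) (hs : ∀ (x : M) (v : E), g.ip x v v < δ →
      ∃ γ, g.IsGeodesic γ (Ioo (-ε) ε) ∧ γ 0 = x ∧ deriv (chartAt E x ∘ γ) 0 = v)
    (x : M) (v : E) (hv : g.ip x v v < δ) (n : ℕ) :
    ∃ γ, g.IsGeodesic γ (Ioo (-(ε + n * (ε / 2))) (ε + n * (ε / 2))) ∧ γ 0 = x ∧
      deriv (chartAt E x ∘ γ) 0 = v := by
  have step : ∀ {γ : ℝ → M} {a b t₁ : ℝ}, g.IsGeodesic γ (Ioo a b) → (0 : ℝ) ∈ Ioo a b →
      t₁ ∈ Ioo a b → γ 0 = x → deriv (chartAt E x ∘ γ) 0 = v →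
      ∃ γ', g.IsGeodesic γ' (Ioo a b ∪ Ioo (t₁ - ε) (t₁ + ε)) ∧ γ' 0 = x ∧
        deriv (chartAt E x ∘ γ') 0 = v := by
    intro γ a b t₁ hγ h0 ht hx hd
    have hsp : g.ip (γ t₁) (vel E γ t₁) (vel E γ t₁) < δ := by
      rw [hγ.speed_const isOpen_Ioo isPreconnected_Ioo ht h0, vel, hx, hd]
      exact hv
    obtain ⟨γ', h1, h2⟩ := g.geo2_extend hε hs hγ ht hsp
    have h3 : γ' =ᶠ[𝓝 0] γ := h2.eventuallyEq_of_mem (isOpen_Ioo.mem_nhds h0)
    exact ⟨γ', h1, (h2 h0).trans hx, (h3.fun_comp _).deriv_eq.trans hd⟩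
  induction n with
  | zero => simpa using hs x v hv
  | succ n ih =>
    obtain ⟨γ, h1, h2, h3⟩ := ih
    have hn : 0 ≤ n * (ε / 2) := by positivity
    set T := ε + n * (ε / 2) with hT
    have e : ε + (n + 1 : ℕ) * (ε / 2) = T + ε / 2 := by
      rw [hT]
      push_cast
      ring
    rw [e]
    obtain ⟨γ', a1, a2, a3⟩ := step (t₁ := T - ε / 2) h1 ⟨by linarith, by linarith⟩
      ⟨by linarith, by linarith⟩ h2 h3
    have a4 : g.IsGeodesic γ' (Ioo (-T) (T + ε / 2)) := a1.mono fun t ht => by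
      by_cases h : t < T
      · exact Or.inl ⟨ht.1, h⟩
      · exact Or.inr ⟨by linarith [not_lt.1 h], by linarith [ht.2]⟩
    obtain ⟨γ'', b1, b2, b3⟩ := step (t₁ := -T + ε / 2) a4 ⟨by linarith, by linarith⟩
      ⟨by linarith, by linarith⟩ a2 a3
    refine ⟨γ'', b1.mono fun t ht => ?_, b2, b3⟩
    by_cases h : -T < t
    · exact Or.inl ⟨h, ht.2⟩
    · exact Or.inr ⟨by linarith [ht.1], by linarith [not_lt.1 h]⟩

omit [CompactSpace M] in
theorem geo2_global (x : M) (v : E) (h : ∀ T : ℝ, ∃ γ, g.IsGeodesic γ (Ioo (-T) T) ∧ γ 0 = x ∧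
      deriv (chartAt E x ∘ γ) 0 = v) :
    ∃ γ, g.IsGeodesic γ univ ∧ γ 0 = x ∧ deriv (chartAt E x ∘ γ) 0 = v := by
  choose Γ h1 h2 h3 using h
  have key : ∀ T T' t : ℝ, |t| < T → |t| < T' → Γ T t = Γ T' t := fun T T' t a b => by
    have hT : 0 < T := (abs_nonneg t).trans_lt a
    have hT' : 0 < T' := (abs_nonneg t).trans_lt b
    refine ((h1 T).mono inter_subset_left).unique ((h1 T').mono inter_subset_right)
      (isOpen_Ioo.inter isOpen_Ioo) ((convex_Ioo _ _).inter (convex_Ioo _ _)).isPreconnected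
      (t₀ := 0) ⟨⟨by linarith, hT⟩, by linarith, hT'⟩ (chart_mem_atlas E x)
      (by rw [h2]; exact mem_chart_source E x) (by rw [h2, h2]) (by rw [h3, h3])
      ⟨abs_lt.1 a, abs_lt.1 b⟩
  have loc : ∀ t : ℝ, (fun s => Γ (|s| + 1) s) =ᶠ[𝓝 t] Γ (|t| + 1) := fun t => by
    have : Ioo (-(|t| + 1)) (|t| + 1) ∈ 𝓝 t := isOpen_Ioo.mem_nhds (abs_lt.1 (lt_add_one _))
    filter_upwards [this] with s hs
    exact key _ _ s (lt_add_one _) (abs_lt.2 hs)
  refine ⟨fun s => Γ (|s| + 1) s, g.geo2_of_locally fun t _ => ⟨_, _, h1 (|t| + 1),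
    isOpen_Ioo.mem_nhds (abs_lt.1 (lt_add_one _)), loc t⟩, h2 _, ?_⟩
  exact ((loc 0).fun_comp _).deriv_eq.trans (h3 _)

omit [FiniteDimensional ℝ E] [IsManifold 𝓘(ℝ, E) ∞ M] [T2Space M] [CompactSpace M] in
theorem geo2_ip_smul (x : M) (c : ℝ) (v : E) : g.ip x (c • v) (c • v) = c ^ 2 * g.ip x v v := by
  simp only [map_smul, smul_apply, smul_eq_mul]
  ring

theorem exists_geodesic (x : M) (v : E) :
    ∃ γ, g.IsGeodesic γ univ ∧ γ 0 = x ∧ deriv (chartAt E x ∘ γ) 0 = v := by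
  obtain ⟨δ, hδ, ε, hε, hs⟩ := g.exists_short
  have hc : ∀ᶠ c in 𝓝[>] (0 : ℝ), c ^ 2 * g.ip x v v < δ := by
    refine Filter.Eventually.filter_mono nhdsWithin_le_nhds ?_
    have h1 : ContinuousAt (fun c : ℝ => c ^ 2 * g.ip x v v) 0 := by fun_prop
    exact h1.eventually_lt continuousAt_const (by simpa using hδ)
  obtain ⟨c, hc1, hc0⟩ := (hc.and self_mem_nhdsWithin).exists
  have hc0' : c ≠ 0 := ne_of_gt hc0
  obtain ⟨γ, h1, h2, h3⟩ := g.geo2_global x (c • v) fun T => by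
    obtain ⟨n, hn⟩ := exists_nat_ge (T / (ε / 2))
    obtain ⟨γ, a, b⟩ := g.geo2_long hε hs x (c • v) (by rw [geo2_ip_smul]; exact hc1) n
    have : T ≤ n * (ε / 2) := (div_le_iff₀ (by positivity)).1 hn
    exact ⟨γ, a.mono (Ioo_subset_Ioo (by linarith) (by linarith)), b⟩
  refine ⟨fun t => γ (c⁻¹ * t + 0), h1.comp_affine isOpen_univ c⁻¹ 0, by simpa using h2, ?_⟩
  have := geo2_deriv_affine (chartAt E x ∘ γ) c⁻¹ 0 0
  rw [mul_zero, add_zero, h3, smul_smul, inv_mul_cancel₀ hc0', one_smul] at this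
  exact this

/-- The geodesic with initial point `x` and initial velocity `v` (in the chart at `x`). -/
noncomputable def geo (x : M) (v : E) : ℝ → M := (g.exists_geodesic x v).choose

/-- The exponential map. -/
noncomputable def exp (x : M) (v : E) : M := g.geo x v 1

theorem geo_isGeodesic (x : M) (v : E) : g.IsGeodesic (g.geo x v) univ :=
  (g.exists_geodesic x v).choose_spec.1

theorem geo_zero (x : M) (v : E) : g.geo x v 0 = x := (g.exists_geodesic x v).choose_spec.2.1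

theorem geo_deriv (x : M) (v : E) : deriv (chartAt E x ∘ g.geo x v) 0 = v :=
  (g.exists_geodesic x v).choose_spec.2.2

theorem continuous_geo (x : M) (v : E) : Continuous (g.geo x v) :=
  continuousOn_univ.1 (g.geo_isGeodesic x v).1

/-- Every complete geodesic is a `geo`. -/
theorem IsGeodesic.eq_geo {g : Metric E M} {γ : ℝ → M} (h : g.IsGeodesic γ univ) :
    γ = g.geo (γ 0) (vel E γ 0) := by
  funext t
  exact h.unique (g.geo_isGeodesic _ _) isOpen_univ isPreconnected_univ (mem_univ 0)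
    (chart_mem_atlas E (γ 0)) (mem_chart_source E _) (g.geo_zero _ _).symm
    (g.geo_deriv _ _).symm (mem_univ t)

theorem geo_smul (x : M) (v : E) (c t : ℝ) : g.geo x (c • v) t = g.geo x v (c * t) := by
  have h := (g.geo_isGeodesic x (c • v)).unique
    ((g.geo_isGeodesic x v).comp_affine isOpen_univ c 0) isOpen_univ isPreconnected_univ
    (mem_univ 0) (chart_mem_atlas E x) (by rw [geo_zero]; exact mem_chart_source E x)
    (by simp [geo_zero]) (by
      have := geo2_deriv_affine (chartAt E x ∘ g.geo x v) c 0 0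
      rw [mul_zero, add_zero, geo_deriv] at this
      rw [geo_deriv]
      exact this.symm) (mem_univ t)
  simpa using h

theorem geo_add (x : M) (v : E) (t s : ℝ) :
    g.geo (g.geo x v t) (vel E (g.geo x v) t) s = g.geo x v (t + s) := by
  have h := (g.geo_isGeodesic (g.geo x v t) (vel E (g.geo x v) t)).unique
    ((g.geo_isGeodesic x v).comp_affine isOpen_univ 1 t) isOpen_univ isPreconnected_univ
    (mem_univ 0) (chart_mem_atlas E (g.geo x v t))
    (by rw [geo_zero]; exact mem_chart_source E _) (by simp [geo_zero]) (by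
      have := geo2_deriv_affine (chartAt E (g.geo x v t) ∘ g.geo x v) 1 t 0
      rw [mul_zero, zero_add, one_smul] at this
      rw [geo_deriv]
      exact this.symm) (mem_univ s)
  simpa [add_comm] using h

theorem geo_speed (x : M) (v : E) (t : ℝ) :
    g.ip (g.geo x v t) (vel E (g.geo x v) t) (vel E (g.geo x v) t) = g.ip x v v := by
  rw [(g.geo_isGeodesic x v).speed_const isOpen_univ isPreconnected_univ (mem_univ t) (mem_univ 0),
    vel, geo_zero, geo_deriv]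

theorem exp_smul (x : M) (v : E) (t : ℝ) : g.exp x (t • v) = g.geo x v t := by
  rw [exp, geo_smul, mul_one]

theorem exp_zero (x : M) : g.exp x 0 = x := by
  simpa [geo_zero] using g.exp_smul x 0 0

theorem geo2_systole_local (x₀ : M) :
    ∃ δ > 0, ∀ᶠ x in 𝓝 x₀, ∀ u : E, g.exp x u = x → g.ip x u u < δ → u = 0 := by
  set e := chartAt E x₀ with he'
  have he : e ∈ atlas E M := chart_mem_atlas E x₀
  have hl := g.loc he
  obtain ⟨ρ, hρ, hρt⟩ := _root_.Metric.nhds_basis_closedBall.mem_iff.1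
    (e.open_target.mem_nhds (mem_chart_target E x₀))
  obtain ⟨c, C, hc, hC, hb⟩ := hl.exists_bounds (isCompact_closedBall (e x₀) ρ) hρt
  obtain ⟨B, hB⟩ := (isCompact_closedBall (e x₀) ρ).exists_bound_of_continuousOn
    (f := chrL (g.g e)) (hl.contDiffOn_chrL.continuousOn.mono hρt)
  have hB0 : 0 ≤ B := (norm_nonneg _).trans (hB _ (_root_.Metric.mem_closedBall_self hρ.le))
  obtain ⟨δ, hδ, ε, hε, hloc⟩ := g.geo2_local x₀ (W := _root_.Metric.ball (e x₀) ρ)
    _root_.Metric.isOpen_ball (_root_.Metric.ball_subset_closedBall.trans hρt)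
    (_root_.Metric.mem_ball_self hρ)
  set τ := ε / 2 with hτ
  have hτ0 : 0 < τ := by positivity
  set δ' := min δ (c ^ 3 / ((B * C * τ) ^ 2 + 1)) with hδ'
  have hδ'0 : 0 < δ' := lt_min hδ (by positivity)
  refine ⟨τ ^ 2 * δ', by positivity, ?_⟩
  filter_upwards [hloc] with x hx u hu hu'
  obtain ⟨v, rfl⟩ : ∃ v, u = τ • v := ⟨τ⁻¹ • u, by rw [smul_smul, mul_inv_cancel₀ hτ0.ne', one_smul]⟩
  rw [geo2_ip_smul] at hu'
  have hv : g.ip x v v < δ' := lt_of_mul_lt_mul_left hu' (by positivity)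
  rw [exp_smul] at hu
  obtain ⟨γ, h1, h2, h3, h4⟩ := hx v (hv.trans_le (min_le_left _ _))
  have h00 : (0 : ℝ) ∈ Ioo (-ε) ε := ⟨by linarith, hε⟩
  have hsub : ∀ t ∈ Icc 0 τ, t ∈ Ioo (-ε) ε := fun t ht => ⟨by linarith [ht.1], by linarith [ht.2]⟩
  have heq : EqOn γ (g.geo x v) (Ioo (-ε) ε) :=
    h1.unique ((g.geo_isGeodesic x v).mono (subset_univ _)) isOpen_Ioo isPreconnected_Ioo h00
      (chart_mem_atlas E x) (by rw [h2]; exact mem_chart_source E x) (by rw [h2, geo_zero])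
      (by rw [h3, geo_deriv])
  have hτγ : γ τ = γ 0 := by rw [heq (hsub τ ⟨hτ0.le, le_rfl⟩), hu, h2]
  set s := g.ip x v v with hs
  have hsp : ∀ t ∈ Ioo (-ε) ε, g.g e (e (γ t)) (deriv (e ∘ γ) t) (deriv (e ∘ γ) t) = s :=
    fun t ht => by
      rw [h1.speed_chart isOpen_Ioo he ht (h4 t ht).1,
        h1.speed_const isOpen_Ioo isPreconnected_Ioo ht h00, vel, h2, h3]
  have hK : ∀ t ∈ Ioo (-ε) ε, e (γ t) ∈ _root_.Metric.closedBall (e x₀) ρ := fun t ht =>
    _root_.Metric.ball_subset_closedBall (h4 t ht).2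
  have hvel : ∀ t ∈ Ioo (-ε) ε, ‖deriv (e ∘ γ) t‖ ^ 2 ≤ s / c := fun t ht => by
    rw [le_div_iff₀ hc, mul_comm, ← hsp t ht]
    exact (hb _ (hK t ht) _).1
  have hs0 : 0 ≤ s / c := (sq_nonneg _).trans (hvel 0 h00)
  have hacc : ∀ t ∈ Ioo (-ε) ε,
      ‖-chr (g.g e) (e (γ t)) (deriv (e ∘ γ) t) (deriv (e ∘ γ) t)‖ ≤ B * (s / c) := fun t ht => by
    rw [norm_neg, ← chrL_apply]
    refine (ContinuousLinearMap.le_opNorm₂ _ _ _).trans ?_
    rw [mul_assoc, ← sq]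
    exact mul_le_mul (hB _ (hK t ht)) (hvel t ht) (sq_nonneg _) hB0
  set w := deriv (e ∘ γ) 0 with hw
  have m1 := norm_image_sub_le_of_norm_deriv_le_segment' (f := deriv (e ∘ γ)) (a := 0) (b := τ)
    (fun t ht => (h1.2 e he t (hsub t ht) (h4 t (hsub t ht)).1).2.hasDerivWithinAt)
    fun t ht => hacc t (hsub t (Ico_subset_Icc_self ht))
  have m2 := norm_image_sub_le_of_norm_deriv_le_segment' (f := fun t => (e ∘ γ) t - t • w)
    (f' := fun t => deriv (e ∘ γ) t - w) (C := B * (s / c) * τ) (a := 0) (b := τ)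
    (fun t ht => by
      have a1 := (h1.2 e he t (hsub t ht) (h4 t (hsub t ht)).1).1.hasDerivAt
      have a2 : HasDerivAt (fun t : ℝ => t • w) w t := by
        simpa using (hasDerivAt_id t).smul_const w
      exact (a1.sub a2).hasDerivWithinAt)
    (fun t ht => (m1 t (Ico_subset_Icc_self ht)).trans
      (mul_le_mul_of_nonneg_left (by linarith [ht.2]) (mul_nonneg hB0 hs0))) τ ⟨hτ0.le, le_rfl⟩
  have e1 : (e ∘ γ) τ - τ • w - ((e ∘ γ) 0 - (0 : ℝ) • w) = -(τ • w) := by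
    simp only [Function.comp_apply, hτγ, zero_smul, sub_zero]
    abel
  rw [e1, norm_neg, norm_smul, Real.norm_of_nonneg hτ0.le, sub_zero, mul_comm _ τ] at m2
  have m3 : ‖w‖ ≤ B * (s / c) * τ := le_of_mul_le_mul_left m2 hτ0
  have hsC : s ≤ C * ‖w‖ ^ 2 := by
    rw [← hsp 0 h00]
    exact (hb _ (hK 0 h00) _).2
  have hs2 : s * ((B * C * τ) ^ 2 + 1) < c ^ 3 :=
    (lt_div_iff₀ (by positivity)).1 (hv.trans_le (min_le_right _ _))
  have hsz : s ≤ 0 := by
    by_contra hpos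
    have hpos : 0 < s := not_le.1 hpos
    have hw0 : 0 < ‖w‖ := by
      by_contra h
      have : ‖w‖ = 0 := le_antisymm (not_lt.1 h) (norm_nonneg _)
      rw [this] at hsC
      linarith
    have b1 : c * ‖w‖ ≤ B * τ * s := by
      have := mul_le_mul_of_nonneg_left m3 hc.le
      calc c * ‖w‖ ≤ c * (B * (s / c) * τ) := this
        _ = B * τ * s := by field_simp
    have b2 : c * ‖w‖ ≤ B * C * τ * ‖w‖ * ‖w‖ := by
      refine b1.trans ?_
      have := mul_le_mul_of_nonneg_left hsC (mul_nonneg hB0 hτ0.le)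
      nlinarith
    have b3 : c ≤ B * C * τ * ‖w‖ := le_of_mul_le_mul_right b2 hw0
    have b4 : c ^ 2 ≤ (B * C * τ) ^ 2 * ‖w‖ ^ 2 := by
      rw [← mul_pow]
      exact pow_le_pow_left₀ hc.le b3 2
    have b5 : c * ‖w‖ ^ 2 ≤ s := by
      have := hvel 0 h00
      rwa [le_div_iff₀ hc, mul_comm] at this
    have b6 : c ^ 3 ≤ (B * C * τ) ^ 2 * s := by
      have a1 := mul_le_mul_of_nonneg_left b4 hc.le
      have a2 := mul_le_mul_of_nonneg_left b5 (sq_nonneg (B * C * τ))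
      nlinarith
    nlinarith
  have hv0 : v = 0 := by
    by_contra h
    exact absurd (g.pos _ (chart_mem_atlas E x) _ (mem_chart_target E x) v h) (not_lt.2 hsz)
  rw [hv0, smul_zero]

/-- There are no short geodesic loops. -/
theorem systole : ∃ δ > 0, ∀ (x : M) (u : E), g.exp x u = x → g.ip x u u < δ → u = 0 := by
  have key : ∃ δ > 0, ∀ x ∈ (univ : Set M), ∀ u : E, g.exp x u = x → g.ip x u u < δ → u = 0 := by
    refine isCompact_univ.induction_on (p := fun s => ∃ δ > 0, ∀ x ∈ s, ∀ u : E,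
      g.exp x u = x → g.ip x u u < δ → u = 0) ⟨1, one_pos, fun x hx => hx.elim⟩ ?_ ?_ ?_
    · rintro s t hst ⟨δ, hδ, h⟩
      exact ⟨δ, hδ, fun x hx => h x (hst hx)⟩
    · rintro s t ⟨δ, hδ, h⟩ ⟨δ', hδ', h'⟩
      refine ⟨min δ δ', lt_min hδ hδ', fun x hx v a hv => ?_⟩
      rcases hx with hx | hx
      · exact h x hx v a (hv.trans_le (min_le_left _ _))
      · exact h' x hx v a (hv.trans_le (min_le_right _ _))
    · intro x₀ _
      obtain ⟨δ, hδ, h⟩ := g.geo2_systole_local x₀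
      exact ⟨_, mem_nhdsWithin_of_mem_nhds h, δ, hδ, fun x hx => hx⟩
  obtain ⟨δ, hδ, h⟩ := key
  exact ⟨δ, hδ, fun x => h x (mem_univ x)⟩

end Metric

end Vale.Agent.P255
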