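import Vale.Agent.P255.Geo2

/-!
# Differentiable dependence of geodesics on the initial velocity  (TASK)

Key step: if `e` is a chart around `geo x v₀ t₀`, `φ, Y` the flow of `spray (g.g e)` near
`z₀ = st e x v₀ t₀` on `ball z₀ r × Ioo (-ε) ε` (`exists_flow`, `Ω = e.target ×ˢ univ`), and `t₁` is a
time with `geo x v t₁ ∈ e.source`, `st e x v t₁ ∈ ball z₀ r`, then for `|s| < ε`
`geo x v (t₁ + s) = e.symm (φ (st e x v t₁) s).1` and `st e x v (t₁ + s) = φ (st e x v t₁) s`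
(both sides are geodesics on `Ioo (-ε) ε`: `isGeodesic_of_local`, `comp_affine`, `unique`).
`dep`: the set `T` of times `t` at which the statement holds for every chart contains `0` and
membership in `T` is locally constant in `t` (key step; a change of chart acts on `st` by the
smooth map `(y, w) ↦ (τ y, fderiv τ y w)`), so `T = ℝ`.
`var`: key step with `t₁ = t`: for `s` near `t`, `fderiv (st · s) v₀ = Y z (s - t) ∘ fderiv (st · t) v₀`.
`varJ_isJacobi`: chain rule for the transformation law; `fderiv_spray` and `jacobi_iff`.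
-/

namespace Vale.Agent.P255

open scoped ContDiff Topology Manifold
open Set

variable {E M : Type*} [NormedAddCommGroup E] [NormedSpace ℝ E] [FiniteDimensional ℝ E]
  [TopologicalSpace M] [ChartedSpace E M] [IsManifold 𝓘(ℝ, E) ∞ M] [T2Space M] [CompactSpace M]
  {e : OpenPartialHomeomorph M E}

namespace Metric

variable (g : Metric E M)

/-- Position and velocity of `geo x v` at time `t` in the chart `e`. -/
noncomputable def st (e : OpenPartialHomeomorph M E) (x : M) (v : E) (t : ℝ) : E × E :=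
  (e (g.geo x v t), deriv (e ∘ g.geo x v) t)

omit [CompactSpace M] in
/-- A complete geodesic follows the integral curves of the spray of a chart. -/
theorem key_dep {γ : ℝ → M} (hγ : g.IsGeodesic γ univ) (he : e ∈ atlas E M) {t₁ : ℝ}
    (h1 : γ t₁ ∈ e.source) {ψ : ℝ → E × E} {ε : ℝ} (hε : 0 < ε)
    (hψ0 : ψ 0 = (e (γ t₁), deriv (e ∘ γ) t₁))
    (hψ : ∀ s ∈ Ioo (-ε) ε, (ψ s).1 ∈ e.target ∧ HasDerivAt ψ (spray (g.g e) (ψ s)) s) :
    ∀ s ∈ Ioo (-ε) ε, γ (s + t₁) ∈ e.source ∧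
      (e (γ (s + t₁)), deriv (e ∘ γ) (s + t₁)) = ψ s := by
  set β : ℝ → M := fun s => e.symm (ψ s).1 with hβ
  have hfst : ∀ s ∈ Ioo (-ε) ε, HasDerivAt (fun s => (ψ s).1) (ψ s).2 s := fun s hs =>
    (ContinuousLinearMap.fst ℝ E E).hasFDerivAt.comp_hasDerivAt s (hψ s hs).2
  have hsnd : ∀ s ∈ Ioo (-ε) ε,
      HasDerivAt (fun s => (ψ s).2) (-chr (g.g e) (ψ s).1 (ψ s).2 (ψ s).2) s := fun s hs =>
    (ContinuousLinearMap.snd ℝ E E).hasFDerivAt.comp_hasDerivAt s (hψ s hs).2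
  have heβ : ∀ s ∈ Ioo (-ε) ε, e (β s) = (ψ s).1 := fun s hs => e.right_inv (hψ s hs).1
  have hdβ : ∀ s ∈ Ioo (-ε) ε, HasDerivAt (e ∘ β) (ψ s).2 s := fun s hs => by
    refine (hfst s hs).congr_of_eventuallyEq ?_
    filter_upwards [isOpen_Ioo.mem_nhds hs] with s' hs'
    exact heβ s' hs'
  have hβg : g.IsGeodesic β (Ioo (-ε) ε) := by
    refine isGeodesic_of_local isOpen_Ioo ?_ fun t ht => ?_
    · exact e.continuousOn_symm.comp
        (fun s hs => (hfst s hs).continuousAt.continuousWithinAt) fun s hs => (hψ s hs).1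
    · refine ⟨e, he, e.map_target (hψ t ht).1, fun s => (ψ s).2, ?_, ?_⟩
      · filter_upwards [isOpen_Ioo.mem_nhds ht] with s hs
        exact hdβ s hs
      · rw [heβ t ht]
        exact hsnd t ht
  have hαg : g.IsGeodesic (fun s => γ (s + t₁)) (Ioo (-ε) ε) := by
    have h2 := (hγ.comp_affine isOpen_univ 1 t₁).mono (s' := Ioo (-ε) ε) fun _ _ => mem_univ _
    simpa only [one_mul] using h2
  have hdα : ∀ s, deriv (e ∘ fun s => γ (s + t₁)) s = deriv (e ∘ γ) (s + t₁) := fun s =>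
    deriv_comp_add_const (e ∘ γ) t₁ s
  have h0 : (0 : ℝ) ∈ Ioo (-ε) ε := ⟨by linarith, hε⟩
  have heq : EqOn (fun s => γ (s + t₁)) β (Ioo (-ε) ε) := by
    refine hαg.unique hβg isOpen_Ioo isPreconnected_Ioo h0 he (by simpa using h1) ?_ ?_
    · simp only [hβ, hψ0, zero_add]
      exact (e.left_inv h1).symm
    · rw [hdα, (hdβ 0 h0).deriv, hψ0, zero_add]
  intro s hs
  have hs1 : γ (s + t₁) = β s := heq hs
  refine ⟨by rw [hs1]; exact e.map_target (hψ s hs).1, Prod.ext ?_ ?_⟩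
  · change e (γ (s + t₁)) = (ψ s).1
    rw [hs1, heβ s hs]
  · change deriv (e ∘ γ) (s + t₁) = (ψ s).2
    rw [← hdα, ← (hdβ s hs).deriv]
    apply Filter.EventuallyEq.deriv_eq
    filter_upwards [isOpen_Ioo.mem_nhds hs] with s' hs'
    exact congrArg e (heq hs')

theorem hasDerivAt_st_dep (x : M) (v : E) {t : ℝ} (he : e ∈ atlas E M)
    (h : g.geo x v t ∈ e.source) :
    HasDerivAt (e ∘ g.geo x v) (deriv (e ∘ g.geo x v) t) t ∧
      HasDerivAt (deriv (e ∘ g.geo x v)) (-chr (g.g e) (e (g.geo x v t))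
        (deriv (e ∘ g.geo x v) t) (deriv (e ∘ g.geo x v) t)) t :=
  ⟨((g.geo_isGeodesic x v).2 e he t (mem_univ _) h).1.hasDerivAt,
    ((g.geo_isGeodesic x v).2 e he t (mem_univ _) h).2⟩

theorem st_change_dep {e' : OpenPartialHomeomorph M E} (x : M) (v : E) {t : ℝ}
    (he : e ∈ atlas E M) (he' : e' ∈ atlas E M) (h : g.geo x v t ∈ e.source)
    (h' : g.geo x v t ∈ e'.source) :
    g.st e' x v t = ((e' ∘ e.symm) (g.st e x v t).1,
      fderiv ℝ (e' ∘ e.symm) (g.st e x v t).1 (g.st e x v t).2) := by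
  refine Prod.ext ?_ ?_
  · change e' (g.geo x v t) = e' (e.symm (e (g.geo x v t)))
    rw [e.left_inv h]
  · exact (hasDerivAt_chart he he' (g.continuous_geo x v).continuousAt h h'
      (g.hasDerivAt_st_dep x v he h).1).deriv

theorem change_dep {e' : OpenPartialHomeomorph M E} (x : M) (v₀ : E) {t : ℝ}
    (he : e ∈ atlas E M) (he' : e' ∈ atlas E M) (h : g.geo x v₀ t ∈ e.source)
    (h' : g.geo x v₀ t ∈ e'.source) (hc : ContinuousAt (fun v => g.geo x v t) v₀)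
    (hd : ContDiffAt ℝ 1 (fun v => g.st e x v t) v₀) :
    ContDiffAt ℝ 1 (fun v => g.st e' x v t) v₀ := by
  have hτ : ContDiffAt ℝ ∞ (e' ∘ e.symm) (g.st e x v₀ t).1 := tr_contDiffAt he he' h h'
  have h1 : ContDiffAt ℝ 1 (e' ∘ e.symm) (g.st e x v₀ t).1 := hτ.of_le (by exact_mod_cast le_top)
  have h2 : ContDiffAt ℝ 1 (fderiv ℝ (e' ∘ e.symm)) (g.st e x v₀ t).1 :=
    hτ.fderiv_right (by norm_cast)
  have h3 : ContDiffAt ℝ 1 (fun v => ((e' ∘ e.symm) (g.st e x v t).1,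
      fderiv ℝ (e' ∘ e.symm) (g.st e x v t).1 (g.st e x v t).2)) v₀ :=
    (h1.comp v₀ hd.fst).prodMk ((h2.comp v₀ hd.fst).clm_apply hd.snd)
  refine h3.congr_of_eventuallyEq ?_
  filter_upwards [hc.preimage_mem_nhds (e.open_source.mem_nhds h),
    hc.preimage_mem_nhds (e'.open_source.mem_nhds h')] with v hv hv'
  exact g.st_change_dep x v he he' hv hv'

/-- The local flow of the spray of a chart, applied to complete geodesics. -/
theorem flow_dep (he : e ∈ atlas E M) {z₀ : E × E} (hz : z₀.1 ∈ e.target) :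
    ∃ ε > 0, ∃ r > 0, ∃ (φ : E × E → ℝ → E × E) (Y : E × E → ℝ → (E × E) →L[ℝ] E × E),
      (∀ z ∈ Metric.ball z₀ r, Y z 0 = ContinuousLinearMap.id ℝ _ ∧
        HasDerivAt (Y z) (fderiv ℝ (spray (g.g e)) z) 0 ∧ ∀ t ∈ Ioo (-ε) ε,
          HasFDerivAt (fun z' => φ z' t) (Y z t) z ∧ ContDiffAt ℝ 1 (fun z' => φ z' t) z) ∧
      ∀ (x : M) (v : E) (t₁ : ℝ), g.geo x v t₁ ∈ e.source → g.st e x v t₁ ∈ Metric.ball z₀ r →
        ∀ s ∈ Ioo (-ε) ε, g.geo x v (s + t₁) ∈ e.source ∧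
          g.st e x v (s + t₁) = φ (g.st e x v t₁) s := by
  obtain ⟨ε, hε, r, hr, φ, Y, h1, h2⟩ := exists_flow (Ω := e.target ×ˢ (univ : Set E))
    (e.open_target.prod isOpen_univ) (g.loc he).contDiffOn_spray (z₀ := z₀) ⟨hz, mem_univ _⟩
  refine ⟨ε, hε, r, hr, φ, Y, fun z hz => ⟨(h1 z hz).2.1, ?_, fun t ht =>
    ⟨((h1 z hz).2.2 t ht).2.2.2, ?_⟩⟩, fun x v t₁ ht₁ hb => ?_⟩
  · have h3 := ((h1 z hz).2.2 0 ⟨by linarith, hε⟩).2.2.1
    rwa [(h1 z hz).1, (h1 z hz).2.1, ContinuousLinearMap.comp_id] at h3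
  · exact contDiffAt_one_iff.2 ⟨fun z' => Y z' t, Metric.ball z₀ r,
      Metric.isOpen_ball.mem_nhds hz, h2 t ht, fun z' hz' => ((h1 z' hz').2.2 t ht).2.2.2⟩
  · exact g.key_dep (g.geo_isGeodesic x v) he ht₁ hε (h1 _ hb).1
      fun s hs => ⟨((h1 _ hb).2.2 s hs).1.1, ((h1 _ hb).2.2 s hs).2.1⟩

theorem st_zero_dep (x : M) (v : E) : g.st (chartAt E x) x v 0 = (chartAt E x x, v) := by
  unfold st
  rw [geo_zero, geo_deriv]

theorem local_dep (x : M) (v₀ : E) (t₀ : ℝ) : ∃ N ∈ 𝓝 t₀, ∀ t₁ ∈ N, ∀ t₂ ∈ N,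
    (∀ e ∈ atlas E M, g.geo x v₀ t₁ ∈ e.source →
      ContinuousAt (fun v => g.geo x v t₁) v₀ ∧ ContDiffAt ℝ 1 (fun v => g.st e x v t₁) v₀) →
    ∀ e ∈ atlas E M, g.geo x v₀ t₂ ∈ e.source →
      ContinuousAt (fun v => g.geo x v t₂) v₀ ∧ ContDiffAt ℝ 1 (fun v => g.st e x v t₂) v₀ := by
  set e₀ := chartAt E (g.geo x v₀ t₀) with he₀
  have he : e₀ ∈ atlas E M := chart_mem_atlas E _
  have h0 : g.geo x v₀ t₀ ∈ e₀.source := mem_chart_source E _
  obtain ⟨ε, hε, r, hr, φ, Y, h1, h2⟩ := g.flow_dep he (z₀ := g.st e₀ x v₀ t₀) (e₀.map_source h0)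
  have hst : ContinuousAt (fun t => g.st e₀ x v₀ t) t₀ :=
    (g.hasDerivAt_st_dep x v₀ he h0).1.continuousAt.prodMk
      (g.hasDerivAt_st_dep x v₀ he h0).2.continuousAt
  refine ⟨(g.geo x v₀ ⁻¹' e₀.source ∩ (fun t => g.st e₀ x v₀ t) ⁻¹'
      Metric.ball (g.st e₀ x v₀ t₀) r) ∩ Ioo (t₀ - ε / 2) (t₀ + ε / 2),
    Filter.inter_mem (Filter.inter_mem
      ((g.continuous_geo x v₀).continuousAt.preimage_mem_nhds (e₀.open_source.mem_nhds h0))
      (hst.preimage_mem_nhds (Metric.ball_mem_nhds _ hr)))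
      (Ioo_mem_nhds (by linarith) (by linarith)), ?_⟩
  rintro t₁ ⟨⟨a1, b1⟩, c1⟩ t₂ ⟨⟨a2, -⟩, c2⟩ H e he' h'
  obtain ⟨hc, hd⟩ := H e₀ he a1
  have hs : t₂ - t₁ ∈ Ioo (-ε) ε := ⟨by linarith [c1.2, c2.1], by linarith [c1.1, c2.2]⟩
  have hev : ∀ᶠ v in 𝓝 v₀, g.geo x v t₂ ∈ e₀.source ∧
      g.st e₀ x v t₂ = φ (g.st e₀ x v t₁) (t₂ - t₁) := by
    filter_upwards [hc.preimage_mem_nhds (e₀.open_source.mem_nhds a1),
      hd.continuousAt.preimage_mem_nhds (Metric.isOpen_ball.mem_nhds b1)] with v hv hv'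
    have h3 := h2 x v t₁ hv hv' _ hs
    rwa [sub_add_cancel] at h3
  have hd2 : ContDiffAt ℝ 1 (fun v => g.st e₀ x v t₂) v₀ := by
    refine ((((h1 _ b1).2.2 _ hs).2).comp v₀ hd).congr_of_eventuallyEq ?_
    filter_upwards [hev] with v hv
    exact hv.2
  have hc2 : ContinuousAt (fun v => g.geo x v t₂) v₀ := by
    have h3 : ContinuousAt e₀.symm (g.st e₀ x v₀ t₂).1 :=
      e₀.continuousAt_symm (e₀.map_source a2)
    refine (h3.comp (f := fun v => (g.st e₀ x v t₂).1) hd2.continuousAt.fst).congr ?_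
    filter_upwards [hev] with v hv
    exact e₀.left_inv hv.1
  exact ⟨hc2, g.change_dep x v₀ he he' a2 h' hc2 hd2⟩

theorem dep (x : M) (v₀ : E) (t : ℝ) (he : e ∈ atlas E M) (h : g.geo x v₀ t ∈ e.source) :
    ContinuousAt (fun v => g.geo x v t) v₀ ∧ ContDiffAt ℝ 1 (fun v => g.st e x v t) v₀ := by
  set T : Set ℝ := {t | ∀ e ∈ atlas E M, g.geo x v₀ t ∈ e.source →
    ContinuousAt (fun v => g.geo x v t) v₀ ∧ ContDiffAt ℝ 1 (fun v => g.st e x v t) v₀} with hT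
  have hopen : IsOpen T := by
    rw [isOpen_iff_mem_nhds]
    intro t₀ ht₀
    obtain ⟨N, hN, H⟩ := g.local_dep x v₀ t₀
    exact Filter.mem_of_superset hN fun t₂ ht₂ => H t₀ (mem_of_mem_nhds hN) t₂ ht₂ ht₀
  have hclosed : IsClosed T := by
    rw [← isOpen_compl_iff, isOpen_iff_mem_nhds]
    intro t₀ ht₀
    obtain ⟨N, hN, H⟩ := g.local_dep x v₀ t₀
    exact Filter.mem_of_superset hN fun t₁ ht₁ h1 => ht₀ (H t₁ ht₁ t₀ (mem_of_mem_nhds hN) h1)
  have h0 : (0 : ℝ) ∈ T := by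
    intro e' he' h'
    have hc : ContinuousAt (fun v => g.geo x v 0) v₀ := by
      simp only [geo_zero]
      exact continuousAt_const
    refine ⟨hc, g.change_dep x v₀ (chart_mem_atlas E x) he' ?_ h' hc ?_⟩
    · rw [geo_zero]
      exact mem_chart_source E x
    · simp only [st_zero_dep]
      exact contDiffAt_const.prodMk contDiffAt_id
  have huniv : T = univ := IsClopen.eq_univ ⟨hclosed, hopen⟩ ⟨0, h0⟩
  have ht : t ∈ T := huniv ▸ mem_univ t
  exact ht e he h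

theorem var (x : M) (v₀ : E) (t : ℝ) (he : e ∈ atlas E M) (h : g.geo x v₀ t ∈ e.source) :
    HasDerivAt (fun s => fderiv ℝ (fun v => g.st e x v s) v₀)
      ((fderiv ℝ (spray (g.g e)) (g.st e x v₀ t)).comp (fderiv ℝ (fun v => g.st e x v t) v₀)) t := by
  obtain ⟨ε, hε, r, hr, φ, Y, h1, h2⟩ := g.flow_dep he (z₀ := g.st e x v₀ t) (e.map_source h)
  obtain ⟨hc, hd⟩ := g.dep x v₀ t he h
  have hb : g.st e x v₀ t ∈ Metric.ball (g.st e x v₀ t) r := Metric.mem_ball_self hr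
  have hA : HasFDerivAt (fun v => g.st e x v t) (fderiv ℝ (fun v => g.st e x v t) v₀) v₀ :=
    (hd.differentiableAt one_ne_zero).hasFDerivAt
  have hY : HasDerivAt (fun s => Y (g.st e x v₀ t) (s - t))
      (fderiv ℝ (spray (g.g e)) (g.st e x v₀ t)) t := by
    have h3 := (h1 _ hb).2.1
    rw [← sub_self t] at h3
    exact h3.comp_sub_const t t
  have h4 := hY.clm_comp (hasDerivAt_const t (fderiv ℝ (fun v => g.st e x v t) v₀))
  rw [ContinuousLinearMap.comp_zero, add_zero] at h4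
  refine h4.congr_of_eventuallyEq ?_
  filter_upwards [Ioo_mem_nhds (show t - ε < t by linarith) (show t < t + ε by linarith)] with s hs
  have hs' : s - t ∈ Ioo (-ε) ε := ⟨by linarith [hs.1], by linarith [hs.2]⟩
  have h5 := (((h1 _ hb).2.2 _ hs').1).comp v₀ hA
  refine (h5.congr_of_eventuallyEq ?_).fderiv
  filter_upwards [hc.preimage_mem_nhds (e.open_source.mem_nhds h),
    hd.continuousAt.preimage_mem_nhds (Metric.isOpen_ball.mem_nhds hb)] with v hv hv'
  have h3 := (h2 x v t hv hv' _ hs').2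
  rwa [sub_add_cancel] at h3

/-- The variation field of `v ↦ geo x v` in the direction `h`. -/
noncomputable def varJ (x : M) (v₀ h : E) (e : OpenPartialHomeomorph M E) (t : ℝ) : E :=
  fderiv ℝ (fun v => e (g.geo x v t)) v₀ h

theorem varJ_eq_dep (x : M) (v₀ h : E) {t : ℝ} (he : e ∈ atlas E M)
    (ht : g.geo x v₀ t ∈ e.source) :
    g.varJ x v₀ h e t = (fderiv ℝ (fun v => g.st e x v t) v₀ h).1 := by
  have hA : HasFDerivAt (fun v => g.st e x v t) (fderiv ℝ (fun v => g.st e x v t) v₀) v₀ :=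
    ((g.dep x v₀ t he ht).2.differentiableAt one_ne_zero).hasFDerivAt
  have h1 := hA.fst.fderiv
  unfold varJ
  change fderiv ℝ (fun v => (g.st e x v t).1) v₀ h = _
  rw [h1]
  rfl

theorem varJ_hasDerivAt_dep (x : M) (v₀ h : E) {t : ℝ} (he : e ∈ atlas E M)
    (ht : g.geo x v₀ t ∈ e.source) :
    HasDerivAt (g.varJ x v₀ h e) (fderiv ℝ (fun v => g.st e x v t) v₀ h).2 t ∧
      HasDerivAt (fun s => (fderiv ℝ (fun v => g.st e x v s) v₀ h).2)
        (lin (g.g e) (e (g.geo x v₀ t)) (deriv (e ∘ g.geo x v₀) t) (g.varJ x v₀ h e t)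
          (fderiv ℝ (fun v => g.st e x v t) v₀ h).2) t := by
  have h1 := (g.var x v₀ t he ht).clm_apply (hasDerivAt_const t h)
  rw [map_zero, add_zero, ContinuousLinearMap.comp_apply,
    (g.loc he).fderiv_spray (z := g.st e x v₀ t) (e.map_source ht)] at h1
  have h2 := (ContinuousLinearMap.fst ℝ E E).hasFDerivAt.comp_hasDerivAt t h1
  have h3 := (ContinuousLinearMap.snd ℝ E E).hasFDerivAt.comp_hasDerivAt t h1
  refine ⟨HasDerivAt.congr_of_eventuallyEq h2 ?_, ?_⟩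
  · filter_upwards [(g.continuous_geo x v₀).continuousAt.preimage_mem_nhds
      (e.open_source.mem_nhds ht)] with s hs
    exact g.varJ_eq_dep x v₀ h he hs
  · rw [g.varJ_eq_dep x v₀ h he ht]
    exact h3

theorem varJ_isJacobi (x : M) (v₀ h : E) (s : Set ℝ) :
    g.IsJacobi (g.geo x v₀) s (g.varJ x v₀ h) := by
  refine ⟨fun e he e' he' t _ ht ht' => ?_, fun e he t _ ht => ?_⟩
  · obtain ⟨hc, hd⟩ := g.dep x v₀ t he ht
    have hτ : DifferentiableAt ℝ (e' ∘ e.symm) (e (g.geo x v₀ t)) :=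
      (tr_contDiffAt he he' ht ht').differentiableAt (by simp)
    have hA : DifferentiableAt ℝ (fun v => e (g.geo x v t)) v₀ :=
      hd.fst.differentiableAt one_ne_zero
    have h1 := hτ.hasFDerivAt.comp v₀ hA.hasFDerivAt
    have h2 : (fun v => e' (g.geo x v t)) =ᶠ[𝓝 v₀] (e' ∘ e.symm) ∘ fun v => e (g.geo x v t) := by
      filter_upwards [hc.preimage_mem_nhds (e.open_source.mem_nhds ht)] with v hv
      change e' (g.geo x v t) = e' (e.symm (e (g.geo x v t)))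
      rw [e.left_inv hv]
    unfold varJ
    rw [(h1.congr_of_eventuallyEq h2).fderiv]
    rfl
  · obtain ⟨hJ, hK⟩ := g.varJ_hasDerivAt_dep x v₀ h he ht
    obtain ⟨hx, hv⟩ := g.hasDerivAt_st_dep x v₀ he ht
    have h1 := ((g.loc he).jacobi_iff (x := e ∘ g.geo x v₀) (v := deriv (e ∘ g.geo x v₀))
      (J := g.varJ x v₀ h e) (K := fun s => (fderiv ℝ (fun v => g.st e x v s) v₀ h).2) (t := t)
      (e.map_source ht) hx hv hJ).2 hK
    have hev : g.cov (g.geo x v₀) e (g.varJ x v₀ h e) =ᶠ[𝓝 t] fun s =>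
        (fderiv ℝ (fun v => g.st e x v s) v₀ h).2 + chr (g.g e) ((e ∘ g.geo x v₀) s)
          (deriv (e ∘ g.geo x v₀) s) (g.varJ x v₀ h e s) := by
      filter_upwards [(g.continuous_geo x v₀).continuousAt.preimage_mem_nhds
        (e.open_source.mem_nhds ht)] with s hs
      unfold cov
      rw [(g.varJ_hasDerivAt_dep x v₀ h he hs).1.deriv]
      rfl
    have h2 := h1.congr_of_eventuallyEq hev
    refine ⟨hJ.differentiableAt, h2.differentiableAt, ?_⟩
    have h3 : g.cov (g.geo x v₀) e (g.cov (g.geo x v₀) e (g.varJ x v₀ h e)) t =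
        deriv (g.cov (g.geo x v₀) e (g.varJ x v₀ h e)) t + chr (g.g e) (e (g.geo x v₀ t))
          (deriv (e ∘ g.geo x v₀) t) (g.cov (g.geo x v₀) e (g.varJ x v₀ h e) t) := rfl
    rw [h3, h2.deriv, hev.eq_of_nhds]
    simp only [Function.comp_apply]
    abel

theorem varJ_zero (x : M) (v₀ h : E) : g.varJ x v₀ h (chartAt E x) 0 = 0 := by
  unfold varJ
  simp only [geo_zero]
  simp

theorem varJ_deriv (x : M) (v₀ h : E) : deriv (g.varJ x v₀ h (chartAt E x)) 0 = h := by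
  have h0 : g.geo x v₀ 0 ∈ (chartAt E x).source := by
    rw [geo_zero]
    exact mem_chart_source E x
  rw [(g.varJ_hasDerivAt_dep x v₀ h (chart_mem_atlas E x) h0).1.deriv]
  simp only [st_zero_dep]
  have h1 : HasFDerivAt (fun v : E => (chartAt E x x, v))
      ((0 : E →L[ℝ] E).prod (ContinuousLinearMap.id ℝ E)) v₀ :=
    (hasFDerivAt_const _ _).prodMk (hasFDerivAt_id _)
  rw [h1.fderiv]
  rfl

theorem continuous_exp (x : M) : Continuous (g.exp x) :=
  continuous_iff_continuousAt.2 fun v =>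
    (g.dep x v 1 (chart_mem_atlas E _) (mem_chart_source E _)).1

theorem contDiffAt_exp (x : M) (v : E) (he : e ∈ atlas E M) (h : g.exp x v ∈ e.source) :
    ContDiffAt ℝ 1 (e ∘ g.exp x) v :=
  (g.dep x v 1 he h).2.fst

theorem fderiv_exp (x : M) (v h : E) : fderiv ℝ (e ∘ g.exp x) v h = g.varJ x v h e 1 := rfl

end Metric

end Vale.Agent.P255
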