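import Vale.Agent.P255.Defs

/-!
# One-chart Riemannian calculus

`G : E → E →L E →L ℝ` smooth, symmetric, positive definite on an open set `U`, `E` finite
dimensional.  Plan:
* `G y : E →L (E →L ℝ)` is injective (positivity), dimensions agree (`E →L ℝ` has the same
  finrank), hence it is (the coercion of) a continuous linear equivalence:
  `ContinuousLinearMap.IsInvertible`; `inverse` is smooth there (`contDiffAt_map_inverse`).
* `koszul` is `G y ((G y).inverse a) = a`.
* symmetry of `G` near `y` gives symmetry of `fderiv G y w u v` in `u v`; hence `chr_symm` and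
  `fderiv_eq` (metric compatibility; add two Koszul identities).
* `riem_skew`: differentiate `fderiv_eq` (valid near `y`) once more and use the symmetry of the
  second derivative of `G` (`ContDiffAt.isSymmSndFDerivAt`).
* `jacobi_iff`: differentiate `s ↦ chrL G (x s) (v s) (J s)` by the chain rule, expand `riem` with
  `fderiv (fun z => chr G z v w) y u = fderiv (chrL G) y u v w`, use symmetry of `chr` near `y`.
* `chr_transform`: test both sides against `G₂ (τ y) · (Dτ w)`; `Dτ` is injective (positivity of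
  `G₁`), so onto; differentiate the isometry identity and use Koszul for both metrics and the
  symmetry of `D²τ`.
-/

set_option maxSynthPendingDepth 3
set_option linter.unusedSectionVars false

namespace Vale.Agent.P255

open scoped ContDiff Topology

variable {E : Type*} [NormedAddCommGroup E] [NormedSpace ℝ E]

/-- A Riemannian metric on the open subset `U` of `E`. -/
structure LocMetric (G : E → E →L[ℝ] E →L[ℝ] ℝ) (U : Set E) : Prop where
  isOpen : IsOpen U
  smooth : ContDiffOn ℝ ∞ G U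
  symm : ∀ y ∈ U, ∀ u v, G y u v = G y v u
  pos : ∀ y ∈ U, ∀ u, u ≠ 0 → 0 < G y u u

theorem Metric.loc {M : Type*} [TopologicalSpace M] [ChartedSpace E M] (g : Metric E M)
    {e : OpenPartialHomeomorph M E} (he : e ∈ atlas E M) : LocMetric (g.g e) e.target :=
  ⟨e.open_target, g.smooth e he, g.symm e he, g.pos e he⟩

/-- `chr` as a continuous bilinear map. -/
noncomputable def chrL (G : E → E →L[ℝ] E →L[ℝ] ℝ) (y : E) : E →L[ℝ] E →L[ℝ] E :=
  (1 / 2 : ℝ) •
    ((ContinuousLinearMap.compL ℝ E (E →L[ℝ] ℝ) E (G y).inverse).comp (fderiv ℝ G y) +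
      (ContinuousLinearMap.compL ℝ E (E →L[ℝ] ℝ) E (G y).inverse).comp (fderiv ℝ G y).flip -
      (ContinuousLinearMap.compL ℝ E (E →L[ℝ] ℝ) E (G y).inverse).comp
        (((ContinuousLinearMap.flipₗᵢ ℝ E E ℝ).toContinuousLinearEquiv.toContinuousLinearMap).comp
          (fderiv ℝ G y).flip))

theorem chrL_apply (G : E → E →L[ℝ] E →L[ℝ] ℝ) (y u v : E) : chrL G y u v = chr G y u v := by
  simp [chrL, chr]

/-- The geodesic spray. -/
noncomputable def spray (G : E → E →L[ℝ] E →L[ℝ] ℝ) (z : E × E) : E × E :=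
  (z.2, -chr G z.1 z.2 z.2)

/-- The right-hand side of the linearised geodesic equation `J'' = lin G x v J J'`. -/
noncomputable def lin (G : E → E →L[ℝ] E →L[ℝ] ℝ) (x v J K : E) : E :=
  -fderiv ℝ (chrL G) x J v v - (2 : ℝ) • chr G x v K

theorem loc_fderiv_app2 {X A B C : Type*} [NormedAddCommGroup X] [NormedSpace ℝ X]
    [NormedAddCommGroup A] [NormedSpace ℝ A] [NormedAddCommGroup B] [NormedSpace ℝ B]
    [NormedAddCommGroup C] [NormedSpace ℝ C] {F : X → A →L[ℝ] B →L[ℝ] C} {a : X → A} {b : X → B}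
    {y : X} (hF : DifferentiableAt ℝ F y) (ha : DifferentiableAt ℝ a y)
    (hb : DifferentiableAt ℝ b y) (d : X) :
    fderiv ℝ (fun z => F z (a z) (b z)) y d =
      fderiv ℝ F y d (a y) (b y) + F y (fderiv ℝ a y d) (b y) + F y (a y) (fderiv ℝ b y d) := by
  rw [fderiv_clm_apply (hF.clm_apply ha) hb, fderiv_clm_apply hF ha]
  simp only [add_apply, ContinuousLinearMap.comp_apply,
    ContinuousLinearMap.flip_apply]
  abel

theorem loc_fderiv_app2c {X A B C : Type*} [NormedAddCommGroup X] [NormedSpace ℝ X]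
    [NormedAddCommGroup A] [NormedSpace ℝ A] [NormedAddCommGroup B] [NormedSpace ℝ B]
    [NormedAddCommGroup C] [NormedSpace ℝ C] {F : X → A →L[ℝ] B →L[ℝ] C}
    {y : X} (hF : DifferentiableAt ℝ F y) (a : A) (b : B) (d : X) :
    fderiv ℝ (fun z => F z a b) y d = fderiv ℝ F y d a b := by
  rw [loc_fderiv_app2 hF (differentiableAt_const a) (differentiableAt_const b)]
  simp

theorem loc_fderiv_app1c {X A C : Type*} [NormedAddCommGroup X] [NormedSpace ℝ X]
    [NormedAddCommGroup A] [NormedSpace ℝ A]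
    [NormedAddCommGroup C] [NormedSpace ℝ C] {F : X → A →L[ℝ] C}
    {y : X} (hF : DifferentiableAt ℝ F y) (a : A) (d : X) :
    fderiv ℝ (fun z => F z a) y d = fderiv ℝ F y d a := by
  rw [fderiv_clm_apply hF (differentiableAt_const a)]
  simp

theorem loc_chrL_congr {G G' : E → E →L[ℝ] E →L[ℝ] ℝ} {y : E} (h : G =ᶠ[𝓝 y] G') :
    chrL G =ᶠ[𝓝 y] chrL G' := by
  filter_upwards [h.eventuallyEq_nhds] with z hz
  unfold chrL
  rw [hz.eq_of_nhds, hz.fderiv_eq]

/-- `chr` and `riem` at `y` only depend on the germ of `G` at `y`. -/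
theorem chr_congr {G G' : E → E →L[ℝ] E →L[ℝ] ℝ} {y : E} (h : G =ᶠ[𝓝 y] G') (u v : E) :
    chr G y u v = chr G' y u v := by
  unfold chr
  rw [h.eq_of_nhds, h.fderiv_eq]

theorem lin_congr {G G' : E → E →L[ℝ] E →L[ℝ] ℝ} {y : E} (h : G =ᶠ[𝓝 y] G') (v J K : E) :
    lin G y v J K = lin G' y v J K := by
  unfold lin
  rw [chr_congr h, (loc_chrL_congr h).fderiv_eq]

theorem riem_congr {G G' : E → E →L[ℝ] E →L[ℝ] ℝ} {y : E} (h : G =ᶠ[𝓝 y] G') (u v w : E) :
    riem G y u v w = riem G' y u v w := by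
  have key : ∀ a b : E, (fun z => chr G z a b) =ᶠ[𝓝 y] fun z => chr G' z a b := by
    intro a b
    filter_upwards [h.eventuallyEq_nhds] with z hz
    exact chr_congr hz a b
  unfold riem
  rw [(key v w).fderiv_eq, (key u w).fderiv_eq]
  simp only [chr_congr h]

theorem riem_const (B : E →L[ℝ] E →L[ℝ] ℝ) (y u v w : E) : riem (fun _ => B) y u v w = 0 := by
  have key : ∀ z a b : E, chr (fun _ => B) z a b = 0 := by
    intro z a b
    simp [chr]
  simp [riem, key]

variable [FiniteDimensional ℝ E] {G : E → E →L[ℝ] E →L[ℝ] ℝ} {U : Set E}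

namespace LocMetric

theorem nonneg (h : LocMetric G U) {y : E} (hy : y ∈ U) (u : E) : 0 ≤ G y u u := by
  by_cases hu : u = 0
  · simp [hu]
  · exact (h.pos y hy u hu).le

/-- Cauchy–Schwarz. -/
theorem sq_le (h : LocMetric G U) {y : E} (hy : y ∈ U) (u v : E) :
    G y u v ^ 2 ≤ G y u u * G y v v := by
  have key : ∀ s : ℝ, 0 ≤ G y v v * (s * s) + 2 * G y u v * s + G y u u := by
    intro s
    have h1 := h.nonneg hy (u + s • v)
    have h2 := h.symm y hy v u
    simp only [map_add, map_smul, add_apply, smul_apply,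
      smul_eq_mul] at h1
    rw [h2] at h1
    linarith
  have h3 := discrim_le_zero key
  unfold discrim at h3
  linarith

/-- Uniform ellipticity on compact subsets. -/
theorem exists_bounds (h : LocMetric G U) {K : Set E} (hK : IsCompact K) (hKU : K ⊆ U) :
    ∃ c C : ℝ, 0 < c ∧ 0 < C ∧ ∀ y ∈ K, ∀ u, c * ‖u‖ ^ 2 ≤ G y u u ∧ G y u u ≤ C * ‖u‖ ^ 2 := by
  have hc : ContinuousOn G K := h.smooth.continuousOn.mono hKU
  obtain ⟨C, hC⟩ := hK.exists_bound_of_continuousOn hc
  have hS : IsCompact (K ×ˢ Metric.sphere (0 : E) 1) := hK.prod (isCompact_sphere 0 1)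
  have hc2 : ContinuousOn (fun p : E × E => G p.1 p.2 p.2) (K ×ˢ Metric.sphere (0 : E) 1) := by
    have h1 : ContinuousOn (fun p : E × E => G p.1) (K ×ˢ Metric.sphere (0 : E) 1) :=
      hc.comp continuousOn_fst fun p hp => hp.1
    exact (h1.clm_apply continuousOn_snd).clm_apply continuousOn_snd
  obtain ⟨c, hc0, hcl⟩ := hS.exists_forall_le' hc2 (a := 0) (by
    rintro ⟨y, u⟩ ⟨hy, hu⟩
    refine h.pos y (hKU hy) u ?_
    rintro rfl
    simp at hu)
  refine ⟨c, max C 0 + 1, hc0, by positivity, fun y hy u => ⟨?_, ?_⟩⟩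
  · by_cases hu : u = 0
    · simp [hu]
    · have hn : 0 < ‖u‖ := norm_pos_iff.mpr hu
      have h1 := hcl (y, ‖u‖⁻¹ • u) ⟨hy, by
        simp [norm_smul, hn.ne']⟩
      simp only [map_smul, smul_apply, smul_eq_mul] at h1
      have h2 : G y u u = ‖u‖ ^ 2 * (‖u‖⁻¹ * (‖u‖⁻¹ * G y u u)) := by
        field_simp
      rw [h2, mul_comm c]
      exact mul_le_mul_of_nonneg_left h1 (by positivity)
  · have h1 : G y u u ≤ ‖G y‖ * ‖u‖ * ‖u‖ :=
      (le_abs_self _).trans ((G y).le_opNorm₂ u u)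
    have h2 : ‖G y‖ ≤ max C 0 + 1 := by
      have := hC y hy
      have := le_max_left C 0
      linarith
    calc G y u u ≤ ‖G y‖ * ‖u‖ ^ 2 := by rw [sq, ← mul_assoc]; exact h1
      _ ≤ _ := mul_le_mul_of_nonneg_right h2 (by positivity)

theorem loc_inj (h : LocMetric G U) {y : E} (hy : y ∈ U) : Function.Injective (G y) := by
  rw [injective_iff_map_eq_zero]
  intro a ha
  by_contra hne
  have := h.pos y hy a hne
  rw [ha] at this
  simp at this

theorem loc_inv (h : LocMetric G U) {y : E} (hy : y ∈ U) : (G y).IsInvertible := by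
  have hd : Module.finrank ℝ E = Module.finrank ℝ (E →L[ℝ] ℝ) := by
    rw [← (LinearMap.toContinuousLinearMap (𝕜 := ℝ) (E := E) (F' := ℝ)).finrank_eq]
    simp
  have hi : Function.Injective ((G y : E →L[ℝ] E →L[ℝ] ℝ) : E →ₗ[ℝ] E →L[ℝ] ℝ) := h.loc_inj hy
  refine ⟨(LinearMap.linearEquivOfInjective _ hi hd).toContinuousLinearEquiv, ?_⟩
  ext a b
  simp

theorem loc_contDiffAt (h : LocMetric G U) {y : E} (hy : y ∈ U) : ContDiffAt ℝ ∞ G y :=
  h.smooth.contDiffAt (h.isOpen.mem_nhds hy)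

theorem loc_diff (h : LocMetric G U) {y : E} (hy : y ∈ U) : DifferentiableAt ℝ G y :=
  (h.loc_contDiffAt hy).differentiableAt (by simp)

theorem loc_contDiffAt_fderiv (h : LocMetric G U) {y : E} (hy : y ∈ U) :
    ContDiffAt ℝ ∞ (fderiv ℝ G) y :=
  (h.loc_contDiffAt hy).fderiv_right (m := ∞) (by simp)

theorem loc_fderiv_symm (h : LocMetric G U) {y : E} (hy : y ∈ U) (w u v : E) :
    fderiv ℝ G y w u v = fderiv ℝ G y w v u := by
  rw [← loc_fderiv_app2c (h.loc_diff hy), ← loc_fderiv_app2c (h.loc_diff hy)]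
  have : (fun z => G z u v) =ᶠ[𝓝 y] fun z => G z v u := by
    filter_upwards [h.isOpen.mem_nhds hy] with z hz
    exact h.symm z hz u v
  rw [this.fderiv_eq]

theorem koszul (h : LocMetric G U) {y : E} (hy : y ∈ U) (u v w : E) :
    G y (chr G y u v) w =
      (fderiv ℝ G y u v w + fderiv ℝ G y v u w - fderiv ℝ G y w u v) / 2 := by
  unfold chr
  rw [(h.loc_inv hy).self_apply_inverse]
  simp only [smul_apply, sub_apply,
    add_apply, ContinuousLinearMap.flip_apply, smul_eq_mul]
  ring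

/-- A vector is determined by its inner products. -/
theorem ext_vec (h : LocMetric G U) {y : E} (hy : y ∈ U) {a b : E}
    (hab : ∀ w, G y a w = G y b w) : a = b := by
  apply h.loc_inj hy
  ext w
  exact hab w

theorem contDiffOn_chrL (h : LocMetric G U) : ContDiffOn ℝ ∞ (chrL G) U := by
  have hD : ContDiffOn ℝ ∞ (fderiv ℝ G) U := fun y hy =>
    (h.loc_contDiffAt_fderiv hy).contDiffWithinAt
  have hI : ContDiffOn ℝ ∞ (fun y => (G y).inverse) U := fun y hy =>
    ((h.loc_inv hy).contDiffAt_map_inverse.comp y (h.loc_contDiffAt hy)).contDiffWithinAt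
  rw [contDiffOn_clm_apply]
  intro u
  rw [contDiffOn_clm_apply]
  intro v
  simp only [chrL_apply, chr]
  refine hI.clm_apply (ContDiffOn.const_smul _ ?_)
  refine ContDiffOn.sub (ContDiffOn.add ?_ ?_) ?_
  · exact (hD.clm_apply contDiffOn_const).clm_apply contDiffOn_const
  · exact (hD.clm_apply contDiffOn_const).clm_apply contDiffOn_const
  · rw [contDiffOn_clm_apply]
    intro w
    simp only [ContinuousLinearMap.flip_apply]
    exact ((hD.clm_apply contDiffOn_const).clm_apply contDiffOn_const).clm_apply contDiffOn_const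

theorem loc_diff_chrL (h : LocMetric G U) {y : E} (hy : y ∈ U) :
    DifferentiableAt ℝ (chrL G) y :=
  (h.contDiffOn_chrL.contDiffAt (h.isOpen.mem_nhds hy)).differentiableAt (by simp)

theorem loc_fderiv_chr (h : LocMetric G U) {y : E} (hy : y ∈ U) (u v d : E) :
    fderiv ℝ (fun z => chr G z u v) y d = fderiv ℝ (chrL G) y d u v := by
  rw [← loc_fderiv_app2c (h.loc_diff_chrL hy)]
  simp only [chrL_apply]

theorem chr_symm (h : LocMetric G U) {y : E} (hy : y ∈ U) (u v : E) :
    chr G y u v = chr G y v u := by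
  refine h.ext_vec hy fun w => ?_
  rw [h.koszul hy, h.koszul hy, h.loc_fderiv_symm hy w u v]
  ring

theorem loc_fderiv_chr_symm (h : LocMetric G U) {y : E} (hy : y ∈ U) (d u v : E) :
    fderiv ℝ (chrL G) y d u v = fderiv ℝ (chrL G) y d v u := by
  rw [← h.loc_fderiv_chr hy, ← h.loc_fderiv_chr hy]
  have : (fun z => chr G z u v) =ᶠ[𝓝 y] fun z => chr G z v u := by
    filter_upwards [h.isOpen.mem_nhds hy] with z hz
    exact h.chr_symm hz u v
  rw [this.fderiv_eq]

theorem fderiv_eq (h : LocMetric G U) {y : E} (hy : y ∈ U) (w u v : E) :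
    fderiv ℝ G y w u v = G y (chr G y w u) v + G y u (chr G y w v) := by
  rw [h.symm y hy u, h.koszul hy, h.koszul hy, h.loc_fderiv_symm hy w v u,
    h.loc_fderiv_symm hy v w u, h.loc_fderiv_symm hy u w v]
  ring

theorem loc_snd (h : LocMetric G U) {y : E} (hy : y ∈ U) (d a w : E) :
    fderiv ℝ (fderiv ℝ G) y d a w w =
      2 * (G y (chr G y d (chr G y a w)) w + G y (chr G y a w) (chr G y d w) +
        G y (fderiv ℝ (chrL G) y d a w) w) := by
  have hD : DifferentiableAt ℝ (fderiv ℝ G) y :=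
    (h.loc_contDiffAt_fderiv hy).differentiableAt (by simp)
  have hD1 : DifferentiableAt ℝ (fun z => fderiv ℝ G z a) y :=
    hD.clm_apply (differentiableAt_const a)
  have hc : DifferentiableAt ℝ (fun z => chr G z a w) y := by
    simp only [← chrL_apply]
    exact ((h.loc_diff_chrL hy).clm_apply (differentiableAt_const a)).clm_apply
      (differentiableAt_const w)
  have e1 : fderiv ℝ (fderiv ℝ G) y d a w w = fderiv ℝ (fun z => fderiv ℝ G z a w w) y d := by
    rw [loc_fderiv_app2c hD1, loc_fderiv_app1c hD]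
  have e2 : (fun z => fderiv ℝ G z a w w) =ᶠ[𝓝 y]
      fun z => (2 : ℝ) * G z (chr G z a w) w := by
    filter_upwards [h.isOpen.mem_nhds hy] with z hz
    rw [h.fderiv_eq hz, h.symm z hz w]
    ring
  have hc2 : DifferentiableAt ℝ (fun z => G z (chr G z a w) w) y :=
    ((h.loc_diff hy).clm_apply hc).clm_apply (differentiableAt_const w)
  rw [e1, e2.fderiv_eq, fderiv_const_mul hc2, smul_apply,
    loc_fderiv_app2 (h.loc_diff hy) hc (differentiableAt_const w), h.fderiv_eq hy,
    h.loc_fderiv_chr hy]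
  simp

theorem riem_skew (h : LocMetric G U) {y : E} (hy : y ∈ U) (u v w : E) :
    G y (riem G y u v w) w = 0 := by
  have hs : fderiv ℝ (fderiv ℝ G) y u v = fderiv ℝ (fderiv ℝ G) y v u :=
    ((h.loc_contDiffAt hy).isSymmSndFDerivAt (by simpa using (ENat.LEInfty.out : (2 : WithTop ℕ∞) ≤ ∞))).eq u v
  have h1 := h.loc_snd hy u v w
  have h2 := h.loc_snd hy v u w
  rw [hs, h2] at h1
  have h3 := h.symm y hy (chr G y u w) (chr G y v w)
  unfold riem
  rw [h.loc_fderiv_chr hy, h.loc_fderiv_chr hy]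
  simp only [map_add, map_sub, add_apply, sub_apply]
  linarith

theorem contDiffOn_spray (h : LocMetric G U) : ContDiffOn ℝ ∞ (spray G) (U ×ˢ Set.univ) := by
  have h1 : ContDiffOn ℝ ∞ (fun z : E × E => chrL G z.1) (U ×ˢ Set.univ) :=
    h.contDiffOn_chrL.comp contDiffOn_fst fun z hz => hz.1
  have h2 : spray G = fun z : E × E => (z.2, -chrL G z.1 z.2 z.2) := by
    funext z
    simp only [spray, chrL_apply]
  rw [h2]
  exact contDiffOn_snd.prodMk ((h1.clm_apply contDiffOn_snd).clm_apply contDiffOn_snd).neg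

theorem fderiv_spray (h : LocMetric G U) {z : E × E} (hz : z.1 ∈ U) (δ : E × E) :
    fderiv ℝ (spray G) z δ = (δ.2, lin G z.1 z.2 δ.1 δ.2) := by
  have h2 : spray G = fun z : E × E => (z.2, -chrL G z.1 z.2 z.2) := by
    funext z
    simp only [spray, chrL_apply]
  have h1 : DifferentiableAt ℝ (fun z : E × E => chrL G z.1) z :=
    (h.loc_diff_chrL hz).comp z differentiableAt_fst
  have h3 : DifferentiableAt ℝ (fun z : E × E => chrL G z.1 z.2 z.2) z :=
    (h1.clm_apply differentiableAt_snd).clm_apply differentiableAt_snd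
  have h4 : fderiv ℝ (fun z : E × E => chrL G z.1) z δ = fderiv ℝ (chrL G) z.1 δ.1 := by
    have := fderiv_comp z (h.loc_diff_chrL hz) (differentiableAt_fst (𝕜 := ℝ) (p := z))
    rw [show (fun z : E × E => chrL G z.1) = chrL G ∘ Prod.fst from rfl, this, fderiv_fst]
    simp
  rw [h2, DifferentiableAt.fderiv_prodMk differentiableAt_snd h3.fun_neg, fderiv_fun_neg]
  simp only [ContinuousLinearMap.prod_apply, neg_apply]
  rw [loc_fderiv_app2 h1 differentiableAt_snd differentiableAt_snd, h4, fderiv_snd]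
  simp only [ContinuousLinearMap.coe_snd', chrL_apply, lin, h.chr_symm hz δ.2 z.2, two_smul]
  congr 1
  abel

/-- Derivative of an inner product along a curve. -/
theorem hasDerivAt_inner (h : LocMetric G U) {x a b : ℝ → E} {x' a' b' : E} {t : ℝ}
    (hU : x t ∈ U) (hx : HasDerivAt x x' t) (ha : HasDerivAt a a' t) (hb : HasDerivAt b b' t) :
    HasDerivAt (fun s => G (x s) (a s) (b s))
      (G (x t) (a' + chr G (x t) x' (a t)) (b t) + G (x t) (a t) (b' + chr G (x t) x' (b t))) t := by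
  have h1 : HasDerivAt (fun s => G (x s)) (fderiv ℝ G (x t) x') t :=
    (h.loc_diff hU).hasFDerivAt.comp_hasDerivAt t hx
  have h2 := (h1.clm_apply ha).clm_apply hb
  refine h2.congr_deriv ?_
  simp only [map_add, add_apply, h.fderiv_eq hU]
  ring

/-- The Jacobi equation is the linearised geodesic equation. -/
theorem jacobi_iff (h : LocMetric G U) {x v J K : ℝ → E} {t : ℝ} (hU : x t ∈ U)
    (hx : HasDerivAt x (v t) t) (hv : HasDerivAt v (-chr G (x t) (v t) (v t)) t)
    (hJ : HasDerivAt J (K t) t) :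
    HasDerivAt (fun s => K s + chr G (x s) (v s) (J s))
      (-chr G (x t) (v t) (K t + chr G (x t) (v t) (J t)) - riem G (x t) (J t) (v t) (v t)) t ↔
    HasDerivAt K (lin G (x t) (v t) (J t) (K t)) t := by
  have h1 : HasDerivAt (fun s => chrL G (x s)) (fderiv ℝ (chrL G) (x t) (v t)) t :=
    (h.loc_diff_chrL hU).hasFDerivAt.comp_hasDerivAt t hx
  have h2 := (h1.clm_apply hv).clm_apply hJ
  simp only [chrL_apply] at h2
  have e : -chr G (x t) (v t) (K t + chr G (x t) (v t) (J t)) - riem G (x t) (J t) (v t) (v t) =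
      lin G (x t) (v t) (J t) (K t) +
        ((fderiv ℝ (chrL G) (x t) (v t) (v t) + chrL G (x t) (-chr G (x t) (v t) (v t))) (J t) +
          chr G (x t) (v t) (K t)) := by
    unfold riem lin
    rw [h.loc_fderiv_chr hU, h.loc_fderiv_chr hU, h.loc_fderiv_chr_symm hU (v t) (J t) (v t),
      h.chr_symm hU (J t) (chr G (x t) (v t) (v t)), h.chr_symm hU (J t) (v t)]
    simp only [← chrL_apply, map_add, map_neg, add_apply,
      neg_apply, two_smul]
    abel
  rw [e]
  constructor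
  · intro h3
    have h4 := h3.fun_sub h2
    simpa using h4
  · intro h3
    exact h3.fun_add h2

end LocMetric

/-- Transformation law of the Christoffel symbols under a local isometry. -/
theorem chr_transform {G₁ G₂ : E → E →L[ℝ] E →L[ℝ] ℝ} {U₁ U₂ : Set E} (h₁ : LocMetric G₁ U₁)
    (h₂ : LocMetric G₂ U₂) {τ : E → E} {y : E} (hy : y ∈ U₁) (hτy : τ y ∈ U₂)
    (hτ : ContDiffAt ℝ 2 τ y)
    (iso : ∀ᶠ z in 𝓝 y, ∀ u v, G₁ z u v = G₂ (τ z) (fderiv ℝ τ z u) (fderiv ℝ τ z v)) (u v : E) :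
    fderiv ℝ τ y (chr G₁ y u v) =
      fderiv ℝ (fderiv ℝ τ) y u v + chr G₂ (τ y) (fderiv ℝ τ y u) (fderiv ℝ τ y v) := by
  have hd : DifferentiableAt ℝ τ y := hτ.differentiableAt (by simp)
  have hD : DifferentiableAt ℝ (fderiv ℝ τ) y :=
    (hτ.fderiv_right (m := 1) (by norm_num)).differentiableAt (by simp)
  have hs : ∀ a b, fderiv ℝ (fderiv ℝ τ) y a b = fderiv ℝ (fderiv ℝ τ) y b a := fun a b =>
    (hτ.isSymmSndFDerivAt (by simp)).eq a b
  have h0 := iso.self_of_nhds
  have hinj : Function.Injective (fderiv ℝ τ y) := by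
    rw [injective_iff_map_eq_zero]
    intro a ha
    by_contra hne
    have := h₁.pos y hy a hne
    rw [h0, ha] at this
    simp at this
  have hsurj : Function.Surjective (fderiv ℝ τ y) :=
    (LinearMap.injective_iff_surjective (f := (fderiv ℝ τ y : E →ₗ[ℝ] E))).mp hinj
  have hG : DifferentiableAt ℝ (fun z => G₂ (τ z)) y := (h₂.loc_diff hτy).comp y hd
  have hG' : ∀ d, fderiv ℝ (fun z => G₂ (τ z)) y d = fderiv ℝ G₂ (τ y) (fderiv ℝ τ y d) := by
    intro d
    rw [show (fun z => G₂ (τ z)) = G₂ ∘ τ from rfl, fderiv_comp y (h₂.loc_diff hτy) hd]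
    rfl
  have key : ∀ d a b, fderiv ℝ G₁ y d a b =
      fderiv ℝ G₂ (τ y) (fderiv ℝ τ y d) (fderiv ℝ τ y a) (fderiv ℝ τ y b) +
        G₂ (τ y) (fderiv ℝ (fderiv ℝ τ) y d a) (fderiv ℝ τ y b) +
        G₂ (τ y) (fderiv ℝ τ y a) (fderiv ℝ (fderiv ℝ τ) y d b) := by
    intro d a b
    have e : (fun z => G₁ z a b) =ᶠ[𝓝 y]
        fun z => G₂ (τ z) (fderiv ℝ τ z a) (fderiv ℝ τ z b) := by
      filter_upwards [iso] with z hz
      exact hz a b
    rw [← loc_fderiv_app2c (h₁.loc_diff hy), e.fderiv_eq,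
      loc_fderiv_app2 hG (hD.clm_apply (differentiableAt_const a))
        (hD.clm_apply (differentiableAt_const b)), hG', loc_fderiv_app1c hD, loc_fderiv_app1c hD]
  refine h₂.ext_vec hτy fun w' => ?_
  obtain ⟨w, rfl⟩ := hsurj w'
  rw [← h0, h₁.koszul hy, map_add, add_apply, h₂.koszul hτy, key, key, key,
    hs v u, hs w u, hs w v, h₂.symm _ hτy (fderiv ℝ τ y v) (fderiv ℝ (fderiv ℝ τ) y u w)]
  ring

/-- A local isometry maps solutions of the geodesic equation to solutions. -/
theorem geodesic_transform {G₁ G₂ : E → E →L[ℝ] E →L[ℝ] ℝ} {U₁ U₂ : Set E} (h₁ : LocMetric G₁ U₁)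
    (h₂ : LocMetric G₂ U₂) {τ : E → E} {x v : ℝ → E} {t : ℝ} (hy : x t ∈ U₁) (hτy : τ (x t) ∈ U₂)
    (hτ : ContDiffAt ℝ 2 τ (x t))
    (iso : ∀ᶠ z in 𝓝 (x t), ∀ u v, G₁ z u v = G₂ (τ z) (fderiv ℝ τ z u) (fderiv ℝ τ z v))
    (hx : HasDerivAt x (v t) t) (hv : HasDerivAt v (-chr G₁ (x t) (v t) (v t)) t) :
    HasDerivAt (fun s => fderiv ℝ τ (x s) (v s))
      (-chr G₂ (τ (x t)) (fderiv ℝ τ (x t) (v t)) (fderiv ℝ τ (x t) (v t))) t := by
  have hD : DifferentiableAt ℝ (fderiv ℝ τ) (x t) :=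
    (hτ.fderiv_right (m := 1) (by norm_num)).differentiableAt (by simp)
  have h1 : HasDerivAt (fun s => fderiv ℝ τ (x s)) (fderiv ℝ (fderiv ℝ τ) (x t) (v t)) t :=
    hD.hasFDerivAt.comp_hasDerivAt t hx
  have h2 := h1.clm_apply hv
  convert h2 using 1
  rw [map_neg, chr_transform h₁ h₂ hy hτy hτ iso]
  abel

end Vale.Agent.P255
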