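import Mathlib

/-!
# Deck transformations of a covering by a normed space  (TASK)

A real normed space is simply connected and locally path connected (instances via
`ContractibleSpace`), so `IsCoveringMap.existsUnique_continuousMap_lifts` lifts every continuous map
from a normed space; `IsCoveringMap.eq_of_comp_eq` is uniqueness of lifts.
`exists_deck`: lift `p` itself sending `a ↦ b`, and `b ↦ a`; the composites are lifts of `p` fixing a
point, hence the identity.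
`square_comm`: `σ, φ` act on the whole lift `Ft` as stated on `ρ = 0` (uniqueness of lifts on
`ℝ × ℝ × ℝ`).  Let `c k = Ft (1, π/4 + k π/2, 0)`.  Take decks `a`, `b` with
`a (Ft (1, π - θ, z)) = Ft (1, θ, z)` on `[-π/4, π/4] × ℝ` and `b (Ft (1, -θ, z)) = Ft (1, θ, z)` on
`[π/4, 3π/4] × ℝ` (`exists_deck` at one point, `IsCoveringMap.eqOn_of_comp_eqOn` on the convex
set).  Then `a c₁ = c₀`, `a c₂ = c₋₁`, `b c₋₁ = c₀`, `b c₋₂ = c₁`, `σ c₋₂ = c₂`, whence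
`σ c₋₂ = a⁻¹ b⁻¹ a b c₋₂`; conclude by `deck_ext`; the same for commutation with `φ`.
-/

namespace Vale.Agent.P255

open Set Real

variable {E M : Type*} [NormedAddCommGroup E] [NormedSpace ℝ E] [TopologicalSpace M] {p : E → M}

/-- The deck group. -/
def Deck (p : E → M) : Subgroup (Equiv.Perm E) where
  carrier := {φ | Continuous φ ∧ Continuous φ.symm ∧ ∀ w, p (φ w) = p w}
  one_mem' := ⟨continuous_id, continuous_id, fun _ => rfl⟩
  mul_mem' := fun {φ ψ} h k => ⟨h.1.comp k.1, k.2.1.comp h.2.1, fun w => (h.2.2 _).trans (k.2.2 w)⟩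
  inv_mem' := fun {φ} h => ⟨h.2.1, h.1, fun w => by
    have := h.2.2 (φ.symm w)
    rw [Equiv.apply_symm_apply] at this
    exact this.symm⟩

theorem exists_lift (hp : IsCoveringMap p) {A : Type*} [NormedAddCommGroup A] [NormedSpace ℝ A]
    {F : A → M} (hF : Continuous F) (a₀ : A) {w₀ : E} (h : p w₀ = F a₀) :
    ∃ Ft : A → E, Continuous Ft ∧ Ft a₀ = w₀ ∧ ∀ a, p (Ft a) = F a := by
  obtain ⟨Ft, ⟨h1, h2⟩, -⟩ := hp.existsUnique_continuousMap_lifts ⟨F, hF⟩ a₀ w₀ h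
  exact ⟨Ft, Ft.continuous, h1, fun a => congrFun h2 a⟩

theorem lift_unique (hp : IsCoveringMap p) {A : Type*} [NormedAddCommGroup A] [NormedSpace ℝ A]
    {F₁ F₂ : A → E} (h₁ : Continuous F₁) (h₂ : Continuous F₂) (h : ∀ a, p (F₁ a) = p (F₂ a))
    {a₀ : A} (h0 : F₁ a₀ = F₂ a₀) (a : A) : F₁ a = F₂ a := by
  exact congrFun (hp.eq_of_comp_eq h₁ h₂ (funext h) a₀ h0) a

theorem deck_ext (hp : IsCoveringMap p) {φ ψ : Deck p} {w : E} (h : φ • w = ψ • w) : φ = ψ := by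
  refine Subtype.ext (Equiv.ext fun v => ?_)
  exact lift_unique hp φ.2.1 ψ.2.1 (fun a => (φ.2.2.2 a).trans (ψ.2.2.2 a).symm) h v

theorem exists_deck (hp : IsCoveringMap p) {a b : E} (h : p a = p b) :
    ∃ φ : Deck p, φ • a = b := by
  obtain ⟨f, hf, f0, f1⟩ := exists_lift hp hp.continuous a h.symm
  obtain ⟨g, hg, g0, g1⟩ := exists_lift hp hp.continuous b h
  have e1 : ∀ v, g (f v) = v := lift_unique hp (hg.comp hf) continuous_id
    (fun v => (g1 _).trans (f1 v)) (a₀ := a) (by simp [f0, g0])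
  have e2 : ∀ v, f (g v) = v := lift_unique hp (hf.comp hg) continuous_id
    (fun v => (f1 _).trans (g1 v)) (a₀ := b) (by simp [f0, g0])
  exact ⟨⟨⟨f, g, e1, e2⟩, hf, hg, f1⟩, f0⟩

theorem deck_translate_deck (hp : IsCoveringMap p) {A : Type*} [NormedAddCommGroup A]
    [NormedSpace ℝ A] {Ft : A → E} (hF : Continuous Ft) {ℓ : A}
    (h : ∀ a, p (Ft (a + ℓ)) = p (Ft a)) {φ : Deck p} (h0 : φ • Ft 0 = Ft (0 + ℓ)) (a : A) :
    φ • Ft a = Ft (a + ℓ) :=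
  lift_unique hp (F₁ := fun a => φ • Ft a) (F₂ := fun a => Ft (a + ℓ)) (φ.2.1.comp hF)
    (by fun_prop) (fun a => (φ.2.2.2 _).trans (h a).symm) h0 a

theorem exists_strip_deck (hp : IsCoveringMap p) {F G : ℝ × ℝ → E} (hF : Continuous F)
    (hG : Continuous G) {α β θ₀ : ℝ} (h0 : θ₀ ∈ Icc α β)
    (h : ∀ θ ∈ Icc α β, ∀ z, p (F (θ, z)) = p (G (θ, z))) :
    ∃ a : Deck p, ∀ θ ∈ Icc α β, ∀ z, a • F (θ, z) = G (θ, z) := by
  obtain ⟨a, ha⟩ := exists_deck hp (h θ₀ h0 0)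
  refine ⟨a, fun θ hθ z => ?_⟩
  exact hp.eqOn_of_comp_eqOn (s := Icc α β ×ˢ univ) (g₁ := fun q => a • F q) (g₂ := G)
    (isPreconnected_Icc.prod isPreconnected_univ) (a.2.1.comp hF).continuousOn hG.continuousOn
    (fun q hq => (a.2.2.2 _).trans (h q.1 hq.1 q.2)) (a := (θ₀, 0)) ⟨h0, trivial⟩ ha
    (show (θ, z) ∈ Icc α β ×ˢ univ from ⟨hθ, trivial⟩)

/-- A translation symmetry of a map from a normed space gives a deck transformation. -/
theorem exists_deck_translate (hp : IsCoveringMap p) {A : Type*} [NormedAddCommGroup A]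
    [NormedSpace ℝ A] {Ft : A → E} (hF : Continuous Ft) {ℓ : A}
    (h : ∀ a, p (Ft (a + ℓ)) = p (Ft a)) : ∃ φ : Deck p, ∀ a, φ • Ft a = Ft (a + ℓ) := by
  obtain ⟨φ, hφ⟩ := exists_deck hp (h 0).symm
  exact ⟨φ, deck_translate_deck hp hF h hφ⟩

theorem square_comm (hp : IsCoveringMap p) {Ft : ℝ × ℝ × ℝ → E} (hF : Continuous Ft) {l : ℝ}
    (h1 : ∀ ρ θ z, p (Ft (ρ, θ + 2 * π, z)) = p (Ft (ρ, θ, z)))
    (h2 : ∀ ρ θ z, p (Ft (ρ, θ, z + l)) = p (Ft (ρ, θ, z)))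
    (h3 : ∀ θ ∈ Icc (-(π / 4)) (π / 4), ∀ z, p (Ft (1, π - θ, z)) = p (Ft (1, θ, z)))
    (h4 : ∀ θ ∈ Icc (π / 4) (3 * π / 4), ∀ z, p (Ft (1, -θ, z)) = p (Ft (1, θ, z)))
    {σ φ : Deck p} (hσ : σ • Ft (0, 0, 0) = Ft (0, 2 * π, 0))
    (hφ : φ • Ft (0, 0, 0) = Ft (0, 0, l)) :
    ∃ a b : Deck p, Commute φ a ∧ Commute φ b ∧ σ = a⁻¹ * b⁻¹ * a * b := by
  have hpi := Real.pi_pos
  have s1 : ∀ ρ θ z, σ • Ft (ρ, θ, z) = Ft (ρ, θ + 2 * π, z) := fun ρ θ z => by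
    have := deck_translate_deck hp hF (ℓ := (0, 2 * π, 0)) (φ := σ)
      (fun a => by simpa [Prod.add_def] using h1 a.1 a.2.1 a.2.2)
      (by rw [zero_add]; exact hσ) (ρ, θ, z)
    simpa using this
  have s2 : ∀ ρ θ z, φ • Ft (ρ, θ, z) = Ft (ρ, θ, z + l) := fun ρ θ z => by
    have := deck_translate_deck hp hF (ℓ := (0, 0, l)) (φ := φ)
      (fun a => by simpa [Prod.add_def] using h2 a.1 a.2.1 a.2.2)
      (by rw [zero_add]; exact hφ) (ρ, θ, z)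
    simpa using this
  have i1 : π / 4 ∈ Icc (-(π / 4)) (π / 4) := ⟨by linarith, le_rfl⟩
  have i2 : -(π / 4) ∈ Icc (-(π / 4)) (π / 4) := ⟨le_rfl, by linarith⟩
  have i3 : π / 4 ∈ Icc (π / 4) (3 * π / 4) := ⟨le_rfl, by linarith⟩
  have i4 : 3 * π / 4 ∈ Icc (π / 4) (3 * π / 4) := ⟨by linarith, le_rfl⟩
  obtain ⟨a, ha⟩ := exists_strip_deck hp (F := fun q => Ft (1, π - q.1, q.2))
    (G := fun q => Ft (1, q.1, q.2)) (by fun_prop) (by fun_prop) i1 h3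
  obtain ⟨b, hb⟩ := exists_strip_deck hp (F := fun q => Ft (1, -q.1, q.2))
    (G := fun q => Ft (1, q.1, q.2)) (by fun_prop) (by fun_prop) i3 h4
  simp only at ha hb
  refine ⟨a, b, deck_ext hp (w := Ft (1, π - π / 4, 0)) ?_,
    deck_ext hp (w := Ft (1, -(π / 4), 0)) ?_, deck_ext hp (w := Ft (1, -(3 * π / 4), 0)) ?_⟩
  · rw [mul_smul, mul_smul, ha _ i1, s2, s2, ha _ i1]
  · rw [mul_smul, mul_smul, hb _ i3, s2, s2, hb _ i3]
  · rw [mul_smul, mul_smul, mul_smul, hb _ i4, s1, show 3 * π / 4 = π - π / 4 by ring, ha _ i1,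
      ← hb _ i3, inv_smul_smul, ← ha _ i2, inv_smul_smul]
    congr 3
    ring

end Vale.Agent.P255
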