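import Mathlib

/-!
Riemannian metrics on a manifold in the classical chart-by-chart form: Christoffel symbols,
curvature, geodesics, Jacobi fields.
-/

namespace Vale.Agent.P255

open scoped ContDiff

section Local

variable {E : Type*} [NormedAddCommGroup E] [NormedSpace ℝ E]

/-- The Christoffel map of the coefficient field `G`: the vector `Γ(u, v)` with
`G(Γ(u, v), w) = (∂_u G(v, w) + ∂_v G(u, w) - ∂_w G(u, v)) / 2`. -/
noncomputable def chr (G : E → E →L[ℝ] E →L[ℝ] ℝ) (y u v : E) : E :=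
  (G y).inverse ((1 / 2 : ℝ) •
    (fderiv ℝ G y u v + fderiv ℝ G y v u - ((fderiv ℝ G y).flip u).flip v))

/-- The curvature tensor `R(u, v) w = ∇_u ∇_v w - ∇_v ∇_u w` (constant fields of the chart). -/
noncomputable def riem (G : E → E →L[ℝ] E →L[ℝ] ℝ) (y u v w : E) : E :=
  fderiv ℝ (fun z => chr G z v w) y u - fderiv ℝ (fun z => chr G z u w) y v +
    chr G y u (chr G y v w) - chr G y v (chr G y u w)

end Local

/-- A smooth Riemannian metric on `M`: smooth symmetric positive definite coefficients in every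
chart of the atlas, related by the tensor transformation law. -/
structure Metric (E M : Type*) [NormedAddCommGroup E] [NormedSpace ℝ E] [TopologicalSpace M]
    [ChartedSpace E M] where
  g : OpenPartialHomeomorph M E → E → E →L[ℝ] E →L[ℝ] ℝ
  smooth : ∀ e ∈ atlas E M, ContDiffOn ℝ ∞ (g e) e.target
  symm : ∀ e ∈ atlas E M, ∀ y ∈ e.target, ∀ u v, g e y u v = g e y v u
  pos : ∀ e ∈ atlas E M, ∀ y ∈ e.target, ∀ u, u ≠ 0 → 0 < g e y u u
  compat : ∀ e ∈ atlas E M, ∀ e' ∈ atlas E M, ∀ x ∈ e.source, x ∈ e'.source → ∀ u v,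
    g e (e x) u v =
      g e' (e' x) (fderiv ℝ (e' ∘ e.symm) (e x) u) (fderiv ℝ (e' ∘ e.symm) (e x) v)

namespace Metric

variable {E M : Type*} [NormedAddCommGroup E] [NormedSpace ℝ E] [TopologicalSpace M]
  [ChartedSpace E M] (g : Metric E M)

/-- Nonpositive sectional curvature: `g(R(u, v) v, u) ≤ 0` everywhere. -/
def NPC : Prop :=
  ∀ e ∈ atlas E M, ∀ y ∈ e.target, ∀ u v, g.g e y (riem (g.g e) y u v v) u ≤ 0

/-- `γ` is a geodesic on the (open) set of times `s`: `x'' + Γ(x', x') = 0` in every chart. -/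
def IsGeodesic (γ : ℝ → M) (s : Set ℝ) : Prop :=
  ContinuousOn γ s ∧ ∀ e ∈ atlas E M, ∀ t ∈ s, γ t ∈ e.source →
    DifferentiableAt ℝ (e ∘ γ) t ∧ HasDerivAt (deriv (e ∘ γ))
      (-chr (g.g e) (e (γ t)) (deriv (e ∘ γ) t) (deriv (e ∘ γ) t)) t

/-- The covariant derivative along `γ`, read in the chart `e`, of a field with components `J`. -/
noncomputable def cov (γ : ℝ → M) (e : OpenPartialHomeomorph M E) (J : ℝ → E) (t : ℝ) : E :=
  deriv J t + chr (g.g e) (e (γ t)) (deriv (e ∘ γ) t) (J t)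

/-- `J` (with components `J e` in the chart `e`) is a Jacobi field along `γ` on `s`: a vector
field along `γ` with `J'' + R(J, γ') γ' = 0`, primes being covariant derivatives. -/
def IsJacobi (γ : ℝ → M) (s : Set ℝ) (J : OpenPartialHomeomorph M E → ℝ → E) : Prop :=
  (∀ e ∈ atlas E M, ∀ e' ∈ atlas E M, ∀ t ∈ s, γ t ∈ e.source → γ t ∈ e'.source →
    J e' t = fderiv ℝ (e' ∘ e.symm) (e (γ t)) (J e t)) ∧
  ∀ e ∈ atlas E M, ∀ t ∈ s, γ t ∈ e.source →
    DifferentiableAt ℝ (J e) t ∧ DifferentiableAt ℝ (g.cov γ e (J e)) t ∧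
      g.cov γ e (g.cov γ e (J e)) t +
        riem (g.g e) (e (γ t)) (J e t) (deriv (e ∘ γ) t) (deriv (e ∘ γ) t) = 0

/-- No conjugate points: a Jacobi field along a geodesic vanishing at two distinct times is
zero. -/
def NoConj : Prop :=
  ∀ (a b : ℝ) (γ : ℝ → M) (J : OpenPartialHomeomorph M E → ℝ → E),
    g.IsGeodesic γ (Set.Ioo a b) → g.IsJacobi γ (Set.Ioo a b) J →
    ∀ t₀ ∈ Set.Ioo a b, ∀ t₁ ∈ Set.Ioo a b, t₀ ≠ t₁ →
      J (chartAt E (γ t₀)) t₀ = 0 → J (chartAt E (γ t₁)) t₁ = 0 →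
      ∀ t ∈ Set.Ioo a b, J (chartAt E (γ t)) t = 0

end Metric

end Vale.Agent.P255
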