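import Vale.Agent.P255.ExpCover
import Vale.Agent.P255.Deck

/-!
# The CAT(0) distance on the universal cover  (TASK)

`p = exp m : E → M` is a covering.  For `w : E` let `ε w : E → E` be the lift through `p` of
`exp (p w)` with `0 ↦ w`, and `ι w` the lift through the covering `exp (p w)` of `p` with `w ↦ 0`
(`exists_lift`); they are mutually inverse (`lift_unique`).  Put `d a b = √(ip (p a) (ι a b) (ι a b))`.
Key inequality (K): `ip (p m') (u₁ - u₂) (u₁ - u₂) ≤ d (ε m' u₁) (ε m' u₂) ^ 2`: with `a₁ = ε m' u₁`,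
`w = ι a₁ (ε m' u₂)`, the curve `η s = ι m' (ε a₁ (s • w))` joins `u₁` to `u₂`,
`exp (p m') (η s) = geo (p a₁) w s` (`exp_smul`); `lift_deriv`, `exp_expand`, `speed_chart`,
`geo_speed` give `ip η' η' ≤ ip w w`; mean value inequality for `s ↦ ip (η s) (u₂ - u₁)` with
Cauchy–Schwarz.  Symmetry and triangle inequality follow from (K) (with `u₂ = 0`, resp. the
triangle inequality of the norm `√ip`).  Midpoint of `a, c`: `u = ι a c`, `m' = ε a (u/2)`,
`v = vel (geo (p a) (u/2)) 1`; `ε m' (s • v) = ε a ((1+s) • u/2)` (`geo_add`, `geo_smul`,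
`lift_unique` in `s : ℝ`), so `ε m' v = c`, `ε m' (-v) = a`, `ip v v = ip u u / 4` (`geo_speed`);
add (K) for `(ι m' b, v)` and `(ι m' b, -v)`.  Decks: `φ ∘ ε a = ε (φ a)`.  Systole: `systole`,
`deck_ext`.
-/

namespace Vale.Agent.P255

open scoped ContDiff Topology Manifold
open Set

variable {E M : Type*} [NormedAddCommGroup E] [NormedSpace ℝ E] [FiniteDimensional ℝ E]
  [TopologicalSpace M] [ChartedSpace E M] [IsManifold 𝓘(ℝ, E) ∞ M] [T2Space M] [CompactSpace M]

namespace Metric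

omit [IsManifold 𝓘(ℝ, E) ∞ M] [T2Space M] [CompactSpace M] in
theorem dist_ip_nonneg (g : Metric E M) (x : M) (u : E) : 0 ≤ g.ip x u u :=
  (g.loc (chart_mem_atlas E x)).nonneg (mem_chart_target E x) u

omit [IsManifold 𝓘(ℝ, E) ∞ M] [T2Space M] [CompactSpace M] in
theorem dist_ip_sq_le (g : Metric E M) (x : M) (u v : E) :
    g.ip x u v ^ 2 ≤ g.ip x u u * g.ip x v v :=
  (g.loc (chart_mem_atlas E x)).sq_le (mem_chart_target E x) u v

omit [FiniteDimensional ℝ E] [IsManifold 𝓘(ℝ, E) ∞ M] [T2Space M] [CompactSpace M] in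
theorem dist_ip_symm (g : Metric E M) (x : M) (u v : E) : g.ip x u v = g.ip x v u :=
  g.symm _ (chart_mem_atlas E x) _ (mem_chart_target E x) u v

omit [IsManifold 𝓘(ℝ, E) ∞ M] [T2Space M] [CompactSpace M] in
theorem dist_ip_triangle (g : Metric E M) (x : M) (u v : E) :
    √(g.ip x v v) ≤ √(g.ip x u u) + √(g.ip x (v - u) (v - u)) := by
  obtain ⟨w, rfl⟩ : ∃ w, v = u + w := ⟨v - u, by abel⟩
  rw [add_sub_cancel_left]
  refine Real.sqrt_le_iff.2 ⟨by positivity, ?_⟩
  have h1 := Real.sq_sqrt (g.dist_ip_nonneg x u)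
  have h2 := Real.sq_sqrt (g.dist_ip_nonneg x w)
  have h3 : g.ip x u w ≤ √(g.ip x u u) * √(g.ip x w w) := by
    rw [← Real.sqrt_mul (g.dist_ip_nonneg x u)]
    exact Real.le_sqrt_of_sq_le (g.dist_ip_sq_le x u w)
  simp only [map_add, _root_.add_apply, g.dist_ip_symm x w u]
  nlinarith

/-- A lift of a geodesic through an exponential map is not longer than the geodesic. -/
theorem NPC.dist_key {g : Metric E M} (hg : g.NPC) (x y : M) (w : E) {η : ℝ → E}
    (hη : Continuous η) (h : ∀ s, g.exp x (η s) = g.geo y w s) :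
    g.ip x (η 1 - η 0) (η 1 - η 0) ≤ g.ip y w w := by
  have h1 : ∀ s, ∃ k, HasDerivAt η k s ∧ g.ip x k k ≤ g.ip y w w := by
    intro s
    have he := chart_mem_atlas E (g.geo y w s)
    have hx : g.exp x (η s) ∈ (chartAt E (g.geo y w s)).source := by
      rw [h]
      exact mem_chart_source E _
    have hd := (((g.geo_isGeodesic y w).2 _ he s (mem_univ _) (mem_chart_source E _)).1).hasDerivAt
    obtain ⟨k, hk, hk'⟩ := hg.imm.lift_deriv x hη.continuousAt he hx
      (k := vel E (g.geo y w) s) (by simp only [h]; exact hd)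
    refine ⟨k, hk, (hg.exp_expand x (η s) k he hx).trans_eq ?_⟩
    rw [hk', h, ← g.geo_speed y w s]
    rfl
  choose k hk hk' using h1
  set D : E := η 1 - η 0 with hD
  have h2 : ∀ s, HasDerivAt (fun s => g.ip x D (η s)) (g.ip x D (k s)) s := fun s =>
    (g.ip x D).hasFDerivAt.comp_hasDerivAt s (hk s)
  obtain ⟨c, -, hc⟩ := exists_hasDerivAt_eq_slope (fun s => g.ip x D (η s))
    (fun s => g.ip x D (k s)) zero_lt_one (fun s _ => (h2 s).continuousAt.continuousWithinAt)
    fun s _ => h2 s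
  rw [sub_zero, div_one, ← map_sub, ← hD] at hc
  have h3 := g.dist_ip_sq_le x D (k c)
  rw [hc] at h3
  have h4 := g.dist_ip_nonneg x D
  have h5 := g.dist_ip_nonneg y w
  have h6 := hk' c
  by_contra h7
  nlinarith [not_le.1 h7]

end Metric

theorem Metric.NPC.exists_dist {g : Metric E M} (hg : g.NPC) (m : M) :
    ∃ d : E → E → ℝ, (∀ a b, 0 ≤ d a b) ∧ (∀ a, d a a = 0) ∧ (∀ a b, d a b = d b a) ∧
      (∀ a b c, d a c ≤ d a b + d b c) ∧
      (∀ a c, ∃ m', ∀ b, 2 * d b m' ^ 2 + d a c ^ 2 / 2 ≤ d b a ^ 2 + d b c ^ 2) ∧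
      (∀ (γ : Deck (g.exp m)) a b, d (γ • a) (γ • b) = d a b) ∧
      ∃ δ > 0, ∀ γ : Deck (g.exp m), γ ≠ 1 → ∀ a, δ ≤ d a (γ • a) := by
  have cov : ∀ x, IsCoveringMap (g.exp x) := hg.imm.isCoveringMap
  set p := g.exp m with hp
  choose ε hεc hε0 hε using fun w : E =>
    exists_lift (cov m) (g.continuous_exp (p w)) 0 (w₀ := w) (g.exp_zero _).symm
  choose ι hιc hι0 hι using fun w : E =>
    exists_lift (cov (p w)) (g.continuous_exp m) w (w₀ := 0) (g.exp_zero _)
  have ει : ∀ w a, ε w (ι w a) = a := fun w =>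
    lift_unique (cov m) ((hεc w).comp (hιc w)) continuous_id
      (fun a => (hε w _).trans (hι w a)) (a₀ := w) (by simp [hι0, hε0])
  have ιε : ∀ w u, ι w (ε w u) = u := fun w =>
    lift_unique (cov (p w)) ((hιc w).comp (hεc w)) continuous_id
      (fun a => (hι w _).trans (hε w a)) (a₀ := 0) (by simp [hι0, hε0])
  let D : E → E → ℝ := fun a b => g.ip (p a) (ι a b) (ι a b)
  have hD0 : ∀ a b, 0 ≤ D a b := fun a b => g.dist_ip_nonneg _ _
  have K : ∀ c a b, g.ip (p c) (ι c b - ι c a) (ι c b - ι c a) ≤ D a b := by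
    intro c a b
    have := hg.dist_key (p c) (p a) (ι a b) (η := fun s : ℝ => ι c (ε a (s • ι a b)))
      ((hιc c).comp ((hεc a).comp (by fun_prop))) fun s => by
        rw [hι, ← g.exp_smul]
        exact hε a _
    simpa only [one_smul, zero_smul, ει, hε0] using this
  have hsymm : ∀ a b, D a b = D b a := by
    have h : ∀ a b, D b a ≤ D a b := fun a b => by
      simpa [hι0] using K b a b
    exact fun a b => le_antisymm (h b a) (h a b)
  refine ⟨fun a b => √(D a b), fun a b => Real.sqrt_nonneg _, fun a => by simp [D, hι0],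
    fun a b => congrArg Real.sqrt (hsymm a b), fun a b c => ?_, fun a c => ?_, fun γ a b => ?_, ?_⟩
  · exact (g.dist_ip_triangle (p a) (ι a b) (ι a c)).trans
      (add_le_add_right (Real.sqrt_le_sqrt (K a b c)) _)
  · set u : E := (1 / 2 : ℝ) • ι a c with hu
    set v : E := vel E (g.geo (p a) u) 1 with hv
    have hm : p (ε a u) = g.geo (p a) u 1 := hε a u
    have h1 : ∀ s : ℝ, ε (ε a u) (s • v) = ε a ((1 + s) • u) :=
      lift_unique (cov m) (F₁ := fun s : ℝ => ε (ε a u) (s • v))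
        (F₂ := fun s : ℝ => ε a ((1 + s) • u)) ((hεc _).comp (by fun_prop))
        ((hεc _).comp (by fun_prop))
        (fun s => by rw [hε, hε, g.exp_smul, g.exp_smul, hm, hv, g.geo_add]) (a₀ := 0)
        (by simp [hε0])
    have h2 : ι (ε a u) c = v := by
      have := h1 1
      rw [one_smul, hu, smul_smul, show (1 + 1 : ℝ) * (1 / 2) = 1 by norm_num, one_smul,
        ει] at this
      conv_lhs => rw [← this]
      exact ιε _ _
    have h3 : ι (ε a u) a = -v := by
      have := h1 (-1)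
      rw [add_neg_cancel, zero_smul, hε0, neg_one_smul] at this
      conv_lhs => enter [2]; rw [← this]
      exact ιε _ _
    have h4 : g.ip (p (ε a u)) v v = D a c / 4 := by
      rw [hm, hv, g.geo_speed, hu]
      simp only [D, map_smul, _root_.smul_apply, smul_eq_mul]
      ring
    refine ⟨ε a u, fun b => ?_⟩
    have k1 := K (ε a u) b c
    have k2 := K (ε a u) b a
    rw [h2] at k1
    rw [h3] at k2
    simp only [Real.sq_sqrt (hD0 _ _)]
    rw [hsymm b (ε a u)]
    simp only [map_sub, map_neg, _root_.sub_apply, _root_.neg_apply] at k1 k2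
    simp only [D] at *
    linarith
  · have h1 : p (γ • a) = p a := γ.2.2.2 a
    have h2 : ∀ u, γ • ε a u = ε (γ • a) u :=
      lift_unique (cov m) (F₁ := fun u => γ • ε a u) (γ.2.1.comp (hεc a)) (hεc _)
        (fun u => (γ.2.2.2 _).trans ((hε a u).trans (by rw [hε, h1]))) (a₀ := 0)
        (by simp only [hε0])
    have h3 : ι (γ • a) (γ • b) = ι a b := by
      conv_lhs => enter [2]; rw [← ει a b, h2]
      exact ιε _ _
    simp only [D, h1, h3]
  · obtain ⟨δ, hδ, h⟩ := g.systole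
    refine ⟨√δ, Real.sqrt_pos.2 hδ, fun γ hγ a => Real.sqrt_le_sqrt (not_lt.1 fun h1 => hγ ?_)⟩
    have h2 := h (p a) (ι a (γ • a)) ((hι a _).trans (γ.2.2.2 a)) h1
    refine deck_ext (cov m) (w := a) ?_
    rw [one_smul, ← ει a (γ • a), h2, hε0]

end Vale.Agent.P255
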