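import Vale.Agent.P255.Dep
import Vale.Agent.P255.Jac
import Vale.Agent.P255.Cover

/-!
# The Cartan–Hadamard theorem  (TASK)

`exp_expand`, `exp_gauss`: `IsJacobi.expand`, `IsJacobi.gauss` for `varJ` (`fderiv_exp`,
`varJ_zero`, `varJ_deriv`, `geo_zero`, `geo_deriv`, `nsq_chart`).
`NoConj.imm`: apply `NoConj` on `Ioo (-1) 2` to `varJ` (transformation law for vanishing at `1`);
then `varJ (chartAt x)` vanishes near `0`, so `h = 0` by `varJ_deriv`.
`Imm.isLocalHomeomorph`: inverse function theorem (`ContDiffAt.toOpenPartialHomeomorph`) for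
`e ∘ exp x`, composed with `e.symm`.
`Imm.lift_deriv`: near `t`, `η` is the local inverse applied to `e ∘ exp x ∘ η`.
`Imm.isCoveringMap`: `isCoveringMap_of_lifts` with `W` the preimage of a chart ball whose closure
is in the target, `c b t = e.symm (a + t • (e b - a))`; segments lift by `exists_lift_of_compact`:
along a lift `Γ` on `[0,s]`, `N = ip x Γ Γ` is continuous on `[0,s]`, differentiable on `(0,s)` with
`N' = 2 G(b - a, γ')`, `|N'| ≤ 2 C √N` (`exp_gauss`, `sq_le`, `exists_bounds`, `speed_chart`,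
`geo_speed`), so `N` is bounded (e.g. `|N'| ≤ C (1 + N)`, Gronwall or `log (1 + N)`), and
`{w | ip x w w ≤ R}` is compact.
-/

namespace Vale.Agent.P255

open scoped ContDiff Topology Manifold
open Set

variable {E M : Type*} [NormedAddCommGroup E] [NormedSpace ℝ E] [FiniteDimensional ℝ E]
  [TopologicalSpace M] [ChartedSpace E M] [IsManifold 𝓘(ℝ, E) ∞ M] [T2Space M] [CompactSpace M]
  {e : OpenPartialHomeomorph M E}

namespace Metric

variable {g : Metric E M}

/-- All exponential maps are immersions. -/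
def Imm (g : Metric E M) : Prop :=
  ∀ (x : M) (v : E), ∀ e ∈ atlas E M, g.exp x v ∈ e.source →
    Function.Injective (fderiv ℝ (e ∘ g.exp x) v)

theorem exp_gauss (g : Metric E M) (x : M) (v h : E) (he : e ∈ atlas E M)
    (hx : g.exp x v ∈ e.source) :
    g.g e (e (g.exp x v)) (fderiv ℝ (e ∘ g.exp x) v h) (deriv (e ∘ g.geo x v) 1) = g.ip x h v := by
  have h1 := (g.varJ_isJacobi x v h univ).gauss (g.geo_isGeodesic x v)
    (by rw [geo_zero]; exact g.varJ_zero x v h) he (t := 1) hx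
  rw [vel, geo_zero, varJ_deriv, geo_deriv, one_mul] at h1
  exact h1

theorem NPC.exp_expand (hg : g.NPC) (x : M) (v h : E) (he : e ∈ atlas E M)
    (hx : g.exp x v ∈ e.source) : g.ip x h h ≤
      g.g e (e (g.exp x v)) (fderiv ℝ (e ∘ g.exp x) v h) (fderiv ℝ (e ∘ g.exp x) v h) := by
  have h1 := IsJacobi.expand hg (g.varJ_isJacobi x v h univ) (g.geo_isGeodesic x v)
    (by rw [geo_zero]; exact g.varJ_zero x v h)
  rw [geo_zero, varJ_deriv,
    (g.varJ_isJacobi x v h univ).nsq_chart he (mem_univ 1) hx] at h1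
  exact h1

theorem NPC.imm (hg : g.NPC) : g.Imm := by
  intro x v e he hx
  refine (injective_iff_map_eq_zero _).2 fun h h0 => ?_
  by_contra hh
  have h1 := hg.exp_expand x v h he hx
  rw [h0, map_zero] at h1
  exact absurd (g.pos _ (chart_mem_atlas E x) _ (mem_chart_target E x) h hh) (not_lt.2 h1)

theorem NoConj.imm (hg : g.NoConj) : g.Imm := by
  intro x v e he hx
  refine (injective_iff_map_eq_zero _).2 fun h h0 => ?_
  have hJ := g.varJ_isJacobi x v h (Ioo (-1) 2)
  have h1 : g.varJ x v h (chartAt E (g.geo x v 1)) 1 = 0 := by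
    rw [hJ.1 e he _ (chart_mem_atlas E _) 1 (by norm_num) hx (mem_chart_source E _),
      ← fderiv_exp, h0, map_zero]
  have h2 := hg (-1) 2 _ _ ((g.geo_isGeodesic x v).mono (subset_univ _)) hJ 0 (by norm_num) 1
    (by norm_num) zero_ne_one (by rw [geo_zero]; exact g.varJ_zero x v h) h1
  have h3 : ∀ᶠ t in 𝓝 (0 : ℝ), g.geo x v t ∈ (chartAt E x).source :=
    (g.continuous_geo x v).continuousAt.preimage_mem_nhds
      ((chartAt E x).open_source.mem_nhds (by rw [geo_zero]; exact mem_chart_source E x))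
  have h4 : g.varJ x v h (chartAt E x) =ᶠ[𝓝 0] fun _ => 0 := by
    filter_upwards [h3, Ioo_mem_nhds (show (-1 : ℝ) < 0 by norm_num) two_pos] with t ht ht'
    rw [hJ.1 _ (chart_mem_atlas E _) _ (chart_mem_atlas E x) t ht' (mem_chart_source E _) ht,
      h2 t ht', map_zero]
  rw [← g.varJ_deriv x v h, h4.deriv_eq, deriv_const]

theorem Imm.exists_equiv (hg : g.Imm) (x : M) (v : E) (he : e ∈ atlas E M)
    (hx : g.exp x v ∈ e.source) : ∃ A : E ≃L[ℝ] E,
      HasStrictFDerivAt (e ∘ g.exp x) (A : E →L[ℝ] E) v :=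
  ⟨(LinearEquiv.ofInjectiveEndo (fderiv ℝ (e ∘ g.exp x) v : E →ₗ[ℝ] E)
    (hg x v e he hx)).toContinuousLinearEquiv,
    (g.contDiffAt_exp x v he hx).hasStrictFDerivAt one_ne_zero⟩

theorem Imm.isLocalHomeomorph (hg : g.Imm) (x : M) : IsLocalHomeomorph (g.exp x) := by
  refine IsLocalHomeomorph.mk _ fun v => ?_
  have he := chart_mem_atlas E (g.exp x v)
  have hx := mem_chart_source E (g.exp x v)
  obtain ⟨A, hA⟩ := hg.exists_equiv x v he hx
  refine ⟨((hA.toOpenPartialHomeomorph _).restrOpen (g.exp x ⁻¹' (chartAt E (g.exp x v)).source)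
    ((chartAt E (g.exp x v)).open_source.preimage (g.continuous_exp x))).trans
      (chartAt E (g.exp x v)).symm,
    ⟨⟨hA.mem_toOpenPartialHomeomorph_source, hx⟩, (chartAt E (g.exp x v)).map_source hx⟩,
    fun w hw => ?_⟩
  exact ((chartAt E (g.exp x v)).left_inv hw.1.2).symm

theorem Imm.lift_deriv (hg : g.Imm) (x : M) {η : ℝ → E} {t : ℝ} (hη : ContinuousAt η t)
    (he : e ∈ atlas E M) (hx : g.exp x (η t) ∈ e.source) {k : E}
    (hk : HasDerivAt (fun s => e (g.exp x (η s))) k t) :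
    ∃ h, HasDerivAt η h t ∧ fderiv ℝ (e ∘ g.exp x) (η t) h = k := by
  obtain ⟨A, hA⟩ := hg.exists_equiv x (η t) he hx
  have h1 := hA.to_localInverse.hasFDerivAt.comp_hasDerivAt t hk
  refine ⟨_, h1.congr_of_eventuallyEq ?_, ?_⟩
  · filter_upwards [hη.eventually hA.eventually_left_inverse] with s hs
    exact hs.symm
  · rw [hA.hasFDerivAt.fderiv]
    exact A.apply_symm_apply k

theorem expCover_gronwall {N : ℝ → ℝ} {A s : ℝ} (hs : s ∈ Icc (0 : ℝ) 1) (hA : 0 ≤ A)
    (h0 : 0 ≤ N 0) (hc : ContinuousOn N (Icc 0 s))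
    (hd : ∀ t ∈ Ioo 0 s, ∃ n, HasDerivAt N n t ∧ n ≤ A + N t) :
    N s ≤ (A + N 0) * Real.exp 1 := by
  have key : ∀ t ∈ Ioo 0 s, ∃ n, HasDerivAt (fun t => (A + N t) * Real.exp (-t)) n t ∧ n ≤ 0 := by
    intro t ht
    obtain ⟨n, h1, h2⟩ := hd t ht
    refine ⟨_, (h1.const_add A).mul (hasDerivAt_neg t).exp, ?_⟩
    nlinarith [Real.exp_pos (-t)]
  have h1 : AntitoneOn (fun t => (A + N t) * Real.exp (-t)) (Icc 0 s) := by
    refine antitoneOn_of_deriv_nonpos (convex_Icc 0 s)
      ((continuousOn_const.add hc).mul (by fun_prop)) (fun t ht => ?_) fun t ht => ?_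
    · rw [interior_Icc] at ht
      obtain ⟨n, h1, _⟩ := key t ht
      exact h1.differentiableAt.differentiableWithinAt
    · rw [interior_Icc] at ht
      obtain ⟨n, h1, h2⟩ := key t ht
      rw [h1.deriv]
      exact h2
  have h2 := h1 (left_mem_Icc.2 hs.1) (right_mem_Icc.2 hs.1) hs.1
  simp only [neg_zero, Real.exp_zero, mul_one] at h2
  rw [Real.exp_neg, ← div_eq_mul_inv, div_le_iff₀ (Real.exp_pos s)] at h2
  have h3 := mul_le_mul_of_nonneg_left (Real.exp_le_exp.2 hs.2) (add_nonneg hA h0)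
  linarith

theorem Imm.seg_lift (hg : g.Imm) (x : M) (he : e ∈ atlas E M) {a p q : E} {r : ℝ}
    (hK : _root_.Metric.closedBall a r ⊆ e.target) (hp : p ∈ _root_.Metric.closedBall a r)
    (hq : q ∈ _root_.Metric.closedBall a r) {w : E} (hw : g.exp x w = e.symm p) :
    ∃ Γ : ℝ → E, ContinuousOn Γ (Icc 0 1) ∧ Γ 0 = w ∧
      ∀ t ∈ Icc (0 : ℝ) 1, g.exp x (Γ t) = e.symm (p + t • (q - p)) := by
  have : ProperSpace E := FiniteDimensional.proper_real E
  have hm : ∀ t ∈ Icc (0 : ℝ) 1, p + t • (q - p) ∈ _root_.Metric.closedBall a r := fun t ht =>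
    (convex_closedBall _ _).add_smul_sub_mem hp hq ht
  obtain ⟨c, C, hc, hC, hb⟩ := (g.loc he).exists_bounds (isCompact_closedBall a r) hK
  have hL := g.loc (chart_mem_atlas E x)
  have hxt := mem_chart_target E x
  obtain ⟨c', C', hc', -, hb'⟩ := hL.exists_bounds isCompact_singleton
    (singleton_subset_iff.2 hxt)
  refine exists_lift_of_compact (hg.isLocalHomeomorph x)
    (e.continuousOn_symm.comp (by fun_prop) fun t ht => hK (hm t ht)) (by simpa using hw)
    (isCompact_closedBall 0 ((C * ‖q - p‖ ^ 2 + g.ip x w w) * Real.exp 1 / c' + 1))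
    fun s hs Γ hΓ h0 hl => ?_
  have h1 := expCover_gronwall (N := fun t => g.ip x (Γ t) (Γ t)) (A := C * ‖q - p‖ ^ 2) hs
    (by positivity) (hL.nonneg hxt _) (((g.ip x).continuous.comp_continuousOn hΓ).clm_apply hΓ)
    fun t ht => ?_
  · simp only [h0] at h1
    have h2 : c' * ‖Γ s‖ ^ 2 ≤ g.ip x (Γ s) (Γ s) := (hb' _ rfl (Γ s)).1
    have h3 : ‖Γ s‖ ^ 2 ≤ (C * ‖q - p‖ ^ 2 + g.ip x w w) * Real.exp 1 / c' := by
      rw [le_div_iff₀ hc']; linarith
    rw [mem_closedBall_zero_iff]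
    nlinarith [norm_nonneg (Γ s)]
  · have hn : Icc 0 s ∈ 𝓝 t := Icc_mem_nhds ht.1 ht.2
    have hs1 : ∀ u ∈ Icc 0 s, u ∈ Icc (0 : ℝ) 1 := fun u hu => ⟨hu.1, hu.2.trans hs.2⟩
    have ht' : t ∈ Icc 0 s := Ioo_subset_Icc_self ht
    have hx : g.exp x (Γ t) ∈ e.source := by
      rw [hl t ht']; exact e.map_target (hK (hm t (hs1 t ht')))
    have hy : ∀ u ∈ Icc 0 s, e (g.exp x (Γ u)) = p + u • (q - p) := fun u hu => by
      rw [hl u hu]; exact e.right_inv (hK (hm u (hs1 u hu)))
    have hk : HasDerivAt (fun u => e (g.exp x (Γ u))) (q - p) t := by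
      have := ((hasDerivAt_id t).smul_const (q - p)).const_add p
      rw [one_smul] at this
      refine this.congr_of_eventuallyEq ?_
      filter_upwards [hn] with u hu
      exact hy u hu
    obtain ⟨h, h2, h3⟩ := hg.lift_deriv x (hΓ.continuousAt hn) he hx hk
    refine ⟨_, ((g.ip x).hasFDerivAt.comp_hasDerivAt t h2).clm_apply h2, ?_⟩
    have h4 := g.exp_gauss x (Γ t) h he hx
    have h5 := (g.loc he).sq_le (e.map_source hx) (q - p) (deriv (e ∘ g.geo x (Γ t)) 1)
    have h6 := (g.geo_isGeodesic x (Γ t)).speed_chart isOpen_univ he (mem_univ 1) hx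
    rw [geo_speed] at h6
    rw [h3] at h4
    have h7 : g.g e (e (g.exp x (Γ t))) (q - p) (q - p) ≤ C * ‖q - p‖ ^ 2 :=
      (hb _ (by rw [hy t ht']; exact hm t (hs1 t ht')) _).2
    have h8 : 0 ≤ g.ip x (Γ t) (Γ t) := hL.nonneg hxt _
    have h9 : g.ip x (Γ t) h = g.ip x h (Γ t) := hL.symm _ hxt _ _
    have h10 : g.ip x h (Γ t) ^ 2 ≤ C * ‖q - p‖ ^ 2 * g.ip x (Γ t) (Γ t) := by
      rw [← h4]
      refine h5.trans ?_
      rw [← h6]
      exact mul_le_mul_of_nonneg_right h7 ((g.loc he).nonneg (e.map_source hx) _)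
    show g.ip x h (Γ t) + g.ip x (Γ t) h ≤ _
    rw [h9]
    refine (abs_le_of_sq_le_sq' ?_ (by positivity)).2
    nlinarith [sq_nonneg (C * ‖q - p‖ ^ 2 - g.ip x (Γ t) (Γ t))]

theorem Imm.isCoveringMap (hg : g.Imm) (x : M) : IsCoveringMap (g.exp x) := by
  refine isCoveringMap_of_lifts (hg.isLocalHomeomorph x) fun z => ?_
  have he := chart_mem_atlas E z
  have hz := mem_chart_source E z
  generalize chartAt E z = e at he hz
  obtain ⟨r, hr, hK⟩ := _root_.Metric.nhds_basis_closedBall.mem_iff.1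
    (e.open_target.mem_nhds (e.map_source hz))
  have ha : e z ∈ _root_.Metric.closedBall (e z) r := _root_.Metric.mem_closedBall_self hr.le
  refine ⟨e.source ∩ e ⁻¹' _root_.Metric.ball (e z) r,
    e.isOpen_inter_preimage _root_.Metric.isOpen_ball,
    ⟨hz, _root_.Metric.mem_ball_self hr⟩, fun b t => e.symm (e z + t • (e b - e z)), ?_,
    fun b hb => ?_⟩
  · refine e.continuousOn_symm.comp (continuousOn_const.add (continuousOn_snd.smul
      ((e.continuousOn.comp continuousOn_fst fun q hq => hq.1.1).sub continuousOn_const)))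
      fun q hq => hK ?_
    exact (convex_closedBall _ _).add_smul_sub_mem ha
      (_root_.Metric.ball_subset_closedBall hq.1.2) hq.2
  · have hb' := _root_.Metric.ball_subset_closedBall hb.2
    refine ⟨by simp [e.left_inv hz], by simp [e.left_inv hb.1], fun w hw => ?_, fun w hw => ?_⟩
    · exact hg.seg_lift x he hK ha hb' (by rw [hw, e.left_inv hz])
    · obtain ⟨Γ, h1, h2, h3⟩ := hg.seg_lift x he hK hb' ha (w := w) (by rw [hw, e.left_inv hb.1])
      refine ⟨Γ, h1, h2, fun t ht => ?_⟩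
      rw [h3 t ht]
      refine congrArg e.symm ?_
      module

end Metric

end Vale.Agent.P255
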