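import Vale.Agent.P255.Loc

/-!
# Geodesics on a manifold: change of chart, uniqueness, speed  (TASK)

Plan: transition maps `e' ∘ e.symm` are smooth at `e x` (`IsManifold` ⇒
`StructureGroupoid.compatible (contDiffGroupoid ∞ 𝓘(ℝ, E))`, unfold with `mfld_simps`).
`compat_eventually`: for `y` near `e x`, `e.symm y` is in both sources, apply `g.compat`.
`isGeodesic_of_local`: for another chart `e'`, near `t` one has `e' ∘ γ = τ ∘ e ∘ γ`, so
`deriv (e' ∘ γ) = fun s => fderiv τ (e (γ s)) (v s)` near `t`; use `geodesic_transform`.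
`unique`: the set of `t ∈ s` such that `γ₁ = γ₂` near `t` is open, contains `t₀`
(`ODE_solution_unique_of_eventually` for the spray, which is `C¹` hence locally Lipschitz), and is
closed in `s` (Hausdorff, continuity of `deriv (e ∘ γᵢ)` at the limit time, ODE uniqueness again).
`speed_const`: near each time the speed is `G (e γ) v v` in a fixed chart (`speed_chart`), whose
derivative vanishes (`hasDerivAt_inner`).
-/

namespace Vale.Agent.P255

open scoped ContDiff Topology Manifold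
open Set

variable {E M : Type*} [NormedAddCommGroup E] [NormedSpace ℝ E] [FiniteDimensional ℝ E]
  [TopologicalSpace M] [ChartedSpace E M] [IsManifold 𝓘(ℝ, E) ∞ M]
  {e e' : OpenPartialHomeomorph M E}

omit [NormedSpace ℝ E] [FiniteDimensional ℝ E] [ChartedSpace E M] [IsManifold 𝓘(ℝ, E) ∞ M] in
theorem geo_ev_source {x : M} (hx : x ∈ e.source) (hx' : x ∈ e'.source) :
    ∀ᶠ y in 𝓝 (e x), y ∈ e.target ∧ e.symm y ∈ e'.source :=
  (e.symm ≫ₕ e').open_source.mem_nhds ⟨e.map_source hx, by simpa [e.left_inv hx] using hx'⟩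

theorem tr_contDiffAt (he : e ∈ atlas E M) (he' : e' ∈ atlas E M) {x : M} (hx : x ∈ e.source)
    (hx' : x ∈ e'.source) : ContDiffAt ℝ ∞ (e' ∘ e.symm) (e x) := by
  have h := (StructureGroupoid.compatible (contDiffGroupoid ∞ 𝓘(ℝ, E)) he he').1
  simp only [contDiffPregroupoid, mfld_simps] at h
  exact h.contDiffAt (geo_ev_source hx hx')

/-- The derivative of a transition map from a chart to itself is the identity. -/
theorem fderiv_tr_self {x : M} (hx : x ∈ e.source) (u : E) :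
    fderiv ℝ (e ∘ e.symm) (e x) u = u := by
  have h : e ∘ e.symm =ᶠ[𝓝 (e x)] id := e.eventually_right_inverse' hx
  rw [h.fderiv_eq, fderiv_id]
  rfl

/-- Cocycle property of the derivatives of transition maps. -/
theorem fderiv_tr_trans {e'' : OpenPartialHomeomorph M E} (he : e ∈ atlas E M)
    (he' : e' ∈ atlas E M) (he'' : e'' ∈ atlas E M) {x : M} (hx : x ∈ e.source)
    (hx' : x ∈ e'.source) (hx'' : x ∈ e''.source) (u : E) :
    fderiv ℝ (e'' ∘ e'.symm) (e' x) (fderiv ℝ (e' ∘ e.symm) (e x) u) =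
      fderiv ℝ (e'' ∘ e.symm) (e x) u := by
  have h : e'' ∘ e.symm =ᶠ[𝓝 (e x)] (e'' ∘ e'.symm) ∘ (e' ∘ e.symm) := by
    filter_upwards [geo_ev_source hx hx'] with y hy
    simp only [Function.comp_apply, e'.left_inv hy.2]
  have h0 : (e' ∘ e.symm) (e x) = e' x := by simp only [Function.comp_apply, e.left_inv hx]
  have h1 := (tr_contDiffAt he he' hx hx').differentiableAt (by simp)
  have h2 := (tr_contDiffAt he' he'' hx' hx'').differentiableAt (by simp)
  rw [← h0] at h2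
  rw [h.fderiv_eq, fderiv_comp _ h2 h1, h0]
  rfl

theorem hasDerivAt_chart (he : e ∈ atlas E M) (he' : e' ∈ atlas E M) {γ : ℝ → M} {t : ℝ}
    (hγ : ContinuousAt γ t) (hx : γ t ∈ e.source) (hx' : γ t ∈ e'.source) {v : E}
    (hv : HasDerivAt (e ∘ γ) v t) :
    HasDerivAt (e' ∘ γ) (fderiv ℝ (e' ∘ e.symm) (e (γ t)) v) t := by
  have h : e' ∘ γ =ᶠ[𝓝 t] (e' ∘ e.symm) ∘ (e ∘ γ) := by
    filter_upwards [hγ.preimage_mem_nhds (e.open_source.mem_nhds hx)] with y hy
    simp only [Function.comp_apply, e.left_inv hy]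
  have h1 := ((tr_contDiffAt he he' hx hx').differentiableAt (by simp)).hasFDerivAt
  exact (h1.comp_hasDerivAt t hv).congr_of_eventuallyEq h

/-- The velocity of `γ` in the preferred chart at `γ t`. -/
noncomputable def vel (E : Type*) [NormedAddCommGroup E] [NormedSpace ℝ E] [ChartedSpace E M]
    (γ : ℝ → M) (t : ℝ) : E :=
  deriv (chartAt E (γ t) ∘ γ) t

namespace Metric

variable (g : Metric E M)

/-- The inner product at `x` in the preferred chart at `x`. -/
noncomputable def ip (x : M) : E →L[ℝ] E →L[ℝ] ℝ := g.g (chartAt E x) (chartAt E x x)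

theorem compat_eventually (he : e ∈ atlas E M) (he' : e' ∈ atlas E M) {x : M} (hx : x ∈ e.source)
    (hx' : x ∈ e'.source) : ∀ᶠ y in 𝓝 (e x), ∀ u v, g.g e y u v =
      g.g e' ((e' ∘ e.symm) y) (fderiv ℝ (e' ∘ e.symm) y u) (fderiv ℝ (e' ∘ e.symm) y v) := by
  filter_upwards [geo_ev_source hx hx'] with y hy u v
  have h := g.compat e he e' he' _ (e.map_target hy.1) hy.2 u v
  rw [e.right_inv hy.1] at h
  exact h

variable {g} {γ : ℝ → M} {s : Set ℝ}

theorem isGeodesic_of_local (hs : IsOpen s) (hc : ContinuousOn γ s)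
    (h : ∀ t ∈ s, ∃ e ∈ atlas E M, γ t ∈ e.source ∧ ∃ v : ℝ → E,
      (∀ᶠ t' in 𝓝 t, HasDerivAt (e ∘ γ) (v t') t') ∧
        HasDerivAt v (-chr (g.g e) (e (γ t)) (v t) (v t)) t) :
    g.IsGeodesic γ s := by
  refine ⟨hc, fun e' he' t ht hx' => ?_⟩
  obtain ⟨e, he, hx, v, hv, hv'⟩ := h t ht
  have hct := hc.continuousAt (hs.mem_nhds ht)
  have h1 : ∀ᶠ t' in 𝓝 t,
      HasDerivAt (e' ∘ γ) (fderiv ℝ (e' ∘ e.symm) (e (γ t')) (v t')) t' := by
    filter_upwards [hs.mem_nhds ht, hct.preimage_mem_nhds (e.open_source.mem_nhds hx),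
      hct.preimage_mem_nhds (e'.open_source.mem_nhds hx'), hv] with t' a b c d
    exact hasDerivAt_chart he he' (hc.continuousAt (hs.mem_nhds a)) b c d
  have h2 : deriv (e' ∘ γ) =ᶠ[𝓝 t] fun t' => fderiv ℝ (e' ∘ e.symm) ((e ∘ γ) t') (v t') :=
    h1.mono fun _ h => h.deriv
  have h0 : (e' ∘ e.symm) ((e ∘ γ) t) = e' (γ t) := by
    simp only [Function.comp_apply, e.left_inv hx]
  have h3 := geodesic_transform (g.loc he) (g.loc he') (τ := e' ∘ e.symm) (x := e ∘ γ) (v := v)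
    (e.map_source hx) (by rw [h0]; exact e'.map_source hx')
    ((tr_contDiffAt he he' hx hx').of_le (by norm_cast))
    (g.compat_eventually he he' hx hx') hv.self_of_nhds hv'
  rw [h0] at h3
  refine ⟨h1.self_of_nhds.differentiableAt, ?_⟩
  rw [h2.self_of_nhds]
  exact h3.congr_of_eventuallyEq h2

theorem IsGeodesic.mono (h : g.IsGeodesic γ s) {s' : Set ℝ} (hs : s' ⊆ s) :
    g.IsGeodesic γ s' := by
  exact ⟨h.1.mono hs, fun e he t ht => h.2 e he t (hs ht)⟩

/-- The geodesic equation holds at all times near `t` in a chart around `γ t`. -/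
theorem IsGeodesic.eventually (h : g.IsGeodesic γ s) (hs : IsOpen s) (he : e ∈ atlas E M) {t : ℝ}
    (ht : t ∈ s) (hx : γ t ∈ e.source) : ∀ᶠ t' in 𝓝 t, t' ∈ s ∧ γ t' ∈ e.source ∧
      HasDerivAt (e ∘ γ) (deriv (e ∘ γ) t') t' ∧ HasDerivAt (deriv (e ∘ γ))
        (-chr (g.g e) (e (γ t')) (deriv (e ∘ γ) t') (deriv (e ∘ γ) t')) t' := by
  filter_upwards [hs.mem_nhds ht,
    (h.1.continuousAt (hs.mem_nhds ht)).preimage_mem_nhds (e.open_source.mem_nhds hx)] with t' a b
  exact ⟨a, b, (h.2 e he t' a b).1.hasDerivAt, (h.2 e he t' a b).2⟩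

/-- Affine reparametrisation. -/
theorem IsGeodesic.comp_affine (h : g.IsGeodesic γ s) (hs : IsOpen s) (c d : ℝ) :
    g.IsGeodesic (fun t => γ (c * t + d)) ((fun t => c * t + d) ⁻¹' s) := by
  have hca : Continuous fun t : ℝ => c * t + d := by fun_prop
  have hd : ∀ t : ℝ, HasDerivAt (fun t : ℝ => c * t + d) c t := fun t => by
    simpa using ((hasDerivAt_id t).const_mul c).add_const d
  refine isGeodesic_of_local (hs.preimage hca) (h.1.comp hca.continuousOn fun _ ht => ht)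
    fun t ht => ?_
  have he := chart_mem_atlas E (γ (c * t + d))
  have hx := mem_chart_source E (γ (c * t + d))
  have h1 := h.eventually hs he ht hx
  refine ⟨_, he, hx, fun t' => c • deriv (chartAt E (γ (c * t + d)) ∘ γ) (c * t' + d), ?_, ?_⟩
  · filter_upwards [hca.continuousAt.eventually h1] with t' a
    exact a.2.2.1.scomp t' (hd t')
  · have h2 := (h1.self_of_nhds.2.2.2.scomp t (hd t)).const_smul c
    simp only [← chrL_apply, map_smul, smul_apply, smul_neg] at h2 ⊢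
    exact h2

theorem IsGeodesic.geo_local_unique {γ₁ γ₂ : ℝ → M} (h₁ : g.IsGeodesic γ₁ s)
    (h₂ : g.IsGeodesic γ₂ s) (hs : IsOpen s) {t₀ : ℝ} (ht₀ : t₀ ∈ s)
    (he : e ∈ atlas E M) (hx : γ₁ t₀ ∈ e.source) (h0 : γ₁ t₀ = γ₂ t₀)
    (h1 : deriv (e ∘ γ₁) t₀ = deriv (e ∘ γ₂) t₀) : γ₁ =ᶠ[𝓝 t₀] γ₂ := by
  have e1 := h₁.eventually hs he ht₀ hx
  have e2 := h₂.eventually hs he ht₀ (h0 ▸ hx)
  have hc : ContDiffAt ℝ 1 (spray (g.g e)) (e (γ₁ t₀), deriv (e ∘ γ₁) t₀) :=
    ((g.loc he).contDiffOn_spray.contDiffAt ((e.open_target.prod isOpen_univ).mem_nhds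
      ⟨e.map_source hx, mem_univ _⟩)).of_le (by simp)
  obtain ⟨K, T, hT, hK⟩ := hc.exists_lipschitzOnWith
  have key : ∀ {γ : ℝ → M}, (∀ᶠ t' in 𝓝 t₀, t' ∈ s ∧ γ t' ∈ e.source ∧
      HasDerivAt (e ∘ γ) (deriv (e ∘ γ) t') t' ∧ HasDerivAt (deriv (e ∘ γ))
        (-chr (g.g e) (e (γ t')) (deriv (e ∘ γ) t') (deriv (e ∘ γ) t')) t') →
      T ∈ 𝓝 (e (γ t₀), deriv (e ∘ γ) t₀) →
      ∀ᶠ t in 𝓝 t₀, HasDerivAt (fun t => (e (γ t), deriv (e ∘ γ) t))
        (spray (g.g e) (e (γ t), deriv (e ∘ γ) t)) t ∧ (e (γ t), deriv (e ∘ γ) t) ∈ T := by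
    intro γ h hT
    have h3 := h.self_of_nhds
    have h4 := (h3.2.2.1.prodMk h3.2.2.2).continuousAt
    filter_upwards [h, h4.preimage_mem_nhds hT] with t ht ht'
    exact ⟨ht.2.2.1.prodMk ht.2.2.2, ht'⟩
  have h5 := ODE_solution_unique_of_eventually (v := fun _ => spray (g.g e)) (s := fun _ => T)
    (Filter.Eventually.of_forall fun _ => hK) (key e1 hT) (key e2 (by rw [← h0, ← h1]; exact hT))
    (by rw [h0, h1])
  filter_upwards [e1, e2, h5] with t a b c
  exact e.injOn a.2.1 b.2.1 (congrArg Prod.fst c)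

theorem IsGeodesic.unique [T2Space M] {γ₁ γ₂ : ℝ → M} (h₁ : g.IsGeodesic γ₁ s)
    (h₂ : g.IsGeodesic γ₂ s) (hs : IsOpen s) (hs' : IsPreconnected s) {t₀ : ℝ} (ht₀ : t₀ ∈ s)
    (he : e ∈ atlas E M) (hx : γ₁ t₀ ∈ e.source) (h0 : γ₁ t₀ = γ₂ t₀)
    (h1 : deriv (e ∘ γ₁) t₀ = deriv (e ∘ γ₂) t₀) : EqOn γ₁ γ₂ s := by
  have h := hs'.subset_of_closure_inter_subset (u := {t | γ₁ =ᶠ[𝓝 t] γ₂})
    isOpen_setOfPred_eventually_nhds ⟨t₀, ht₀, h₁.geo_local_unique h₂ hs ht₀ he hx h0 h1⟩ ?_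
  · exact fun t ht => Filter.EventuallyEq.eq_of_nhds (h ht)
  rintro t ⟨hc, ht⟩
  have hf := mem_closure_iff_frequently.1 hc
  have h2 : γ₁ t = γ₂ t := tendsto_nhds_unique_of_frequently_eq
    (h₁.1.continuousAt (hs.mem_nhds ht)) (h₂.1.continuousAt (hs.mem_nhds ht))
    (hf.mono fun _ h => Filter.EventuallyEq.eq_of_nhds h)
  have he' := chart_mem_atlas E (γ₁ t)
  have hx' := mem_chart_source E (γ₁ t)
  refine h₁.geo_local_unique h₂ hs ht he' hx' h2 ?_
  exact tendsto_nhds_unique_of_frequently_eq (h₁.2 _ he' t ht hx').2.continuousAt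
    (h₂.2 _ he' t ht (h2 ▸ hx')).2.continuousAt
    (hf.mono fun _ h => (Filter.EventuallyEq.fun_comp h _).deriv_eq)

theorem IsGeodesic.speed_chart (h : g.IsGeodesic γ s) (hs : IsOpen s) (he : e ∈ atlas E M)
    {t : ℝ} (ht : t ∈ s) (hx : γ t ∈ e.source) :
    g.g e (e (γ t)) (deriv (e ∘ γ) t) (deriv (e ∘ γ) t) = g.ip (γ t) (vel E γ t) (vel E γ t) := by
  have he' := chart_mem_atlas E (γ t)
  have hx' := mem_chart_source E (γ t)
  have h1 := (hasDerivAt_chart he he' (h.1.continuousAt (hs.mem_nhds ht)) hx hx'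
    (h.2 e he t ht hx).1.hasDerivAt).deriv
  rw [g.compat e he _ he' _ hx hx', ip, vel, h1]

theorem IsGeodesic.speed_const (h : g.IsGeodesic γ s) (hs : IsOpen s) (hs' : IsPreconnected s)
    {t t' : ℝ} (ht : t ∈ s) (ht' : t' ∈ s) :
    g.ip (γ t) (vel E γ t) (vel E γ t) = g.ip (γ t') (vel E γ t') (vel E γ t') := by
  have key : ∀ t ∈ s, HasDerivAt (fun t => g.ip (γ t) (vel E γ t) (vel E γ t)) 0 t := by
    intro t ht
    have he := chart_mem_atlas E (γ t)
    have hx := mem_chart_source E (γ t)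
    have h1 := h.eventually hs he ht hx
    have h2 := h1.self_of_nhds.2.2
    have h3 := (g.loc he).hasDerivAt_inner (x := chartAt E (γ t) ∘ γ)
      ((chartAt E (γ t)).map_source hx) h2.1 h2.2 h2.2
    simp only [Function.comp_apply, neg_add_cancel, map_zero, zero_apply,
      add_zero] at h3
    refine h3.congr_of_eventuallyEq ?_
    filter_upwards [h1] with t' a
    exact (h.speed_chart hs he a.1 a.2.1).symm
  exact hs.is_const_of_deriv_eq_zero hs'
    (fun t ht => (key t ht).differentiableAt.differentiableWithinAt)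
    (fun t ht => (key t ht).deriv) ht ht'

end Metric

end Vale.Agent.P255
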