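import Vale.Agent.P255.Loc

/-!
# Gluing open pieces of `E` along local isometries  (TASK)

`M` is the quotient of `Y = {x : ι × E // x.2 ∈ O x.1}` (`ι` discrete; or a sigma type) by `r`;
`Ψ i p = mk ⟨(i, p), _⟩` on `O i` (junk elsewhere).
* `LocIso.symm`: inverse function theorem (`ContDiffAt.toOpenPartialHomeomorph`,
  `ContDiffAt.to_localInverse`); `fderiv τ p` is injective by positivity, so bijective.
* the quotient map is open (from `LocIso`: the saturation of an open set is open);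
  Hausdorff by `t2_iff_of_isOpenQuotientMap` / `IsOpenQuotientMap` and `closed`; compact by `compact`.
* chart at `(i, p)`: `Ψ i` restricted to a ball `⊆ O i` on which `r` is trivial is an open
  embedding (`OpenPartialHomeomorph.ofContinuousOpenRestrict`); take its inverse.  The atlas is
  the range of `y ↦ chart y`, `y : Y`.
* a transition map `e' ∘ e.symm` agrees near each point with the `τ` of `LocIso` (by `inj`), hence
  is smooth (`isManifold_of_contDiffOn`) and the metric `g e = G (index chosen for e)` is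
  compatible; for the chart `chart ⟨(i,p),_⟩` with another chosen index apply the same
  computation to the identity transition to get `g e = G i` on the target.
-/

namespace Vale.Agent.P255

open scoped ContDiff Topology Manifold
open Set

variable {E : Type} [NormedAddCommGroup E] [NormedSpace ℝ E] {ι : Type}

/-- The relation `r` is, near `(i, p)`, the graph of a smooth map which is isometric at `p`. -/
def LocIso (G : ι → E → E →L[ℝ] E →L[ℝ] ℝ) (r : ι → E → ι → E → Prop) (i : ι) (p : E) (j : ι)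
    (q : E) : Prop :=
  ∃ τ : E → E, ContDiffAt ℝ ∞ τ p ∧ τ p = q ∧ (∀ᶠ p' in 𝓝 p, r i p' j (τ p')) ∧
    ∀ u v, G i p u v = G j q (fderiv ℝ τ p u) (fderiv ℝ τ p v)

structure GlueIn (O : ι → Set E) (G : ι → E → E →L[ℝ] E →L[ℝ] ℝ) (r : ι → E → ι → E → Prop) :
    Prop where
  loc : ∀ i, LocMetric (G i) (O i)
  mem : ∀ {i p j q}, r i p j q → p ∈ O i ∧ q ∈ O j
  refl : ∀ {i p}, p ∈ O i → r i p i p
  symm : ∀ {i p j q}, r i p j q → r j q i p
  trans : ∀ {i p j q k s}, r i p j q → r j q k s → r i p k s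
  iso : ∀ {i p j q}, r i p j q → LocIso G r i p j q ∨ LocIso G r j q i p
  inj : ∀ i p, ∃ ε > 0, ∀ p' ∈ Metric.ball p ε, ∀ p'' ∈ Metric.ball p ε, r i p' i p'' → p' = p''
  closed : ∀ i j, ∃ C : Set (E × E), IsClosed C ∧
    ∀ p ∈ O i, ∀ q ∈ O j, r i p j q ↔ (p, q) ∈ C
  compact : ∃ K : ι → Set E, (∀ i, IsCompact (K i) ∧ K i ⊆ O i) ∧
    ∀ i, ∀ p ∈ O i, ∃ j, ∃ q ∈ K j, r i p j q
  nonempty : ∃ i, (O i).Nonempty

structure GlueOut (O : ι → Set E) (G : ι → E → E →L[ℝ] E →L[ℝ] ℝ) (r : ι → E → ι → E → Prop)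
    {M : Type} [TopologicalSpace M] [ChartedSpace E M] (g : Metric E M) (Ψ : ι → E → M) :
    Prop where
  cont : ∀ i, ContinuousOn (Ψ i) (O i)
  eq_iff : ∀ {i p j q}, p ∈ O i → q ∈ O j → (Ψ i p = Ψ j q ↔ r i p j q)
  surj : ∀ z, ∃ i, ∃ p ∈ O i, Ψ i p = z
  chart : ∀ i, ∀ p ∈ O i, ∃ e ∈ atlas E M, p ∈ e.target ∧ e.target ⊆ O i ∧
    EqOn e.symm (Ψ i) e.target ∧ EqOn (g.g e) (G i) e.target

section Aux

variable {O : ι → Set E} {G : ι → E → E →L[ℝ] E →L[ℝ] ℝ} {r : ι → E → ι → E → Prop}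

theorem GlueIn.iso_symm [FiniteDimensional ℝ E] (h : GlueIn O G r) {i : ι} {p : E} {j : ι}
    {q : E} (hq : q ∈ O j) (hi : LocIso G r j q i p) : LocIso G r i p j q := by
  have : CompleteSpace E := FiniteDimensional.complete ℝ E
  obtain ⟨τ, hτ, hτq, hev, hG⟩ := hi
  have hinj : Function.Injective (fderiv ℝ τ q) := by
    rw [injective_iff_map_eq_zero]
    intro u hu
    by_contra hne
    have h1 := (h.loc j).pos q hq u hne
    rw [hG u u, hu] at h1
    simp at h1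
  let L₀ : E ≃ₗ[ℝ] E := LinearEquiv.ofInjectiveEndo (fderiv ℝ τ q : E →ₗ[ℝ] E) hinj
  let L : E ≃L[ℝ] E := L₀.toContinuousLinearEquiv
  have hL : (L : E →L[ℝ] E) = fderiv ℝ τ q := by
    ext u
    rfl
  have hn : (∞ : WithTop ℕ∞) ≠ 0 := by simp
  have hd : HasFDerivAt τ (L : E →L[ℝ] E) q := by
    rw [hL]
    exact (hτ.differentiableAt hn).hasFDerivAt
  have hs : HasStrictFDerivAt τ (L : E →L[ℝ] E) q := hτ.hasStrictFDerivAt' hd hn
  subst hτq
  refine ⟨hs.localInverse τ L q, hτ.to_localInverse hd hn, hs.localInverse_apply_image, ?_, ?_⟩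
  · have h1 := hs.localInverse_tendsto.eventually hev
    filter_upwards [h1, hs.eventually_right_inverse] with p' h1 h2
    rw [h2] at h1
    exact h.symm h1
  · intro u v
    rw [hs.to_localInverse.hasFDerivAt.fderiv, hG, ← hL]
    simp

theorem GlueIn.iso' [FiniteDimensional ℝ E] (h : GlueIn O G r) {i : ι} {p : E} {j : ι}
    {q : E} (hr : r i p j q) : LocIso G r i p j q :=
  (h.iso hr).elim id (h.iso_symm (h.mem hr).2)

theorem GlueIn.isOpen_sat [FiniteDimensional ℝ E] (h : GlueIn O G r) (i j : ι) {V : Set E}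
    (hV : IsOpen V) : IsOpen {q : E | ∃ p ∈ V, r i p j q} := by
  rw [isOpen_iff_mem_nhds]
  rintro q ⟨p, hp, hr⟩
  obtain ⟨τ, hτ, hτq, hev, -⟩ := h.iso' (h.symm hr)
  have h1 : ∀ᶠ q' in 𝓝 q, τ q' ∈ V :=
    hτ.continuousAt.eventually (hV.mem_nhds (by rw [hτq]; exact hp))
  filter_upwards [hev, h1] with q' h2 h3
  exact ⟨τ q', h3, h.symm h2⟩

theorem GlueIn.exists_space [FiniteDimensional ℝ E] (h : GlueIn O G r) :
    ∃ (M : Type) (_ : TopologicalSpace M) (Ψ : ι → E → M),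
      (∀ i, ContinuousOn (Ψ i) (O i)) ∧
      (∀ i p j q, p ∈ O i → q ∈ O j → (Ψ i p = Ψ j q ↔ r i p j q)) ∧
      (∀ z, ∃ i, ∃ p ∈ O i, Ψ i p = z) ∧
      ∀ i V, IsOpen V → V ⊆ O i → IsOpen (Ψ i '' V) := by
  classical
  let Y : Type := Σ i : ι, O i
  let s : Setoid Y :=
    ⟨fun x y => r x.1 x.2 y.1 y.2, ⟨fun x => h.refl x.2.2, fun hxy => h.symm hxy,
      fun hxy hyz => h.trans hxy hyz⟩⟩
  obtain ⟨i₀, p₀, hp₀⟩ := h.nonempty
  let Ψ : ι → E → Quotient s := fun i p =>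
    if hp : p ∈ O i then Quotient.mk s ⟨i, ⟨p, hp⟩⟩ else Quotient.mk s ⟨i₀, ⟨p₀, hp₀⟩⟩
  have hΨ : ∀ i p (hp : p ∈ O i), Ψ i p = Quotient.mk s ⟨i, ⟨p, hp⟩⟩ := fun i p hp => dif_pos hp
  have heq : ∀ i p j q, p ∈ O i → q ∈ O j → (Ψ i p = Ψ j q ↔ r i p j q) := by
    intro i p j q hp hq
    rw [hΨ i p hp, hΨ j q hq]
    exact Quotient.eq
  refine ⟨Quotient s, inferInstance, Ψ, ?_, heq, ?_, ?_⟩
  · intro i
    rw [continuousOn_iff_continuous_domRestrict]
    have : (O i).domRestrict (Ψ i) = fun x : O i => Quotient.mk s ⟨i, x⟩ := by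
      funext x
      exact hΨ i x.1 x.2
    rw [this]
    exact continuous_quotient_mk'.comp (continuous_sigmaMk (σ := fun i => O i))
  · intro z
    induction z using Quotient.inductionOn with
    | h y => exact ⟨y.1, y.2.1, y.2.2, hΨ _ _ _⟩
  · intro i V hV hVO
    rw [← (isQuotientMap_quotient_mk' (s := s)).isOpen_preimage, isOpen_sigma_iff]
    intro j
    have : Sigma.mk j ⁻¹' (@Quotient.mk' Y s ⁻¹' (Ψ i '' V)) =
        Subtype.val ⁻¹' {q : E | ∃ p ∈ V, r i p j q} := by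
      ext q
      simp only [mem_preimage, mem_image, mem_ofPred_eq]
      refine exists_congr fun p => and_congr_right fun hp => ?_
      rw [← heq i p j q (hVO hp) q.2, hΨ j q q.2]
      rfl
    rw [this]
    exact (h.isOpen_sat i j hV).preimage continuous_subtype_val

/-- `e` is a chart inverse to `Ψ i`. -/
def GoodChart {M : Type} [TopologicalSpace M] (O : ι → Set E) (Ψ : ι → E → M)
    (e : OpenPartialHomeomorph M E) (i : ι) : Prop :=
  e.target ⊆ O i ∧ EqOn e.symm (Ψ i) e.target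

theorem GlueIn.exists_chart {M : Type} [TopologicalSpace M] {Ψ : ι → E → M} (h : GlueIn O G r)
    (hc : ∀ i, ContinuousOn (Ψ i) (O i))
    (heq : ∀ i p j q, p ∈ O i → q ∈ O j → (Ψ i p = Ψ j q ↔ r i p j q))
    (ho : ∀ i V, IsOpen V → V ⊆ O i → IsOpen (Ψ i '' V)) {i : ι} {p : E} (hp : p ∈ O i) :
    ∃ e : OpenPartialHomeomorph M E, p ∈ e.target ∧ GoodChart O Ψ e i := by
  obtain ⟨ε, hε, hinj⟩ := h.inj i p
  set V : Set E := Metric.ball p ε ∩ O i with hV
  have hVo : IsOpen V := Metric.isOpen_ball.inter (h.loc i).isOpen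
  have hVO : V ⊆ O i := inter_subset_right
  have hI : InjOn (Ψ i) V := fun a ha b hb hab =>
    hinj a ha.1 b hb.1 ((heq i a i b ha.2 hb.2).1 hab)
  let e₀ : PartialEquiv E M := hI.toPartialEquiv (Ψ i) V
  have hs : e₀.source = V := rfl
  have hf : ⇑e₀ = Ψ i := rfl
  have hopen : IsOpenMap (e₀.source.domRestrict e₀) := by
    intro U hU
    have : e₀.source.domRestrict e₀ '' U = Ψ i '' (Subtype.val '' U) := by
      rw [image_image]
      rfl
    rw [this]
    refine ho i _ (hVo.isOpenMap_subtype_val U hU) ?_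
    rintro _ ⟨x, -, rfl⟩
    exact hVO x.2
  let e₁ : OpenPartialHomeomorph E M :=
    OpenPartialHomeomorph.ofContinuousOpenRestrict e₀ ((hc i).mono hVO) hopen hVo
  refine ⟨e₁.symm, ⟨Metric.mem_ball_self hε, hp⟩, hVO, fun y _ => rfl⟩

theorem GlueIn.transition [FiniteDimensional ℝ E] {M : Type} [TopologicalSpace M]
    {Ψ : ι → E → M} (h : GlueIn O G r)
    (heq : ∀ i p j q, p ∈ O i → q ∈ O j → (Ψ i p = Ψ j q ↔ r i p j q))
    {e e' : OpenPartialHomeomorph M E} {i j : ι} (he : GoodChart O Ψ e i)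
    (he' : GoodChart O Ψ e' j) {x : M} (hx : x ∈ e.source) (hx' : x ∈ e'.source) :
    ContDiffAt ℝ ∞ (e' ∘ e.symm) (e x) ∧ ∀ u v, G i (e x) u v =
      G j (e' x) (fderiv ℝ (e' ∘ e.symm) (e x) u) (fderiv ℝ (e' ∘ e.symm) (e x) v) := by
  have key : ∀ y, y ∈ e.source → y ∈ e'.source → r i (e y) j (e' y) := by
    intro y hy hy'
    rw [← heq i _ j _ (he.1 (e.map_source hy)) (he'.1 (e'.map_source hy')),
      ← he.2 (e.map_source hy), ← he'.2 (e'.map_source hy'), e.left_inv hy, e'.left_inv hy']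
  obtain ⟨τ, hτ, hτp, hev, hG⟩ := h.iso' (key x hx hx')
  obtain ⟨ε, hε, hinj⟩ := h.inj j (e' x)
  have ht : Filter.Tendsto e.symm (𝓝 (e x)) (𝓝 x) := e.tendsto_symm hx
  have h1 : ∀ᶠ p' in 𝓝 (e x), p' ∈ e.target := e.open_target.mem_nhds (e.map_source hx)
  have h2 : ∀ᶠ p' in 𝓝 (e x), e.symm p' ∈ e'.source := ht.eventually (e'.open_source.mem_nhds hx')
  have h3 : ∀ᶠ p' in 𝓝 (e x), e' (e.symm p') ∈ Metric.ball (e' x) ε :=
    ((e'.continuousAt hx').tendsto.comp ht).eventually (Metric.ball_mem_nhds _ hε)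
  have h4 : ∀ᶠ p' in 𝓝 (e x), τ p' ∈ Metric.ball (e' x) ε :=
    hτ.continuousAt.eventually (by rw [hτp]; exact Metric.ball_mem_nhds _ hε)
  have hE : (e' ∘ e.symm) =ᶠ[𝓝 (e x)] τ := by
    filter_upwards [hev, h1, h2, h3, h4] with p' h0 h1 h2 h3 h4
    have h5 := key (e.symm p') (e.map_target h1) h2
    rw [e.right_inv h1] at h5
    exact hinj _ h3 _ h4 (h.trans (h.symm h5) h0)
  refine ⟨hτ.congr_of_eventuallyEq hE, fun u v => ?_⟩
  rw [hE.fderiv_eq]
  exact hG u v

end Aux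

theorem GlueIn.glue [FiniteDimensional ℝ E] [Finite ι] {O : ι → Set E}
    {G : ι → E → E →L[ℝ] E →L[ℝ] ℝ} {r : ι → E → ι → E → Prop} (h : GlueIn O G r) :
    ∃ (M : Type) (_ : TopologicalSpace M) (_ : T2Space M) (_ : CompactSpace M)
      (_ : ChartedSpace E M) (_ : IsManifold 𝓘(ℝ, E) ∞ M) (g : Metric E M) (Ψ : ι → E → M),
      GlueOut O G r g Ψ := by
  classical
  obtain ⟨M, _, Ψ, hc, heq, hsurj, ho⟩ := h.exists_space
  have hT2 : T2Space M := by
    refine ⟨fun z w hzw => ?_⟩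
    obtain ⟨i, p, hp, rfl⟩ := hsurj z
    obtain ⟨j, q, hq, rfl⟩ := hsurj w
    obtain ⟨C, hC, hCr⟩ := h.closed i j
    have hn : (p, q) ∈ Cᶜ := fun hm => hzw ((heq i p j q hp hq).2 ((hCr p hp q hq).2 hm))
    obtain ⟨U, V, hU, hV, hpU, hqV, hUV⟩ := isOpen_prod_iff.1 hC.isOpen_compl p q hn
    refine ⟨Ψ i '' (U ∩ O i), Ψ j '' (V ∩ O j),
      ho i _ (hU.inter (h.loc i).isOpen) inter_subset_right,
      ho j _ (hV.inter (h.loc j).isOpen) inter_subset_right, ⟨p, ⟨hpU, hp⟩, rfl⟩,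
      ⟨q, ⟨hqV, hq⟩, rfl⟩, ?_⟩
    rw [Set.disjoint_left]
    rintro _ ⟨a, ha, rfl⟩ ⟨b, hb, hab⟩
    exact hUV (mk_mem_prod ha.1 hb.1)
      ((hCr a ha.2 b hb.2).1 ((heq i a j b ha.2 hb.2).1 hab.symm))
  have hK : CompactSpace M := by
    obtain ⟨K, hK, hKr⟩ := h.compact
    refine ⟨?_⟩
    have : (univ : Set M) = ⋃ i, Ψ i '' K i := by
      refine (eq_univ_of_forall fun z => ?_).symm
      obtain ⟨i, p, hp, rfl⟩ := hsurj z
      obtain ⟨j, q, hq, hr⟩ := hKr i p hp
      exact mem_iUnion.2 ⟨j, q, hq, ((heq i p j q hp ((hK j).2 hq)).2 hr).symm⟩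
    rw [this]
    exact isCompact_iUnion fun i => (hK i).1.image_of_continuousOn ((hc i).mono (hK i).2)
  have hch : ∀ z : M, ∃ e : OpenPartialHomeomorph M E, (∃ i, GoodChart O Ψ e i) ∧ z ∈ e.source := by
    intro z
    obtain ⟨i, p, hp, rfl⟩ := hsurj z
    obtain ⟨e, hpe, he⟩ := h.exists_chart hc heq ho hp
    refine ⟨e, ⟨i, he⟩, ?_⟩
    rw [← he.2 hpe]
    exact e.map_target hpe
  choose c hc1 hc2 using hch
  let CS : ChartedSpace E M :=
    { atlas := {e | ∃ i, GoodChart O Ψ e i}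
      chartAt := c
      mem_chart_source := hc2
      chart_mem_atlas := hc1 }
  have hat : ∀ e : OpenPartialHomeomorph M E, e ∈ atlas E M ↔ ∃ i, GoodChart O Ψ e i :=
    fun e => Iff.rfl
  have hM : IsManifold 𝓘(ℝ, E) ∞ M := by
    refine isManifold_of_contDiffOn _ _ _ fun e e' he he' => ?_
    obtain ⟨i, he⟩ := (hat e).1 he
    obtain ⟨j, he'⟩ := (hat e').1 he'
    intro y hy
    have hy1 : y ∈ e.target ∧ e.symm y ∈ e'.source := by simpa using hy
    have := (h.transition heq he he' (e.map_target hy1.1) hy1.2).1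
    rw [e.right_inv hy1.1] at this
    exact this.contDiffWithinAt
  let g₀ : OpenPartialHomeomorph M E → E → E →L[ℝ] E →L[ℝ] ℝ := fun e =>
    if he : ∃ i, GoodChart O Ψ e i then G he.choose else 0
  have hg₀ : ∀ e i, GoodChart O Ψ e i → EqOn (g₀ e) (G i) e.target := by
    intro e i he y hy
    have hex : ∃ i, GoodChart O Ψ e i := ⟨i, he⟩
    have h1 : g₀ e = G hex.choose := dif_pos hex
    have h2 := (h.transition heq hex.choose_spec he (e.map_target hy) (e.map_target hy)).2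
    have h3 : (e ∘ e.symm) =ᶠ[𝓝 y] id := by
      filter_upwards [e.open_target.mem_nhds hy] with y' hy'
      exact e.right_inv hy'
    rw [e.right_inv hy, h3.fderiv_eq, fderiv_id] at h2
    rw [h1]
    ext u v
    exact h2 u v
  let g : Metric E M :=
    { g := g₀
      smooth := fun e he => by
        obtain ⟨i, he⟩ := (hat e).1 he
        exact ((h.loc i).smooth.mono he.1).congr (hg₀ e i he)
      symm := fun e he y hy u v => by
        obtain ⟨i, he⟩ := (hat e).1 he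
        rw [hg₀ e i he hy]
        exact (h.loc i).symm y (he.1 hy) u v
      pos := fun e he y hy u hu => by
        obtain ⟨i, he⟩ := (hat e).1 he
        rw [hg₀ e i he hy]
        exact (h.loc i).pos y (he.1 hy) u hu
      compat := fun e he e' he' x hx hx' u v => by
        obtain ⟨i, he⟩ := (hat e).1 he
        obtain ⟨j, he'⟩ := (hat e').1 he'
        rw [hg₀ e i he (e.map_source hx), hg₀ e' j he' (e'.map_source hx')]
        exact (h.transition heq he he' hx hx').2 u v }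
  refine ⟨M, inferInstance, hT2, hK, CS, hM, g, Ψ, hc, fun {i p j q} => heq i p j q, hsurj, ?_⟩
  intro i p hp
  obtain ⟨e, hpe, he⟩ := h.exists_chart hc heq ho hp
  exact ⟨e, (hat e).2 ⟨i, he⟩, hpe, he.1, he.2, hg₀ e i he⟩

end Vale.Agent.P255
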