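import Mathlib

/-!
# Translation lengths in CAT(0) spaces  (TASK; pure metric group theory)

Write `|γ| = d x₀ (γ • x₀)`.
1. Quadrilateral inequality (Q) `d a c ^2 + d b e ^2 ≤ d a b ^2 + d b c ^2 + d c e ^2 + d e a ^2`:
   take the midpoint `m` of `a, c`, use `mid` at `b` and `e` and `d b e ^2 ≤ 2 d b m ^2 + 2 d e m ^2`.
2. `ℓ γ = lim |γ ^ 2^k| / 2^k` (antitone, `≥ 0`; e.g. define as `⨅`); `ℓ (γ^2) = 2 ℓ γ`, `ℓ γ⁻¹ = ℓ γ`,
   `ℓ 1 = 0`.  For commuting `a b`: (Q) at `x, aⁿx, aⁿbⁿx, bⁿx` gives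
   `ℓ(ab)² + ℓ(ab⁻¹)² ≤ 2ℓ(a)² + 2ℓ(b)²`; applied to `(ab, ab⁻¹)` it gives the converse.
3. `B z h = (ℓ(zh)² - ℓ(zh⁻¹)²) / 4` is symmetric for commuting `z h`, `B z z = ℓ(z)²`, and
   `q n = ℓ(zⁿ h)²` satisfies `q (n+1) + q (n-1) = 2 q n + 2 ℓ(z)²`, so
   `ℓ(z^(-N) h)² = N² ℓ(z)² - 2 N B z h + ℓ(h)²`.
4. `D m h = |z^(-m) h|² - |z^(-m)|²`.  For `h, k` commuting with `z`, (Q) at the points
   `h⁻¹x, x, z^(-m)x, z^(-m)k x` (two orders) gives `|D m (hk) - D m h - D m k| ≤ |h|² + |k|²`; hence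
   `|D m (h^2^s) - 2^s D m h| ≤ 4^s |h|²`.  With `m = 2^(r+s)`, `D m (h^2^s) / 4^s` tends (`s → ∞`) to
   `ℓ(z^(-2^r) h)² - 4^r ℓ(z)² = -2^(r+1) B z h + ℓ(h)²`; so `D (2^t) h / 2^t → -2 B z h`, and `B z` is
   additive on the centraliser of `z`.  In particular it kills commutators.
5. `B φ ψ = 0`, `0 = B ψ (φ ψ⁻¹) = B ψ φ - ℓ(ψ)²`, so `ℓ ψ = 0`.  But if `m` is the midpoint of
   `x, χx` then `d m (χ m) ≤ d x (χ² x) / 2` (use `mid` twice, and `mid` at `b = a`, `b = c`), so by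
   induction some point is moved by `ψ` by at most `|ψ^2^k| / 2^k`, hence `δ ≤ ℓ ψ`.
-/

namespace Vale.Agent.P255

open Filter Topology

/-- A norm on a group satisfying the quadrilateral inequality. -/
structure GrpNorm {Γ : Type*} [Group Γ] (N : Γ → ℝ) : Prop where
  nonneg : ∀ a, 0 ≤ N a
  one : N 1 = 0
  inv : ∀ a, N a⁻¹ = N a
  mul : ∀ a b, N (a * b) ≤ N a + N b
  quad : ∀ a b c, N (a * b) ^ 2 + N (b * c) ^ 2 ≤ N a ^ 2 + N b ^ 2 + N c ^ 2 + N (a * b * c) ^ 2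

/-- normalised displacement -/
noncomputable def grpU {Γ : Type*} [Group Γ] (N : Γ → ℝ) (a : Γ) (k : ℕ) : ℝ :=
  N (a ^ 2 ^ k) / 2 ^ k

/-- translation length -/
noncomputable def grpL {Γ : Type*} [Group Γ] (N : Γ → ℝ) (a : Γ) : ℝ := ⨅ k, grpU N a k

/-- polarisation -/
noncomputable def grpC {Γ : Type*} [Group Γ] (N : Γ → ℝ) (z h : Γ) : ℝ :=
  grpL N (z * h) ^ 2 - grpL N z ^ 2 - grpL N h ^ 2

namespace GrpNorm

variable {Γ : Type*} [Group Γ] {N : Γ → ℝ}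

theorem u_nonneg (H : GrpNorm N) (a : Γ) (k : ℕ) : 0 ≤ grpU N a k :=
  div_nonneg (H.nonneg _) (by positivity)

theorem u_anti (H : GrpNorm N) (a : Γ) : Antitone (grpU N a) := by
  refine antitone_nat_of_succ_le fun k => ?_
  unfold grpU
  have h1 := H.mul (a ^ 2 ^ k) (a ^ 2 ^ k)
  rw [pow_succ 2 k, pow_mul, sq, pow_succ, div_le_div_iff₀ (by positivity) (by positivity)]
  have h2 : (0 : ℝ) < 2 ^ k := by positivity
  nlinarith

theorem tend (H : GrpNorm N) (a : Γ) : Tendsto (grpU N a) atTop (𝓝 (grpL N a)) :=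
  tendsto_atTop_ciInf (H.u_anti a) ⟨0, by rintro _ ⟨k, rfl⟩; exact H.u_nonneg a k⟩

theorem pow_le (H : GrpNorm N) (a : Γ) (k : ℕ) : N (a ^ 2 ^ k) ≤ 2 ^ k * N a := by
  have h1 := H.u_anti a (Nat.zero_le k)
  unfold grpU at h1
  rw [div_le_iff₀ (by positivity)] at h1
  simpa [mul_comm] using h1

theorem l_sq (H : GrpNorm N) (a : Γ) : grpL N (a * a) = 2 * grpL N a := by
  refine tendsto_nhds_unique (H.tend (a * a)) ?_
  refine (((tendsto_add_atTop_iff_nat 1).2 (H.tend a)).const_mul 2).congr fun k => ?_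
  unfold grpU
  rw [← sq, ← pow_mul, pow_succ' 2 k, pow_succ]
  field_simp

theorem l_inv (H : GrpNorm N) (a : Γ) : grpL N a⁻¹ = grpL N a := by
  unfold grpL grpU
  simp only [inv_pow, H.inv]

theorem l_one (H : GrpNorm N) : grpL N 1 = 0 := by
  unfold grpL grpU
  simp [H.one]

theorem par_N (H : GrpNorm N) {a b : Γ} (h : Commute a b) :
    N (a * b) ^ 2 + N (a * b⁻¹) ^ 2 ≤ 2 * N a ^ 2 + 2 * N b ^ 2 := by
  have h1 := H.quad a b a⁻¹
  have e1 : a * b * a⁻¹ = b := by rw [h.eq, mul_inv_cancel_right]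
  have e2 : N (b * a⁻¹) = N (a * b⁻¹) := by rw [← H.inv, mul_inv_rev, inv_inv]
  rw [e1, e2, H.inv] at h1
  linarith

theorem par_le (H : GrpNorm N) {a b : Γ} (h : Commute a b) :
    grpL N (a * b) ^ 2 + grpL N (a * b⁻¹) ^ 2 ≤ 2 * grpL N a ^ 2 + 2 * grpL N b ^ 2 := by
  refine le_of_tendsto_of_tendsto' (((H.tend _).pow 2).add ((H.tend _).pow 2))
    ((((H.tend _).pow 2).const_mul 2).add (((H.tend _).pow 2).const_mul 2)) fun k => ?_
  have h1 := H.par_N (h.pow_pow (2 ^ k) (2 ^ k))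
  unfold grpU
  rw [h.mul_pow, h.inv_right.mul_pow, inv_pow]
  simp only [div_pow, ← mul_div_assoc, ← add_div]
  exact div_le_div_of_nonneg_right h1 (by positivity)

theorem par (H : GrpNorm N) {a b : Γ} (h : Commute a b) :
    grpL N (a * b) ^ 2 + grpL N (a * b⁻¹) ^ 2 = 2 * grpL N a ^ 2 + 2 * grpL N b ^ 2 := by
  refine le_antisymm (H.par_le h) ?_
  have hc : Commute (a * b) (a * b⁻¹) :=
    ((Commute.refl a).mul_right h.inv_right).mul_left
      (h.symm.mul_right (Commute.refl b).inv_right)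
  have h1 := H.par_le hc
  have e1 : a * b * (a * b⁻¹) = a * a := by
    rw [mul_assoc, ← mul_assoc b, ← h.eq, mul_inv_cancel_right]
  have e2 : a * b * (a * b⁻¹)⁻¹ = b * b := by
    rw [mul_inv_rev, inv_inv, ← mul_assoc, mul_assoc a, (h.mul_right h).eq, mul_inv_cancel_right]
  rw [e1, e2, H.l_sq, H.l_sq] at h1
  linarith

theorem l_pow_mul (H : GrpNorm N) {z h : Γ} (hc : Commute z h) (n : ℕ) :
    grpL N (z ^ n * h) ^ 2 = n ^ 2 * grpL N z ^ 2 + n * grpC N z h + grpL N h ^ 2 := by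
  induction n using Nat.twoStepInduction with
  | zero => simp
  | one =>
    unfold grpC
    rw [pow_one]
    push_cast
    ring
  | more n h0 h1 =>
    have hc' : Commute (z ^ (n + 1) * h) z := ((Commute.refl z).pow_left _).mul_left hc.symm
    have h2 := H.par hc'
    have e1 : z ^ (n + 1) * h * z = z ^ (n + 2) * h := by
      rw [mul_assoc, ← hc.eq, ← mul_assoc, ← pow_succ]
    have e2 : z ^ (n + 1) * h * z⁻¹ = z ^ n * h := by
      rw [pow_succ, mul_assoc (z ^ n), hc.eq, ← mul_assoc, mul_inv_cancel_right]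
    rw [e1, e2, h0, h1] at h2
    push_cast at h2 ⊢
    linarith

theorem c_one (H : GrpNorm N) (z : Γ) : grpC N z 1 = 0 := by
  unfold grpC
  rw [mul_one, H.l_one]
  ring

theorem quasi (H : GrpNorm N) {y h : Γ} (hc : Commute y h) (k : Γ) :
    |(N (y * (h * k)) ^ 2 - N y ^ 2) - (N (y * h) ^ 2 - N y ^ 2) - (N (y * k) ^ 2 - N y ^ 2)| ≤
      N h ^ 2 + N k ^ 2 := by
  have h1 := H.quad h y k
  have h2 := H.quad h (y * k) k⁻¹
  rw [← hc.eq, mul_assoc] at h1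
  rw [mul_assoc h, mul_inv_cancel_right, ← mul_assoc, ← hc.eq, mul_assoc, H.inv] at h2
  rw [abs_le]
  constructor <;> linarith

theorem quasi_pow (H : GrpNorm N) {y h : Γ} (hc : Commute y h) (s : ℕ) :
    |(N (y * h ^ 2 ^ s) ^ 2 - N y ^ 2) - 2 ^ s * (N (y * h) ^ 2 - N y ^ 2)| ≤
      (2 ^ s) ^ 2 * N h ^ 2 - 2 ^ s * N h ^ 2 := by
  induction s with
  | zero => simp
  | succ s ih =>
    have h1 := H.quasi (hc.pow_right (2 ^ s)) (h ^ 2 ^ s)
    have h2 : N (h ^ 2 ^ s) ^ 2 ≤ (2 ^ s * N h) ^ 2 :=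
      pow_le_pow_left₀ (H.nonneg _) (H.pow_le h s) 2
    rw [pow_succ 2 s, pow_mul, sq (h ^ 2 ^ s), pow_succ (2 : ℝ) s]
    rw [abs_le] at h1 ih ⊢
    constructor <;> nlinarith [h1.1, h1.2, ih.1, ih.2]

theorem tend_F (H : GrpNorm N) {z h : Γ} (hc : Commute z h) (n : ℕ) :
    Tendsto (fun s : ℕ => (N ((z ^ n) ^ 2 ^ s * h ^ 2 ^ s) ^ 2 - N ((z ^ n) ^ 2 ^ s) ^ 2) /
      (2 ^ s) ^ 2) atTop (𝓝 (n * grpC N z h + grpL N h ^ 2)) := by
  have h1 := ((H.tend (z ^ n * h)).pow 2).sub ((H.tend (z ^ n)).pow 2)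
  have h2 := H.l_pow_mul (Commute.one_right z) n
  rw [mul_one, H.c_one, H.l_one] at h2
  rw [H.l_pow_mul hc, h2] at h1
  have e : (n : ℝ) * grpC N z h + grpL N h ^ 2 =
      n ^ 2 * grpL N z ^ 2 + n * grpC N z h + grpL N h ^ 2 -
        (n ^ 2 * grpL N z ^ 2 + n * 0 + 0 ^ 2) := by ring
  rw [e]
  refine h1.congr fun s => ?_
  unfold grpU
  rw [(hc.pow_left n).mul_pow, div_pow, div_pow, sub_div]

theorem c_mul (H : GrpNorm N) {z h k : Γ} (hh : Commute z h) (hk : Commute z k) :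
    grpC N z (h * k) = grpC N z h + grpC N z k := by
  have key : ∀ n : ℕ, |(n * grpC N z (h * k) + grpL N (h * k) ^ 2) -
      (n * grpC N z h + grpL N h ^ 2) - (n * grpC N z k + grpL N k ^ 2)| ≤
      N (h * k) ^ 2 + 2 * N h ^ 2 + 2 * N k ^ 2 := by
    intro n
    refine le_of_tendsto' (((H.tend_F (hh.mul_right hk) n).sub (H.tend_F hh n)).sub
      (H.tend_F hk n)).abs fun s => ?_
    have c1 : Commute ((z ^ n) ^ 2 ^ s) h := (hh.pow_left n).pow_left _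
    have c2 : Commute ((z ^ n) ^ 2 ^ s) k := (hk.pow_left n).pow_left _
    generalize (z ^ n) ^ 2 ^ s = y at c1 c2
    have a1 := H.quasi_pow (c1.mul_right c2) s
    have a2 := H.quasi_pow c1 s
    have a3 := H.quasi_pow c2 s
    have a4 := H.quasi c1 k
    have p1 : (1 : ℝ) ≤ 2 ^ s := one_le_pow₀ one_le_two
    generalize (2 : ℝ) ^ s = p at *
    have p0 : 0 < p := by linarith
    rw [← sub_div, ← sub_div, abs_div, abs_of_pos (pow_pos p0 2), div_le_iff₀ (pow_pos p0 2)]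
    rw [abs_le] at a1 a2 a3 a4 ⊢
    have b1 := mul_le_mul_of_nonneg_left a4.1 p0.le
    have b2 := mul_le_mul_of_nonneg_left a4.2 p0.le
    have n1 := mul_nonneg p0.le (sq_nonneg (N (h * k)))
    have n2 := mul_nonneg (sq_nonneg p) (sq_nonneg (N h))
    have n3 := mul_nonneg (sq_nonneg p) (sq_nonneg (N k))
    constructor <;> nlinarith [a1.1, a1.2, a2.1, a2.2, a3.1, a3.2]
  by_contra hne
  have h0 : 0 < |grpC N z (h * k) - grpC N z h - grpC N z k| :=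
    abs_pos.2 fun hc => hne (by linarith)
  obtain ⟨n, hn⟩ := exists_nat_gt ((N (h * k) ^ 2 + 2 * N h ^ 2 + 2 * N k ^ 2 +
    |grpL N (h * k) ^ 2 - grpL N h ^ 2 - grpL N k ^ 2|) /
      |grpC N z (h * k) - grpC N z h - grpC N z k|)
  rw [div_lt_iff₀ h0] at hn
  have h1 := abs_sub ((n * grpC N z (h * k) + grpL N (h * k) ^ 2) -
      (n * grpC N z h + grpL N h ^ 2) - (n * grpC N z k + grpL N k ^ 2))
      (grpL N (h * k) ^ 2 - grpL N h ^ 2 - grpL N k ^ 2)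
  have e : (n * grpC N z (h * k) + grpL N (h * k) ^ 2) -
      (n * grpC N z h + grpL N h ^ 2) - (n * grpC N z k + grpL N k ^ 2) -
      (grpL N (h * k) ^ 2 - grpL N h ^ 2 - grpL N k ^ 2) =
      n * (grpC N z (h * k) - grpC N z h - grpC N z k) := by ring
  rw [e, abs_mul, Nat.abs_cast] at h1
  linarith [key n]

theorem c_comm (H : GrpNorm N) {z a b : Γ} (ha : Commute z a) (hb : Commute z b) :
    grpC N z (a⁻¹ * b⁻¹ * a * b) = 0 := by
  have h1 := H.c_mul ha.inv_right ha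
  have h2 := H.c_mul hb.inv_right hb
  rw [inv_mul_cancel, H.c_one] at h1 h2
  rw [H.c_mul ((ha.inv_right.mul_right hb.inv_right).mul_right ha) hb,
    H.c_mul (ha.inv_right.mul_right hb.inv_right) ha, H.c_mul ha.inv_right hb.inv_right]
  linarith

end GrpNorm

theorem grp_contra {X Γ : Type*} [Group Γ] [MulAction Γ X] (d : X → X → ℝ)
    (nonneg : ∀ a b, 0 ≤ d a b) (self : ∀ a, d a a = 0) (symm : ∀ a b, d a b = d b a)
    (tri : ∀ a b c, d a c ≤ d a b + d b c)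
    (mid : ∀ a c, ∃ m, ∀ b, 2 * d b m ^ 2 + d a c ^ 2 / 2 ≤ d b a ^ 2 + d b c ^ 2)
    (inv : ∀ (γ : Γ) a b, d (γ • a) (γ • b) = d a b) (x₀ : X) {φ ψ a b a' b' : Γ}
    (h : Commute φ ψ) (ha : Commute φ a) (hb : Commute φ b) (hψ : ψ = a⁻¹ * b⁻¹ * a * b)
    (ha' : Commute ψ a') (hb' : Commute ψ b') (hφ : φ * ψ⁻¹ = a'⁻¹ * b'⁻¹ * a' * b')
    {δ : ℝ} (hδ : 0 < δ) (hsys : ∀ x, δ ≤ d x (ψ • x)) : False := by
  have quad : ∀ p q r s : X, d p r ^ 2 + d q s ^ 2 ≤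
      d p q ^ 2 + d q r ^ 2 + d r s ^ 2 + d p s ^ 2 := by
    intro p q r s
    obtain ⟨m, hm⟩ := mid p r
    have h1 := hm q
    have h2 := hm s
    have h3 := pow_le_pow_left₀ (nonneg q s) (tri q m s) 2
    rw [symm m s] at h3
    rw [symm q p] at h1
    rw [symm s p, symm s r] at h2
    nlinarith [sq_nonneg (d q m - d s m)]
  have dd : ∀ u v : Γ, d (u • x₀) ((u * v) • x₀) = d x₀ (v • x₀) := fun u v => by
    rw [mul_smul, inv]
  have H : GrpNorm fun γ : Γ => d x₀ (γ • x₀) := by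
    refine ⟨fun _ => nonneg _ _, by rw [one_smul, self], fun u => ?_, fun u v => ?_,
      fun u v w => ?_⟩
    · rw [← dd u, mul_inv_cancel, one_smul, symm]
    · rw [← dd u v]
      exact tri _ _ _
    · have h1 := quad x₀ (u • x₀) ((u * v) • x₀) ((u * v * w) • x₀)
      rw [dd u v, dd (u * v) w, mul_assoc, dd u, ← mul_assoc] at h1
      exact h1
  have h1 := H.c_comm ha hb
  have h2 := H.c_comm ha' hb'
  rw [← hψ] at h1
  rw [← hφ, H.c_mul h.symm (Commute.refl ψ).inv_right] at h2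
  unfold grpC at h1 h2
  rw [← h.eq, mul_inv_cancel, H.l_one, H.l_inv] at h2
  have h3 : grpL (fun γ : Γ => d x₀ (γ • x₀)) ψ = 0 :=
    pow_eq_zero_iff two_ne_zero |>.1 (by linarith)
  have half : ∀ (χ : Γ) (x : X), ∃ m, d m (χ • m) ≤ d x ((χ * χ) • x) / 2 := by
    intro χ x
    obtain ⟨m, hm⟩ := mid x (χ • x)
    refine ⟨m, abs_le_of_sq_le_sq' ?_ (div_nonneg (nonneg _ _) zero_le_two) |>.2⟩
    have a1 := hm (χ⁻¹ • m)
    have a2 := hm (χ • x)
    have a3 := hm ((χ * χ) • x)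
    rw [← inv χ (χ⁻¹ • m) m, ← inv χ (χ⁻¹ • m) x, ← inv χ (χ⁻¹ • m) (χ • x), smul_inv_smul,
      ← mul_smul] at a1
    rw [self, symm (χ • x) m, symm (χ • x) x] at a2
    rw [symm _ m, symm _ x, mul_smul, inv, symm (χ • x) x, ← mul_smul] at a3
    nlinarith
  have low : ∀ (k : ℕ) (x : X), δ ≤ d x ((ψ ^ 2 ^ k) • x) / 2 ^ k := by
    intro k
    induction k with
    | zero => simpa using hsys
    | succ k ih =>
      intro x
      obtain ⟨m, hm⟩ := half (ψ ^ 2 ^ k) x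
      refine (ih m).trans ?_
      rw [pow_succ 2 k, pow_mul, sq, pow_succ' (2 : ℝ) k, ← div_div]
      exact div_le_div_of_nonneg_right hm (by positivity)
  have h4 := ge_of_tendsto' (H.tend ψ) fun k => low k x₀
  linarith

end Vale.Agent.P255
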