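import Vale.Agent.P255.Neck

/-!
# Lower derivatives; the Lyapunov function in Hamiltonian coordinates  (TASK; one-variable calculus)

`Up.le_of_forall`: for `ε > 0` put `F s = f s + 2 ε s`; near each `t ∈ [a,b]`, `F s ≤ F t` for `s < t`
and `F t ≤ F s` for `t < s`; take `σ = sSup {s ∈ [a,b] | F a ≤ F s}` and show `σ` is in the set and
`σ = b` (no continuity needed); let `ε → 0`.
`hasDerivAt_tt`/`tt_identity`: chain and quotient rules; `field_simp; ring`.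
`ham_up`: `ω = δy δw + δ1 dP + δ2 dQ` has derivative `δw² + A(dP,dQ) - a2 δy² / 2` at `t₀`.
* (L) if `Q ≠ 0` and `0 ≤ a1 (y t₀)`: `N.L1` gives `b = 2 (β P + γ Q) ≠ 0`, `ee ≤ 0` at `y t₀`; by
  `tt_identity` with `c = γ > 0`, `π = β dP + γ dQ`, `σ = δ2`, and
  `A(dP,dQ) - π²/γ = (αγ - β²) dP² / γ ≥ 0`, the function `ω - tt (a1 ..) b w δ2 δy` has a derivative
  `≥ 0` at `t₀`, equal to `A(dP,dQ) + δw²` if `δy = δ2 = 0` at `t₀`.
* (R) the same if `P ≠ κ Q` and `a1 (y t₀) ≤ 0` with `N.R1`, `c = α`, `π = α dP + β dQ`, `σ = δ1`.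
* `a1 (y t)` is continuous at `t₀`.  If it is `> 0` at `t₀` then `Q ≠ 0` (`N.L0`) and `T = T_L` near `t₀`;
  if `< 0` then `P ≠ κ Q` (`N.R0`, homogeneity) and `T = T_R` near `t₀`.  If it vanishes at `t₀`: `tt 0 .. = 0`,
  so `T ∈ {T_L, T_R}` always and all three vanish at `t₀`: if `Q ≠ 0` and `P ≠ κ Q` use `Up.of_two`;
  if `Q = 0`, `P ≠ 0` then `a1 ≤ 0` near `t₀` and `T = T_R`; if `Q ≠ 0`, `P = κ Q` then `a1 ≥ 0` and
  `T = T_L`; if `P = Q = 0` then `a1 = a2 = 0`, `T = 0`.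
-/

namespace Vale.Agent.P255

open scoped ContDiff Topology
open Set Real

theorem pow_pos_of_ne_zero_aux {x : ℝ} (h : x ≠ 0) : 0 < x ^ 2 := by positivity

theorem pos_of_mul_pos_of_pos_left_aux {x y : ℝ} (h : 0 < x) (h' : 0 < x * y) : 0 < y :=
  (mul_pos_iff_of_pos_left h).1 h'

theorem Up.of_hasDerivAt {f : ℝ → ℝ} {t c f' : ℝ} (h : HasDerivAt f f' t) (hc : c ≤ f') :
    Up f t c := by
  intro ε hε
  filter_upwards [(hasDerivAt_iff_isLittleO.1 h).bound hε] with s hs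
  simp only [Real.norm_eq_abs, smul_eq_mul] at hs
  have h1 := mul_le_mul_of_nonneg_left hs (abs_nonneg (s - t))
  rw [← abs_mul, mul_left_comm, abs_mul_abs_self] at h1
  nlinarith [neg_abs_le ((s - t) * (f s - f t - (s - t) * f')),
    mul_le_mul_of_nonneg_right hc (sq_nonneg (s - t))]

theorem Up.congr {f f₁ : ℝ → ℝ} {t c : ℝ} (h : Up f₁ t c) (e : f =ᶠ[𝓝 t] f₁) : Up f t c := by
  intro ε hε
  filter_upwards [h ε hε, e] with s h1 h2
  rwa [h2, e.eq_of_nhds]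

theorem Up.mono {f : ℝ → ℝ} {t c c' : ℝ} (h : Up f t c) (hc : c' ≤ c) : Up f t c' := by
  intro ε hε
  filter_upwards [h ε hε] with s h1
  exact (mul_le_mul_of_nonneg_right (by linarith) (sq_nonneg _)).trans h1

theorem Up.of_two {f f₁ f₂ : ℝ → ℝ} {t c : ℝ} (h₁ : Up f₁ t c) (h₂ : Up f₂ t c) (e₁ : f t = f₁ t)
    (e₂ : f t = f₂ t) (h : ∀ᶠ s in 𝓝 t, f s = f₁ s ∨ f s = f₂ s) : Up f t c := by
  intro ε hε
  filter_upwards [h₁ ε hε, h₂ ε hε, h] with s h1 h2 h3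
  rcases h3 with h3 | h3
  · rwa [h3, e₁]
  · rwa [h3, e₂]

theorem Up.le_deriv {f : ℝ → ℝ} {t c f' : ℝ} (h : Up f t c) (hf : HasDerivAt f f' t) :
    c ≤ f' := by
  by_contra hlt
  have hε : 0 < (c - f') / 3 := by linarith [not_le.1 hlt]
  have h1 : ∀ᶠ s in 𝓝[≠] t, _ :=
    (((h _ hε).and (Up.of_hasDerivAt hf.neg le_rfl _ hε)).filter_mono nhdsWithin_le_nhds).and
      self_mem_nhdsWithin
  obtain ⟨s, ⟨h2, h3⟩, h4⟩ := h1.exists
  have h5 : 0 < (s - t) ^ 2 := pow_pos_of_ne_zero_aux (sub_ne_zero.2 h4)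
  simp only [Pi.neg_apply] at h3
  nlinarith [mul_pos hε h5]

theorem Up.le_of_forall {f : ℝ → ℝ} {a b : ℝ} (hab : a ≤ b) (h : ∀ t ∈ Icc a b, Up f t 0) :
    f a ≤ f b := by
  have key : ∀ ε > 0, f a + ε * a ≤ f b + ε * b := by
    intro ε hε
    set S := {s | s ∈ Icc a b ∧ f a + ε * a ≤ f s + ε * s} with hS
    have ha : a ∈ S := ⟨⟨le_rfl, hab⟩, le_rfl⟩
    have hb : BddAbove S := ⟨b, fun s hs => hs.1.2⟩
    have h1 : a ≤ sSup S := le_csSup hb ha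
    have h2 : sSup S ≤ b := csSup_le ⟨a, ha⟩ fun s hs => hs.1.2
    obtain ⟨δ, hδ, h3⟩ := Metric.eventually_nhds_iff.1 (h _ ⟨h1, h2⟩ ε hε)
    have h4 : f a + ε * a ≤ f (sSup S) + ε * sSup S := by
      obtain ⟨s, hs, h5⟩ := exists_lt_of_lt_csSup ⟨a, ha⟩ (show sSup S - δ < sSup S by linarith)
      rcases (le_csSup hb hs).eq_or_lt with h6 | h6
      · rw [← h6]
        exact hs.2
      · have h7 := h3 (y := s) (by rw [Real.dist_eq, abs_lt]; constructor <;> linarith)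
        refine hs.2.trans (le_of_mul_le_mul_left ?_ (sub_pos.2 h6))
        linarith
    rcases h2.eq_or_lt with h5 | h5
    · rwa [h5] at h4
    · have h6 : sSup S < min b (sSup S + δ / 2) := lt_min h5 (by linarith)
      have h7 := min_le_right b (sSup S + δ / 2)
      have h8 := h3 (y := min b (sSup S + δ / 2))
        (by rw [Real.dist_eq, abs_lt]; constructor <;> linarith)
      refine absurd (le_csSup hb ⟨⟨h1.trans h6.le, min_le_left _ _⟩, h4.trans ?_⟩) h6.not_ge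
      refine le_of_mul_le_mul_left ?_ (sub_pos.2 h6)
      linarith
  refine le_of_forall_pos_le_add fun ε hε => ?_
  have h1 : 0 < b - a + 1 := by linarith
  have h2 := key (ε / (b - a + 1)) (by positivity)
  have h3 : ε / (b - a + 1) * (b - a + 1) = ε := div_mul_cancel₀ _ h1.ne'
  have h4 : 0 < ε / (b - a + 1) := by positivity
  linarith

/-- A function with nonnegative lower derivative and equal values at the end points has no positive
lower derivative at the end points. -/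
theorem Up.nonpos_of_eq {f : ℝ → ℝ} {a b : ℝ} (hab : a < b) (h : ∀ t ∈ Icc a b, Up f t 0)
    (e : f a = f b) {c : ℝ} (hc : Up f a c ∨ Up f b c) : c ≤ 0 := by
  have key : ∀ s ∈ Ioo a b, f s = f a := fun s hs => le_antisymm
    (e ▸ Up.le_of_forall hs.2.le fun t ht => h t ⟨hs.1.le.trans ht.1, ht.2⟩)
    (Up.le_of_forall hs.1.le fun t ht => h t ⟨ht.1, ht.2.trans hs.2.le⟩)
  by_contra hlt
  have hε : 0 < c / 2 := by linarith [not_le.1 hlt]
  rcases hc with hc | hc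
  · obtain ⟨s, h1, h2⟩ := (((hc _ hε).filter_mono nhdsWithin_le_nhds).and
      (Ioo_mem_nhdsGT hab)).exists
    rw [key s h2, sub_self, mul_zero] at h1
    nlinarith [mul_pos hε (pow_pos (sub_pos.2 h2.1) 2)]
  · obtain ⟨s, h1, h2⟩ := (((hc _ hε).filter_mono nhdsWithin_le_nhds).and
      (Ioo_mem_nhdsLT hab)).exists
    rw [key s h2, e, sub_self, mul_zero] at h1
    nlinarith [mul_pos hε (pow_pos (sub_pos.2 h2.2) 2)]

theorem hasDerivAt_tt {a b w σ δy : ℝ → ℝ} {t a' b' w' σ' δy' : ℝ} (ha : HasDerivAt a a' t)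
    (hb : HasDerivAt b b' t) (hw : HasDerivAt w w' t) (hσ : HasDerivAt σ σ' t)
    (hδ : HasDerivAt δy δy' t) (hb0 : b t ≠ 0) :
    HasDerivAt (fun s => Neck.tt (a s) (b s) (w s) (σ s) (δy s))
      (a' * (2 * w t * σ t ^ 2 / b t ^ 2 - 2 * σ t * δy t / b t) +
        a t * (2 * w' * σ t ^ 2 / b t ^ 2 + 4 * w t * σ t * σ' / b t ^ 2 -
          4 * w t * σ t ^ 2 * b' / b t ^ 3 - 2 * σ' * δy t / b t - 2 * σ t * δy' / b t +
          2 * σ t * δy t * b' / b t ^ 2)) t := by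
  refine (ha.mul ((((hw.const_mul 2).mul (hσ.pow 2)).div (hb.pow 2) (pow_ne_zero 2 hb0)).sub
    (((hσ.const_mul 2).mul hδ).div hb hb0))).congr_deriv ?_
  simp only [Pi.pow_apply, Pi.mul_apply, Pi.sub_apply, Pi.div_apply]
  push_cast
  field_simp
  ring

theorem tt_identity {c a1 a2 b b1 w σ δy δw p A : ℝ} (hb : b ≠ 0) (hc : c ≠ 0) :
    δw ^ 2 + A - a2 * δy ^ 2 / 2 -
      (a2 * w * (2 * w * σ ^ 2 / b ^ 2 - 2 * σ * δy / b) +
        a1 * (2 * (-a1 / 2) * σ ^ 2 / b ^ 2 + 4 * w * σ * (p + δy * b1 / 2) / b ^ 2 -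
          4 * w * σ ^ 2 * (b1 * w) / b ^ 3 - 2 * (p + δy * b1 / 2) * δy / b - 2 * σ * δw / b +
          2 * σ * δy * (b1 * w) / b ^ 2)) =
      (A - p ^ 2 / c) + c * (p / c - (2 * a1 * w / b ^ 2 * σ - a1 / b * δy)) ^ 2 +
        (δw + a1 / b * σ) ^ 2 - 2 * ee c a1 a2 b b1 / b ^ 4 * (w * σ - b * δy / 2) ^ 2 := by
  unfold ee
  field_simp
  ring

theorem ham_core {om a b w σ δy : ℝ → ℝ} {t c a2 b1 δw p A : ℝ}
    (hω : HasDerivAt om (δw ^ 2 + A - a2 * δy t ^ 2 / 2) t) (ha : HasDerivAt a (a2 * w t) t)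
    (hb : HasDerivAt b (b1 * w t) t) (hw : HasDerivAt w (-a t / 2) t)
    (hσ : HasDerivAt σ (p + δy t * b1 / 2) t) (hδ : HasDerivAt δy δw t) (hb0 : b t ≠ 0)
    (hc : 0 < c) (hA : p ^ 2 / c ≤ A) (he : ee c (a t) a2 (b t) b1 ≤ 0) :
    Up (fun s => om s - Neck.tt (a s) (b s) (w s) (σ s) (δy s)) t 0 ∧
      (δy t = 0 → σ t = 0 →
        Up (fun s => om s - Neck.tt (a s) (b s) (w s) (σ s) (δy s)) t (δw ^ 2 + A)) := by
  have h := hω.sub (hasDerivAt_tt ha hb hw hσ hδ hb0)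
  refine ⟨Up.of_hasDerivAt h ?_, fun h1 h2 => Up.of_hasDerivAt h (le_of_eq ?_)⟩
  · rw [tt_identity hb0 hc.ne']
    have h1 : 0 ≤ -(2 * ee c (a t) a2 (b t) b1 / b t ^ 4) * (w t * σ t - b t * δy t / 2) ^ 2 := by
      rw [← neg_div]
      exact mul_nonneg (div_nonneg (by linarith) (by positivity)) (sq_nonneg _)
    have h2 : 0 ≤ c * (p / c - (2 * a t * w t / b t ^ 2 * σ t - a t / b t * δy t)) ^ 2 := by
      positivity
    linarith [sq_nonneg (δw + a t / b t * σ t)]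
  · rw [h1, h2]
    ring

theorem ham_deriv {f y : ℝ → ℝ} {t w : ℝ} (hf : ContDiffOn ℝ ∞ f (Ioo (-3) 4))
    (ht : y t ∈ Ioo (-3 : ℝ) 4) (hy : HasDerivAt y w t) :
    HasDerivAt (fun s => f (y s)) (deriv f (y t) * w) t ∧
      HasDerivAt (fun s => deriv f (y s)) (deriv (deriv f) (y t) * w) t :=
  ⟨((hf.contDiffAt (isOpen_Ioo.mem_nhds ht)).differentiableAt (by simp)).hasDerivAt.comp t hy,
    (((hf.deriv_of_isOpen (m := ∞) isOpen_Ioo (by simp)).contDiffAt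
      (isOpen_Ioo.mem_nhds ht)).differentiableAt (by simp)).hasDerivAt.comp t hy⟩

namespace Neck

variable (N : Neck)

/-- `a_yy`. -/
noncomputable def a2 (y P Q : ℝ) : ℝ :=
  qf (deriv (deriv N.α) y) (deriv (deriv N.β) y) (deriv (deriv N.γ) y) P Q

/-- The linearised Hamiltonian system of the neck at time `t` (the momenta `P, Q` and their
variations `dP, dQ` are constant). -/
structure HamAt (P Q dP dQ : ℝ) (y w δy δw δ1 δ2 : ℝ → ℝ) (t : ℝ) : Prop where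
  hy : HasDerivAt y (w t) t
  hw : HasDerivAt w (-N.a1 (y t) P Q / 2) t
  hδy : HasDerivAt δy (δw t) t
  hδw : HasDerivAt δw (-N.a2 (y t) P Q * δy t / 2 - (deriv N.α (y t) * P * dP +
    deriv N.β (y t) * (P * dQ + Q * dP) + deriv N.γ (y t) * Q * dQ)) t
  hδ1 : HasDerivAt δ1 (N.α (y t) * dP + N.β (y t) * dQ +
    δy t * (deriv N.α (y t) * P + deriv N.β (y t) * Q)) t
  hδ2 : HasDerivAt δ2 (N.β (y t) * dP + N.γ (y t) * dQ +
    δy t * (deriv N.β (y t) * P + deriv N.γ (y t) * Q)) t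

theorem γ_pos {y : ℝ} (hy : y ∈ Ioo (-3 : ℝ) 4) : 0 < N.γ y :=
  pos_of_mul_pos_of_pos_left_aux (N.α_pos y hy) (by linarith [N.det_pos y hy, sq_nonneg (N.β y)])

theorem qf_pos {y : ℝ} (hy : y ∈ Ioo (-3 : ℝ) 4) {P Q : ℝ} (h : P ≠ 0 ∨ Q ≠ 0) :
    0 < qf (N.α y) (N.β y) (N.γ y) P Q := by
  have h1 := N.α_pos y hy
  have h2 := N.det_pos y hy
  refine pos_of_mul_pos_of_pos_left_aux h1 ?_
  have e : N.α y * qf (N.α y) (N.β y) (N.γ y) P Q =
      (N.α y * P + N.β y * Q) ^ 2 + (N.α y * N.γ y - N.β y ^ 2) * Q ^ 2 := by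
    unfold qf
    ring
  rw [e]
  by_cases hQ : Q = 0
  · have hP := h.resolve_right (not_not.2 hQ)
    rw [hQ]
    simp only [mul_zero, add_zero, ne_eq, OfNat.ofNat_ne_zero, not_false_eq_true, zero_pow]
    positivity
  · positivity

theorem hasDerivAt_omega {P Q dP dQ : ℝ} {y w δy δw δ1 δ2 : ℝ → ℝ} {t : ℝ}
    (h : N.HamAt P Q dP dQ y w δy δw δ1 δ2 t) :
    HasDerivAt (fun s => δy s * δw s + δ1 s * dP + δ2 s * dQ)
      (δw t ^ 2 + qf (N.α (y t)) (N.β (y t)) (N.γ (y t)) dP dQ -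
        N.a2 (y t) P Q * δy t ^ 2 / 2) t := by
  refine (((h.hδy.mul h.hδw).add (h.hδ1.mul_const dP)).add (h.hδ2.mul_const dQ)).congr_deriv ?_
  unfold qf
  ring

theorem T_left {y w P Q δy δ1 δ2 : ℝ} (h : 0 ≤ N.a1 y P Q) : N.T y w P Q δy δ1 δ2 =
    tt (N.a1 y P Q) (2 * (N.β y * P + N.γ y * Q)) w δ2 δy := by
  unfold T
  rcases h.eq_or_lt with h | h
  · simp [← h, tt]
  · rw [if_pos h]

theorem T_right {y w P Q δy δ1 δ2 : ℝ} (h : N.a1 y P Q ≤ 0) : N.T y w P Q δy δ1 δ2 =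
    tt (N.a1 y P Q) (2 * (N.α y * P + N.β y * Q)) w δ1 δy := by
  unfold T
  rcases h.eq_or_lt with h | h
  · simp [h, tt]
  · rw [if_neg h.not_gt, if_pos h]

theorem ham_up {P Q dP dQ : ℝ} {y w δy δw δ1 δ2 : ℝ → ℝ} {t : ℝ} (hy : y t ∈ Ioo (-3 : ℝ) 4)
    (h : N.HamAt P Q dP dQ y w δy δw δ1 δ2 t) :
    Up (fun s => δy s * δw s + δ1 s * dP + δ2 s * dQ -
      N.T (y s) (w s) P Q (δy s) (δ1 s) (δ2 s)) t 0 ∧
    (δy t = 0 → δ1 t = 0 → δ2 t = 0 → Up (fun s => δy s * δw s + δ1 s * dP + δ2 s * dQ -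
      N.T (y s) (w s) P Q (δy s) (δ1 s) (δ2 s)) t
        (δw t ^ 2 + qf (N.α (y t)) (N.β (y t)) (N.γ (y t)) dP dQ)) := by
  obtain ⟨α1, α2⟩ := ham_deriv N.smoothα hy h.hy
  obtain ⟨β1, β2⟩ := ham_deriv N.smoothβ hy h.hy
  obtain ⟨γ1, γ2⟩ := ham_deriv N.smoothγ hy h.hy
  have hω := N.hasDerivAt_omega h
  have hα := N.α_pos _ hy
  have hγ := N.γ_pos hy
  have hd := N.det_pos _ hy
  have ha : HasDerivAt (fun s => N.a1 (y s) P Q) (N.a2 (y t) P Q * w t) t := by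
    refine (((α2.mul_const (P ^ 2)).add (((β2.const_mul 2).mul_const P).mul_const Q)).add
      (γ2.mul_const (Q ^ 2))).congr_deriv ?_
    unfold a2 qf
    ring
  have hL := fun (hQ : Q ≠ 0) (h0 : 0 ≤ N.a1 (y t) P Q) =>
    ham_core (p := N.β (y t) * dP + N.γ (y t) * dQ)
      (b := fun s => 2 * (N.β (y s) * P + N.γ (y s) * Q))
      (b1 := 2 * (deriv N.β (y t) * P + deriv N.γ (y t) * Q)) hω ha
      ((((β1.mul_const P).add (γ1.mul_const Q)).const_mul 2).congr_deriv (by ring)) h.hw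
      (h.hδ2.congr_deriv (by ring)) h.hδy (mul_ne_zero two_ne_zero (N.L1 _ hy P Q hQ h0).1) hγ
      (by rw [div_le_iff₀ hγ]; unfold qf; nlinarith [mul_nonneg hd.le (sq_nonneg dP)])
      (N.L1 _ hy P Q hQ h0).2
  have hR := fun (hP : P ≠ N.κ * Q) (h0 : N.a1 (y t) P Q ≤ 0) =>
    ham_core (p := N.α (y t) * dP + N.β (y t) * dQ)
      (b := fun s => 2 * (N.α (y s) * P + N.β (y s) * Q))
      (b1 := 2 * (deriv N.α (y t) * P + deriv N.β (y t) * Q)) hω ha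
      ((((α1.mul_const P).add (β1.mul_const Q)).const_mul 2).congr_deriv (by ring)) h.hw
      (h.hδ1.congr_deriv (by ring)) h.hδy (mul_ne_zero two_ne_zero (N.R1 _ hy P Q hP h0).1) hα
      (by rw [div_le_iff₀ hα]; unfold qf; nlinarith [mul_nonneg hd.le (sq_nonneg dQ)])
      (N.R1 _ hy P Q hP h0).2
  have hI : ∀ᶠ s in 𝓝 t, y s ∈ Ioo (-3 : ℝ) 4 := h.hy.continuousAt (isOpen_Ioo.mem_nhds hy)
  have cL := fun (hQ : Q ≠ 0) (h0 : ∀ᶠ s in 𝓝 t, 0 ≤ N.a1 (y s) P Q) =>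
    (hL hQ h0.self_of_nhds).imp
      (fun h1 => h1.congr (f := fun s => δy s * δw s + δ1 s * dP + δ2 s * dQ -
        N.T (y s) (w s) P Q (δy s) (δ1 s) (δ2 s)) (h0.mono fun s hs => by simp only [N.T_left hs]))
      fun h1 (e1 : δy t = 0) (_ : δ1 t = 0) (e2 : δ2 t = 0) =>
        (h1 e1 e2).congr (f := fun s => δy s * δw s + δ1 s * dP + δ2 s * dQ -
        N.T (y s) (w s) P Q (δy s) (δ1 s) (δ2 s)) (h0.mono fun s hs => by simp only [N.T_left hs])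
  have cR := fun (hP : P ≠ N.κ * Q) (h0 : ∀ᶠ s in 𝓝 t, N.a1 (y s) P Q ≤ 0) =>
    (hR hP h0.self_of_nhds).imp
      (fun h1 => h1.congr (f := fun s => δy s * δw s + δ1 s * dP + δ2 s * dQ -
        N.T (y s) (w s) P Q (δy s) (δ1 s) (δ2 s)) (h0.mono fun s hs => by simp only [N.T_right hs]))
      fun h1 (e1 : δy t = 0) (e2 : δ1 t = 0) (_ : δ2 t = 0) =>
        (h1 e1 e2).congr (f := fun s => δy s * δw s + δ1 s * dP + δ2 s * dQ -
        N.T (y s) (w s) P Q (δy s) (δ1 s) (δ2 s)) (h0.mono fun s hs => by simp only [N.T_right hs])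
  by_cases hQ : Q = 0
  · by_cases hP : P = 0
    · subst hP hQ
      have e1 : ∀ z, N.a1 z 0 0 = 0 := fun z => by simp [a1, qf]
      have e2 : N.a2 (y t) 0 0 = 0 := by simp [a2, qf]
      simp only [T, e1, lt_irrefl, if_false, sub_zero]
      rw [e2, zero_mul, zero_div, sub_zero] at hω
      refine ⟨Up.of_hasDerivAt hω (add_nonneg (sq_nonneg _) ?_),
        fun _ _ _ => Up.of_hasDerivAt hω le_rfl⟩
      by_cases h0 : dP ≠ 0 ∨ dQ ≠ 0
      · exact (N.qf_pos hy h0).le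
      · push Not at h0
        simp [h0, qf]
    · refine cR (by simpa [hQ] using hP) (hI.mono fun s hs => ?_)
      simpa [a1, qf, hQ] using mul_nonpos_of_nonpos_of_nonneg (N.L0 _ hs) (sq_nonneg P)
  by_cases hP : P = N.κ * Q
  · refine cL hQ (hI.mono fun s hs => ?_)
    refine le_of_le_of_eq (mul_nonneg (N.R0 _ hs) (sq_nonneg Q)) ?_
    rw [hP]
    unfold a1 qf
    ring
  rcases lt_trichotomy (N.a1 (y t) P Q) 0 with h0 | h0 | h0
  · exact cR hP ((ha.continuousAt.eventually (gt_mem_nhds h0)).mono fun _ hs => hs.le)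
  · have key : ∀ {c : ℝ}, Up (fun s => δy s * δw s + δ1 s * dP + δ2 s * dQ -
        tt (N.a1 (y s) P Q) (2 * (N.β (y s) * P + N.γ (y s) * Q)) (w s) (δ2 s) (δy s)) t c →
        Up (fun s => δy s * δw s + δ1 s * dP + δ2 s * dQ -
        tt (N.a1 (y s) P Q) (2 * (N.α (y s) * P + N.β (y s) * Q)) (w s) (δ1 s) (δy s)) t c →
        Up (fun s => δy s * δw s + δ1 s * dP + δ2 s * dQ -
        N.T (y s) (w s) P Q (δy s) (δ1 s) (δ2 s)) t c := fun h1 h2 =>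
      h1.of_two h2 (by simp only [N.T_left h0.ge]) (by simp only [N.T_right h0.le])
        (Filter.Eventually.of_forall fun s => (le_total 0 (N.a1 (y s) P Q)).imp
          (fun hs => by simp only [N.T_left hs]) fun hs => by simp only [N.T_right hs])
    exact ⟨key (hL hQ h0.ge).1 (hR hP h0.le).1,
      fun e1 e2 e3 => key ((hL hQ h0.ge).2 e1 e3) ((hR hP h0.le).2 e1 e2)⟩
  · exact cL hQ ((ha.continuousAt.eventually (lt_mem_nhds h0)).mono fun _ hs => hs.le)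

end Neck

end Vale.Agent.P255
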