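import Vale.Agent.P255.Neck

/-!
# The Christoffel symbols of the neck metric

`G = A⁻¹` on the torus directions.  `loc_GN`: `GN` is smooth (`fun_prop`/`ContDiffOn.smul` with
`smooth_g11` .. composed with `fst`), symmetric, and positive (`g11 > 0`, `g11 g22 - g12² = 1/det > 0`).
`fderiv_GN`: `HasFDerivAt` of `n ↦ g11 n.1 • B` is `(deriv g11 n.1 • fst).smulRight B`.
`chr_GN`: `LocMetric.ext_vec` and `LocMetric.koszul`, `GN_apply`, `fderiv_GN`, then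
`field_simp; ring` with `g11 = γ/det` .. unfolded (keep the derivatives of `g11, g12, g22` as atoms).
`lin_GN`: `fderiv (chrL G) x J v v` is the derivative at `s = 0` of `s ↦ chr G (x + s • J) v v`
(`contDiffOn_chrL`, `chrL_apply`); near `s = 0` use `chr_GN` and differentiate componentwise.
`chr_fibre`: on `(3,4)` one has `g22 = 1` (`N.right`: `det = α`), so `deriv g22 = 0`.
`deriv_g11` ..: quotient rule on the open interval (`Filter.EventuallyEq.deriv_eq` for the second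
derivatives).
-/

set_option maxSynthPendingDepth 3

namespace Vale.Agent.P255

open scoped ContDiff Topology
open Set Real

theorem smooth_deriv {f : ℝ → ℝ} (hf : ContDiffOn ℝ ∞ f (Ioo (-3) 4)) :
    ContDiffOn ℝ ∞ (deriv f) (Ioo (-3) 4) := by
  exact hf.deriv_of_isOpen isOpen_Ioo (by simp)

theorem hasDerivAt_of_smooth {f : ℝ → ℝ} (hf : ContDiffOn ℝ ∞ f (Ioo (-3) 4)) {y : ℝ}
    (hy : y ∈ Ioo (-3 : ℝ) 4) : HasDerivAt f (deriv f y) y := by
  exact ((hf.contDiffAt (isOpen_Ioo.mem_nhds hy)).differentiableAt (by simp)).hasDerivAt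

namespace Neck

variable (N : Neck)

theorem nc_smooth_det : ContDiffOn ℝ ∞ (fun y => N.α y * N.γ y - N.β y ^ 2) (Ioo (-3) 4) :=
  (N.smoothα.mul N.smoothγ).sub (N.smoothβ.pow 2)

theorem smooth_g11 : ContDiffOn ℝ ∞ N.g11 (Ioo (-3) 4) := by
  exact N.smoothγ.div N.nc_smooth_det fun y hy => (N.det_pos y hy).ne'

theorem smooth_g12 : ContDiffOn ℝ ∞ N.g12 (Ioo (-3) 4) := by
  exact N.smoothβ.neg.div N.nc_smooth_det fun y hy => (N.det_pos y hy).ne'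

theorem smooth_g22 : ContDiffOn ℝ ∞ N.g22 (Ioo (-3) 4) := by
  exact N.smoothα.div N.nc_smooth_det fun y hy => (N.det_pos y hy).ne'

/-- The determinant of `A` and its first two derivatives. -/
noncomputable def D0 (y : ℝ) : ℝ := N.α y * N.γ y - N.β y ^ 2
noncomputable def D1 (y : ℝ) : ℝ :=
  deriv N.α y * N.γ y + N.α y * deriv N.γ y - 2 * N.β y * deriv N.β y
noncomputable def D2 (y : ℝ) : ℝ :=
  deriv (deriv N.α) y * N.γ y + 2 * deriv N.α y * deriv N.γ y + N.α y * deriv (deriv N.γ) y -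
    2 * deriv N.β y ^ 2 - 2 * N.β y * deriv (deriv N.β) y

theorem nc_D0_ne {y : ℝ} (hy : y ∈ Ioo (-3 : ℝ) 4) : N.D0 y ≠ 0 := (N.det_pos y hy).ne'

theorem nc_hasDerivAt_D0 {y : ℝ} (hy : y ∈ Ioo (-3 : ℝ) 4) : HasDerivAt N.D0 (N.D1 y) y := by
  have ha := hasDerivAt_of_smooth N.smoothα hy
  have hb := hasDerivAt_of_smooth N.smoothβ hy
  have hc := hasDerivAt_of_smooth N.smoothγ hy
  have h := (ha.fun_mul hc).fun_sub (hb.fun_mul hb)
  have e : N.D0 = fun y => N.α y * N.γ y - N.β y * N.β y := by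
    funext z
    simp only [D0, sq]
  rw [e]
  refine h.congr_deriv ?_
  unfold D1
  ring

theorem nc_hasDerivAt_D1 {y : ℝ} (hy : y ∈ Ioo (-3 : ℝ) 4) : HasDerivAt N.D1 (N.D2 y) y := by
  have ha := hasDerivAt_of_smooth N.smoothα hy
  have hb := hasDerivAt_of_smooth N.smoothβ hy
  have hc := hasDerivAt_of_smooth N.smoothγ hy
  have ha' := hasDerivAt_of_smooth (smooth_deriv N.smoothα) hy
  have hb' := hasDerivAt_of_smooth (smooth_deriv N.smoothβ) hy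
  have hc' := hasDerivAt_of_smooth (smooth_deriv N.smoothγ) hy
  have h := ((ha'.fun_mul hc).fun_add (ha.fun_mul hc')).fun_sub
    ((hb.const_mul 2).fun_mul hb')
  refine h.congr_deriv ?_
  unfold D2
  ring

theorem nc_deriv_quot {f : ℝ → ℝ} (hf : ContDiffOn ℝ ∞ f (Ioo (-3) 4)) {y : ℝ}
    (hy : y ∈ Ioo (-3 : ℝ) 4) :
    deriv (fun y => f y / N.D0 y) y = (deriv f y * N.D0 y - f y * N.D1 y) / N.D0 y ^ 2 :=
  ((hasDerivAt_of_smooth hf hy).fun_div (N.nc_hasDerivAt_D0 hy) (N.nc_D0_ne hy)).deriv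

theorem nc_deriv2_quot {f : ℝ → ℝ} (hf : ContDiffOn ℝ ∞ f (Ioo (-3) 4)) {y : ℝ}
    (hy : y ∈ Ioo (-3 : ℝ) 4) :
    deriv (deriv (fun y => f y / N.D0 y)) y =
      (deriv (deriv f) y * N.D0 y ^ 2 - 2 * deriv f y * N.D1 y * N.D0 y -
        f y * N.D2 y * N.D0 y + 2 * f y * N.D1 y ^ 2) / N.D0 y ^ 3 := by
  have e : deriv (fun y => f y / N.D0 y) =ᶠ[𝓝 y]
      fun y => (deriv f y * N.D0 y - f y * N.D1 y) / (N.D0 y * N.D0 y) := by
    filter_upwards [isOpen_Ioo.mem_nhds hy] with z hz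
    rw [N.nc_deriv_quot hf hz, sq]
  have h0 := N.nc_hasDerivAt_D0 hy
  have h1 := N.nc_hasDerivAt_D1 hy
  have hne := N.nc_D0_ne hy
  have h := (((hasDerivAt_of_smooth (smooth_deriv hf) hy).fun_mul h0).fun_sub
    ((hasDerivAt_of_smooth hf hy).fun_mul h1)).fun_div (h0.fun_mul h0) (mul_ne_zero hne hne)
  rw [e.deriv_eq, h.deriv]
  field_simp
  ring

theorem deriv_g {y : ℝ} (hy : y ∈ Ioo (-3 : ℝ) 4) :
    deriv N.g11 y = (deriv N.γ y * N.D0 y - N.γ y * N.D1 y) / N.D0 y ^ 2 ∧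
    deriv N.g12 y = -(deriv N.β y * N.D0 y - N.β y * N.D1 y) / N.D0 y ^ 2 ∧
    deriv N.g22 y = (deriv N.α y * N.D0 y - N.α y * N.D1 y) / N.D0 y ^ 2 := by
  refine ⟨N.nc_deriv_quot N.smoothγ hy, ?_, N.nc_deriv_quot N.smoothα hy⟩
  have h1 : N.g12 = fun y => -(N.β y / N.D0 y) := by
    funext z
    simp only [g12, D0, neg_div]
  rw [h1, deriv.fun_neg, N.nc_deriv_quot N.smoothβ hy, neg_div]

theorem deriv2_g {y : ℝ} (hy : y ∈ Ioo (-3 : ℝ) 4) :
    deriv (deriv N.g11) y = (deriv (deriv N.γ) y * N.D0 y ^ 2 - 2 * deriv N.γ y * N.D1 y * N.D0 y -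
      N.γ y * N.D2 y * N.D0 y + 2 * N.γ y * N.D1 y ^ 2) / N.D0 y ^ 3 ∧
    deriv (deriv N.g12) y = -(deriv (deriv N.β) y * N.D0 y ^ 2 - 2 * deriv N.β y * N.D1 y * N.D0 y -
      N.β y * N.D2 y * N.D0 y + 2 * N.β y * N.D1 y ^ 2) / N.D0 y ^ 3 ∧
    deriv (deriv N.g22) y = (deriv (deriv N.α) y * N.D0 y ^ 2 - 2 * deriv N.α y * N.D1 y * N.D0 y -
      N.α y * N.D2 y * N.D0 y + 2 * N.α y * N.D1 y ^ 2) / N.D0 y ^ 3 := by
  refine ⟨N.nc_deriv2_quot N.smoothγ hy, ?_, N.nc_deriv2_quot N.smoothα hy⟩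
  have h1 : deriv N.g12 = fun y => -deriv (fun y => N.β y / N.D0 y) y := by
    have h1 : N.g12 = fun y => -(N.β y / N.D0 y) := by
      funext z
      simp only [g12, D0, neg_div]
    funext z
    rw [h1, deriv.fun_neg]
  rw [h1, deriv.fun_neg, N.nc_deriv2_quot N.smoothβ hy, neg_div]

theorem loc_GN : LocMetric N.GN (N.O none) := by
  have hm : MapsTo (fun n : R3 => n.1) (N.O none) (Ioo (-3) 4) := fun n hn => hn
  refine ⟨isOpen_Ioo.preimage continuous_fst, ?_, ?_, ?_⟩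
  · have h11 : ContDiffOn ℝ ∞ (fun n : R3 => N.g11 n.1) (N.O none) :=
      N.smooth_g11.comp contDiffOn_fst hm
    have h12 : ContDiffOn ℝ ∞ (fun n : R3 => N.g12 n.1) (N.O none) :=
      N.smooth_g12.comp contDiffOn_fst hm
    have h22 : ContDiffOn ℝ ∞ (fun n : R3 => N.g22 n.1) (N.O none) :=
      N.smooth_g22.comp contDiffOn_fst hm
    exact ((contDiffOn_const.add (h11.smul contDiffOn_const)).add
      (h12.smul contDiffOn_const)).add (h22.smul contDiffOn_const)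
  · intro n _ u v
    rw [GN_apply, GN_apply]
    ring
  · intro n hn u hu
    have hd := N.det_pos n.1 hn
    have ha := N.α_pos n.1 hn
    rw [GN_apply]
    have e : u.1 * u.1 + N.g11 n.1 * (u.2.1 * u.2.1) +
        N.g12 n.1 * (u.2.1 * u.2.2 + u.2.2 * u.2.1) + N.g22 n.1 * (u.2.2 * u.2.2) =
        u.1 ^ 2 + u.2.1 ^ 2 / N.α n.1 + (N.α n.1 * u.2.2 - N.β n.1 * u.2.1) ^ 2 /
          (N.α n.1 * (N.α n.1 * N.γ n.1 - N.β n.1 ^ 2)) := by
      unfold g11 g12 g22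
      have hγ : N.γ n.1 = (N.α n.1 * N.γ n.1 - N.β n.1 ^ 2 + N.β n.1 ^ 2) / N.α n.1 := by
        field_simp
        ring
      generalize N.α n.1 * N.γ n.1 - N.β n.1 ^ 2 = D at hd hγ ⊢
      rw [hγ]
      field_simp
      ring
    rw [e]
    by_cases h0 : u.1 = 0
    · by_cases h1 : u.2.1 = 0
      · have h2 : u.2.2 ≠ 0 := fun h2 => hu (Prod.ext h0 (Prod.ext h1 h2))
        have h3 : N.α n.1 * u.2.2 - N.β n.1 * u.2.1 ≠ 0 := by
          rw [h1, mul_zero, sub_zero]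
          exact mul_ne_zero ha.ne' h2
        positivity
      · positivity
    · positivity

theorem nc_fst {f : ℝ → ℝ} {f' : ℝ} {n : R3} (h : HasDerivAt f f' n.1) :
    HasFDerivAt (fun z : R3 => f z.1) (f' • ContinuousLinearMap.fst ℝ ℝ (ℝ × ℝ)) n :=
  h.comp_hasFDerivAt n hasFDerivAt_fst

theorem fderiv_GN {n : R3} (hn : n ∈ N.O none) (w u v : R3) :
    fderiv ℝ N.GN n w u v = w.1 * N.G1 n.1 u v := by
  have h11 := nc_fst (hasDerivAt_of_smooth N.smooth_g11 hn)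
  have h12 := nc_fst (hasDerivAt_of_smooth N.smooth_g12 hn)
  have h22 := nc_fst (hasDerivAt_of_smooth N.smooth_g22 hn)
  have h := (((h11.mul_const (u.2.1 * v.2.1)).const_add (u.1 * v.1)).fun_add
    (h12.mul_const (u.2.1 * v.2.2 + u.2.2 * v.2.1))).fun_add (h22.mul_const (u.2.2 * v.2.2))
  rw [← loc_fderiv_app2c (N.loc_GN.loc_diff hn)]
  simp only [GN_apply]
  rw [h.fderiv]
  simp only [add_apply, smul_apply, ContinuousLinearMap.coe_fst', smul_eq_mul, G1]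
  ring

/-- The components of `G' u` and `G'' u`. -/
noncomputable def c1 (y : ℝ) (u : R3) : ℝ := deriv N.g11 y * u.2.1 + deriv N.g12 y * u.2.2
noncomputable def c2 (y : ℝ) (u : R3) : ℝ := deriv N.g12 y * u.2.1 + deriv N.g22 y * u.2.2
noncomputable def e1 (y : ℝ) (u : R3) : ℝ :=
  deriv (deriv N.g11) y * u.2.1 + deriv (deriv N.g12) y * u.2.2
noncomputable def e2 (y : ℝ) (u : R3) : ℝ :=
  deriv (deriv N.g12) y * u.2.1 + deriv (deriv N.g22) y * u.2.2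

theorem nc_low {y : ℝ} (hy : y ∈ Ioo (-3 : ℝ) 4) (s t : ℝ) :
    N.g11 y * (N.α y * s + N.β y * t) + N.g12 y * (N.β y * s + N.γ y * t) = s ∧
    N.g12 y * (N.α y * s + N.β y * t) + N.g22 y * (N.β y * s + N.γ y * t) = t := by
  have hd := (N.det_pos y hy).ne'
  unfold g11 g12 g22
  constructor
  · rw [div_mul_eq_mul_div, div_mul_eq_mul_div, ← add_div, div_eq_iff hd]
    ring
  · rw [div_mul_eq_mul_div, div_mul_eq_mul_div, ← add_div, div_eq_iff hd]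
    ring

theorem chr_GN {n : R3} (hn : n ∈ N.O none) (u v : R3) :
    chr N.GN n u v = (-N.G1 n.1 u v / 2,
      (N.α n.1 * (u.1 * N.c1 n.1 v + v.1 * N.c1 n.1 u) +
        N.β n.1 * (u.1 * N.c2 n.1 v + v.1 * N.c2 n.1 u)) / 2,
      (N.β n.1 * (u.1 * N.c1 n.1 v + v.1 * N.c1 n.1 u) +
        N.γ n.1 * (u.1 * N.c2 n.1 v + v.1 * N.c2 n.1 u)) / 2) := by
  obtain ⟨h1, h2⟩ := N.nc_low hn (u.1 * N.c1 n.1 v + v.1 * N.c1 n.1 u)
    (u.1 * N.c2 n.1 v + v.1 * N.c2 n.1 u)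
  refine N.loc_GN.ext_vec hn fun w => ?_
  rw [N.loc_GN.koszul hn, N.fderiv_GN hn, N.fderiv_GN hn, N.fderiv_GN hn, GN_apply]
  simp only [G1, c1, c2] at h1 h2 ⊢
  linear_combination (-w.2.1 / 2) * h1 - (w.2.2 / 2) * h2

theorem nc_c1 {y : ℝ} (hy : y ∈ Ioo (-3 : ℝ) 4) (u : R3) :
    HasDerivAt (fun y => N.c1 y u) (N.e1 y u) y :=
  ((hasDerivAt_of_smooth (smooth_deriv N.smooth_g11) hy).mul_const _).fun_add
    ((hasDerivAt_of_smooth (smooth_deriv N.smooth_g12) hy).mul_const _)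

theorem nc_c2 {y : ℝ} (hy : y ∈ Ioo (-3 : ℝ) 4) (u : R3) :
    HasDerivAt (fun y => N.c2 y u) (N.e2 y u) y :=
  ((hasDerivAt_of_smooth (smooth_deriv N.smooth_g12) hy).mul_const _).fun_add
    ((hasDerivAt_of_smooth (smooth_deriv N.smooth_g22) hy).mul_const _)

theorem nc_G1 {y : ℝ} (hy : y ∈ Ioo (-3 : ℝ) 4) (u : R3) :
    HasDerivAt (fun y => N.G1 y u u) (N.e1 y u * u.2.1 + N.e2 y u * u.2.2) y := by
  have h := ((N.nc_c1 hy u).mul_const u.2.1).fun_add ((N.nc_c2 hy u).mul_const u.2.2)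
  have e : (fun y => N.G1 y u u) = fun y => N.c1 y u * u.2.1 + N.c2 y u * u.2.2 := by
    funext z
    unfold G1 c1 c2
    ring
  rw [e]
  exact h

theorem lin_GN {n : R3} (hn : n ∈ N.O none) (v J K : R3) :
    lin N.GN n v J K =
      (J.1 * (N.e1 n.1 v * v.2.1 + N.e2 n.1 v * v.2.2) / 2 + N.G1 n.1 v K,
      -(J.1 * v.1 * (deriv N.α n.1 * N.c1 n.1 v + deriv N.β n.1 * N.c2 n.1 v +
          N.α n.1 * N.e1 n.1 v + N.β n.1 * N.e2 n.1 v)) -
        (N.α n.1 * (v.1 * N.c1 n.1 K + K.1 * N.c1 n.1 v) +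
          N.β n.1 * (v.1 * N.c2 n.1 K + K.1 * N.c2 n.1 v)),
      -(J.1 * v.1 * (deriv N.β n.1 * N.c1 n.1 v + deriv N.γ n.1 * N.c2 n.1 v +
          N.β n.1 * N.e1 n.1 v + N.γ n.1 * N.e2 n.1 v)) -
        (N.β n.1 * (v.1 * N.c1 n.1 K + K.1 * N.c1 n.1 v) +
          N.γ n.1 * (v.1 * N.c2 n.1 K + K.1 * N.c2 n.1 v))) := by
  have hy : n.1 ∈ Ioo (-3 : ℝ) 4 := hn
  have ha := nc_fst (hasDerivAt_of_smooth N.smoothα hy)
  have hb := nc_fst (hasDerivAt_of_smooth N.smoothβ hy)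
  have hc := nc_fst (hasDerivAt_of_smooth N.smoothγ hy)
  have h1 := nc_fst (N.nc_c1 hy v)
  have h2 := nc_fst (N.nc_c2 hy v)
  have hG := nc_fst (N.nc_G1 hy v)
  have s1 := (h1.const_mul v.1).fun_add (h1.const_mul v.1)
  have s2 := (h2.const_mul v.1).fun_add (h2.const_mul v.1)
  have H := (hG.fun_neg.mul_const (1 / 2)).prodMk
    ((((ha.fun_mul s1).fun_add (hb.fun_mul s2)).mul_const (1 / 2)).prodMk
      (((hb.fun_mul s1).fun_add (hc.fun_mul s2)).mul_const (1 / 2)))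
  have e : (fun z => chr N.GN z v v) =ᶠ[𝓝 n] fun z : R3 => (-N.G1 z.1 v v * (1 / 2),
      (N.α z.1 * (v.1 * N.c1 z.1 v + v.1 * N.c1 z.1 v) +
        N.β z.1 * (v.1 * N.c2 z.1 v + v.1 * N.c2 z.1 v)) * (1 / 2),
      (N.β z.1 * (v.1 * N.c1 z.1 v + v.1 * N.c1 z.1 v) +
        N.γ z.1 * (v.1 * N.c2 z.1 v + v.1 * N.c2 z.1 v)) * (1 / 2)) := by
    filter_upwards [N.loc_GN.isOpen.mem_nhds hn] with z hz
    rw [N.chr_GN hz]
    simp only [mul_one_div]
  unfold lin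
  rw [← N.loc_GN.loc_fderiv_chr hn, e.fderiv_eq, H.fderiv, N.chr_GN hn]
  refine Prod.ext ?_ (Prod.ext ?_ ?_) <;>
    simp only [ContinuousLinearMap.prod_apply, add_apply, smul_apply, neg_apply,
      ContinuousLinearMap.coe_fst', smul_eq_mul, Prod.fst_sub, Prod.snd_sub, Prod.fst_neg,
      Prod.snd_neg, Prod.smul_fst, Prod.smul_snd] <;>
    ring

/-- The variations of the momenta. -/
noncomputable def dP (y : ℝ) (v J K : R3) : ℝ := J.1 * N.c1 y v + N.mP y K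
noncomputable def dQ (y : ℝ) (v J K : R3) : ℝ := J.1 * N.c2 y v + N.mQ y K

/-- `g(J, J')` in terms of `ω = δy δw + δx · δp`. -/
theorem GN_cov {n : R3} (hn : n ∈ N.O none) (v J K : R3) :
    N.GN n J (K + chr N.GN n v J) =
      J.1 * K.1 + J.2.1 * N.dP n.1 v J K + J.2.2 * N.dQ n.1 v J K +
        (v.1 * N.G1 n.1 J J / 2 - J.1 * N.G1 n.1 J v) := by
  obtain ⟨h1, h2⟩ := N.nc_low hn (v.1 * N.c1 n.1 J + J.1 * N.c1 n.1 v)
    (v.1 * N.c2 n.1 J + J.1 * N.c2 n.1 v)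
  rw [N.chr_GN hn, GN_apply]
  simp only [G1, c1, c2, dP, dQ, mP, mQ, Prod.fst_add, Prod.snd_add] at h1 h2 ⊢
  linear_combination (J.2.1 / 2) * h1 + (J.2.2 / 2) * h2

/-- The fibres of the right collar are geodesics. -/
theorem chr_fibre {n : R3} (hn : n.1 ∈ Ioo (3 : ℝ) 4) (l : ℝ) :
    chr N.GN n (0, 0, l) (0, 0, l) = 0 := by
  have hn' : n ∈ N.O none := ⟨by linarith [hn.1], hn.2⟩
  have e : N.g22 =ᶠ[𝓝 n.1] fun _ => 1 := by
    filter_upwards [isOpen_Ioo.mem_nhds hn] with z hz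
    have ha := (N.α_pos z ⟨by linarith [hz.1], hz.2⟩).ne'
    obtain ⟨_, h2, h3⟩ := N.right z hz
    have h4 : N.α z * N.γ z - N.β z ^ 2 = N.α z := by
      rw [h2, h3]
      ring
    unfold g22
    rw [h4, div_self ha]
  have h0 : deriv N.g22 n.1 = 0 := by
    rw [e.deriv_eq]
    simp
  rw [N.chr_GN hn']
  simp [G1, h0]

end Neck

end Vale.Agent.P255
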