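import Vale.Agent.P255.Square
import Vale.Agent.P255.NeckChr
import Vale.Agent.P255.Dist
import Vale.Agent.P255.Grp

/-!
# No metric of nonpositive curvature  (TASK)

`fibre_geodesic`: `isGeodesic_of_local` with the chart of `hG.chart none (7/2, 0, t lR)`: near `t`,
`e (c t') = (7/2, 0, t' lR)`; `chr_congr` (the target is open) and `chr_fibre`.
`fibre_essential`: `p₂ = g.exp (c 0)` is a covering (`NoConj.imm`, `Imm.isCoveringMap`); lift `p`
through `p₂` to `L` with `L (η 0) = 0` (`exists_lift`, `exp_zero`).  `c = geo (c 0) v` (`eq_geo`), so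
`s ↦ s • v` and `L ∘ η` are lifts of `c` (`exp_smul`), equal by `lift_unique`.  If `η 1 = η 0` then
`v = 0`, `c (1/2) = c 0`, and `hG.eq_iff`, `mem_lat` give `lR / 2 ∈ lR ℤ`.
`no_npc`: `F n = Ψ none (max (-5/2) (min n.1 (7/2)), n.2)`, `m = F 0`, `p = g'.exp m` (covering:
`NPC.imm`), `Ft` the lift of `F` with `Ft 0 = 0`; `φ`, `ψ` from `exists_deck_translate` for
`(0, lL, 0)`, `(0, 0, lR)`; they commute (`deck_ext` at `Ft 0`).  For each side lift `H` of
`exists_square` to `Ht` with `Ht 0 = Ft (nb b 0 0)`; `Ht (0, θ, z) = Ft (nb b θ z)` (`lift_unique` on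
`ℝ × ℝ`); `square_comm` with `(σ, φ) = (ψ, φ)` on the left and `(φ ψ⁻¹, ψ)` on the right (`κ_lL`).
`ψ ≠ 1` by `fibre_essential` for `η s = Ft (7/2, 0, s lR)`.  Conclude with `NPC.exists_dist` and
`grp_contra`.
-/

namespace Vale.Agent.P255

open scoped ContDiff Topology Manifold
open Set Real

namespace Neck

variable (N : Neck) {M : Type} [TopologicalSpace M] [ChartedSpace R3 M] [IsManifold 𝓘(ℝ, R3) ∞ M]
  [T2Space M] [CompactSpace M] {g : Metric R3 M} {Ψ : Option Bool → R3 → M}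

theorem mem_loops (n : R3) (h : n.1 ∈ Ioo (-3 : ℝ) 4) : n ∈ N.O none := h

theorem fibre_geodesic (hG : GlueOut N.O N.G N.rel g Ψ) :
    g.IsGeodesic (fun s => Ψ none (7 / 2, 0, s * N.lR)) univ := by
  have hq : Continuous fun s : ℝ => ((7 / 2, 0, s * N.lR) : R3) := by fun_prop
  refine Metric.isGeodesic_of_local isOpen_univ
    ((hG.cont none).comp_continuous hq fun s => N.mem_loops _ (by norm_num)).continuousOn
    fun t _ => ?_
  obtain ⟨e, he, h1, -, h3, h4⟩ := hG.chart none (7 / 2, 0, t * N.lR) (N.mem_loops _ (by norm_num))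
  have hev : (e ∘ fun s => Ψ none (7 / 2, 0, s * N.lR)) =ᶠ[𝓝 t]
      fun s : ℝ => ((7 / 2, 0, s * N.lR) : R3) := by
    filter_upwards [hq.continuousAt.eventually (e.open_target.mem_nhds h1)] with s hs
    rw [Function.comp_apply, ← h3 hs, e.right_inv hs]
  refine ⟨e, he, ?_, fun _ => (0, 0, N.lR), ?_, ?_⟩
  · rw [← h3 h1]
    exact e.map_target h1
  · filter_upwards [hev.eventuallyEq_nhds] with s hs
    refine HasDerivAt.congr_of_eventuallyEq ?_ hs
    simpa using (hasDerivAt_const s (7 / 2 : ℝ)).prodMk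
      ((hasDerivAt_const s (0 : ℝ)).prodMk ((hasDerivAt_id s).mul_const N.lR))
  · rw [show e (Ψ none (7 / 2, 0, t * N.lR)) = (7 / 2, 0, t * N.lR) from hev.self_of_nhds,
      chr_congr (h4.eventuallyEq_of_mem (e.open_target.mem_nhds h1))]
    change HasDerivAt _ (-chr N.GN _ _ _) _
    rw [N.chr_fibre (by norm_num), neg_zero]
    exact hasDerivAt_const _ _

theorem fibre_essential (hG : GlueOut N.O N.G N.rel g Ψ) (hc : g.NoConj) {p : R3 → M}
    (hp : Continuous p) {η : ℝ → R3} (hη : Continuous η)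
    (h : ∀ s, p (η s) = Ψ none (7 / 2, 0, s * N.lR)) : η 1 ≠ η 0 := by
  intro h10
  have hgeo := (N.fibre_geodesic hG).eq_geo
  set c : ℝ → M := fun s => Ψ none (7 / 2, 0, s * N.lR) with hcdef
  set v := vel R3 c 0
  have hp2 := hc.imm.isCoveringMap (c 0)
  obtain ⟨L, hL, L0, L1⟩ := exists_lift hp2 hp (η 0) (w₀ := 0) ((g.exp_zero _).trans (h 0).symm)
  have e1 : ∀ s : ℝ, g.exp (c 0) (s • v) = c s := fun s => by
    rw [Metric.exp_smul]
    exact (congrFun hgeo s).symm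
  have e2 := lift_unique hp2 (F₁ := fun s : ℝ => s • v) (F₂ := fun s => L (η s)) (by fun_prop)
    (hL.comp hη) (fun s => by rw [e1, L1, h]) (a₀ := 0) (by simp [L0]) 1
  rw [one_smul, h10, L0] at e2
  have e3 := e1 (1 / 2)
  rw [e2, smul_zero, Metric.exp_zero] at e3
  obtain ⟨-, -, k, hk⟩ := mem_lat.1 ((hG.eq_iff (N.mem_loops _ (by norm_num))
    (N.mem_loops _ (by norm_num))).1 e3.symm).2.2
  have e4 : (1 : ℝ) = 2 * k := by
    refine mul_right_cancel₀ N.lR_pos.ne' ?_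
    simp only [Prod.snd_sub] at hk
    linarith
  have e5 : (1 : ℤ) = 2 * k := by exact_mod_cast e4
  omega

theorem no_npc (hG : GlueOut N.O N.G N.rel g Ψ) (hc : g.NoConj) (g' : Metric R3 M) : ¬ g'.NPC := by
  intro hg'
  have hO : ∀ n : R3, ((max (-5 / 2) (min n.1 (7 / 2)), n.2) : R3) ∈ N.O none := fun n =>
    N.mem_loops _ ⟨lt_max_of_lt_left (by norm_num),
      max_lt (by norm_num) (min_lt_of_right_lt (by norm_num))⟩
  set F : R3 → M := fun n => Ψ none (max (-5 / 2) (min n.1 (7 / 2)), n.2) with hFdef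
  have hF : Continuous F := (hG.cont none).comp_continuous (by fun_prop) hO
  have hp := hg'.imm.isCoveringMap (F 0)
  obtain ⟨Ft, hFt, -, F1⟩ := exists_lift hp hF 0 (w₀ := 0) (g'.exp_zero _)
  have hper : ∀ ℓ ∈ N.latN, ℓ.1 = 0 → ∀ a, g'.exp (F 0) (Ft (a + ℓ)) = g'.exp (F 0) (Ft a) := by
    intro ℓ hℓ h0 a
    rw [F1, F1]
    refine (hG.eq_iff (hO _) (hO _)).2 ⟨hO _, hO _, ?_⟩
    convert hℓ using 1
    exact Prod.ext (by simp [h0]) (by simp)
  obtain ⟨φ, hφ⟩ := exists_deck_translate hp hFt (hper (0, N.lL, 0)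
    (mem_lat.2 ⟨⟨0, by simp⟩, ⟨1, by simp⟩, ⟨0, by simp⟩⟩) rfl)
  obtain ⟨ψ, hψ⟩ := exists_deck_translate hp hFt (hper (0, 0, N.lR)
    (mem_lat.2 ⟨⟨0, by simp⟩, ⟨0, by simp⟩, ⟨1, by simp⟩⟩) rfl)
  have hcomm : Commute φ ψ := deck_ext hp (w := Ft 0) (by
    rw [mul_smul, mul_smul, hψ, hφ, hφ, hψ, add_right_comm])
  have hnb : ∀ b θ z, F (N.nb b θ z) = Ψ none (N.nb b θ z) := by
    rintro (_ | _) θ z <;> simp only [hFdef, nb] <;> norm_num
  have side : ∀ (b : Bool) (σ τ : Deck (g'.exp (F 0))),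
      σ • Ft (N.nb b 0 0) = Ft (N.nb b (2 * π) 0) → τ • Ft (N.nb b 0 0) = Ft (N.nb b 0 (N.len b)) →
      ∃ a a' : Deck (g'.exp (F 0)), Commute τ a ∧ Commute τ a' ∧ σ = a⁻¹ * a'⁻¹ * a * a' := by
    intro b σ τ hσ hτ
    obtain ⟨H, hH, h1, h2, h3, h4, h5, -⟩ := N.exists_square hG b
    obtain ⟨Ht, hHt, H0, H1⟩ := exists_lift hp hH (0, 0, 0) (w₀ := Ft (N.nb b 0 0))
      (by rw [F1, hnb, h5])
    have e : ∀ θ z, Ht (0, θ, z) = Ft (N.nb b θ z) := fun θ z =>
      lift_unique hp (F₁ := fun q : ℝ × ℝ => Ht (0, q.1, q.2)) (F₂ := fun q => Ft (N.nb b q.1 q.2))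
        (by fun_prop) (hFt.comp (by cases b <;> simp only [nb] <;> fun_prop))
        (fun q => by rw [H1, F1, hnb, h5]) (a₀ := (0, 0)) H0 (θ, z)
    exact square_comm hp hHt (l := N.len b) (fun ρ θ z => by rw [H1, H1, h1])
      (fun ρ θ z => by rw [H1, H1, h2]) (fun θ hθ z => by rw [H1, H1, h3 θ hθ])
      (fun θ hθ z => by rw [H1, H1, h4 θ hθ]) (by rw [e, e, hσ]) (by rw [e, e, hτ])
  obtain ⟨a, b, ha, hb, hab⟩ := side false ψ φ (by rw [hψ]; simp [nb, lR])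
    (by rw [hφ]; simp [nb, len])
  obtain ⟨a', b', ha', hb', hab'⟩ := side true (φ * ψ⁻¹) ψ (by
    have e : Ft (N.nb true 0 0) = ψ • Ft (7 / 2, 0, -N.lR) := by rw [hψ]; simp [nb]
    rw [mul_smul, e, inv_smul_smul, hφ, ← N.κ_lL]
    simp [nb, lL]) (by rw [hψ]; simp [nb, len])
  have hne : ψ ≠ 1 := by
    rintro rfl
    refine N.fibre_essential hG hc hp.continuous (η := fun s => Ft (7 / 2, 0, s * N.lR))
      (by fun_prop) (fun s => by rw [F1]; simp only [hFdef]; norm_num) ?_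
    simpa using (hψ (7 / 2, 0, 0)).symm
  obtain ⟨d, d1, d2, d3, d4, d5, d6, δ, hδ, d7⟩ := hg'.exists_dist (F 0)
  exact grp_contra d d1 d2 d3 d4 d5 d6 0 hcomm ha hb hab ha' hb' hab' hδ (d7 ψ hne)

end Neck

end Vale.Agent.P255
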