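import Vale.Agent.P255.ModelRel
import Vale.Agent.P255.NeckChr

/-!
# The gluing maps are local isometries  (TASK)

`rel_iso`: for `none, none` and `some b, some b` take the translation `τ p' = p' - (p - q)`
(`GN` only depends on the first coordinate, `fst_eq_of_latN`); for `none, some b` take
`τ n' = pol b n' - (pol b n - p)` (left alternative), for `some b, none` the right alternative.
The relation holds near the point since `O i` is open, `rad b` is continuous, `mem_O_of_lat`, `pol_mem`.
`pol_iso`: `HasFDerivAt` of `pol b` componentwise; in the left collar `g11 = 1`, `g12 = 0`,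
`g22 = (τL rad)²`, in the right collar `g11 = (τR rad)² + κ²`, `g12 = κ`, `g22 = 1` (`N.left`, `N.right`);
`cos² + sin² = 1`.
-/

namespace Vale.Agent.P255

open scoped ContDiff Topology
open Set Real

theorem loc_G0 {U : Set R3} (hU : IsOpen U) : LocMetric (fun _ : R3 => G0) U := by
  refine ⟨hU, contDiffOn_const, fun _ _ u v => ?_, fun _ _ u hu => ?_⟩
  · rw [G0_apply, G0_apply]
    ring
  · rw [G0_apply]
    by_contra h
    have h1 := mul_self_nonneg u.1
    have h2 := mul_self_nonneg u.2.1
    have h3 := mul_self_nonneg u.2.2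
    exact hu (Prod.ext (mul_self_eq_zero.1 (by linarith))
      (Prod.ext (mul_self_eq_zero.1 (by linarith)) (mul_self_eq_zero.1 (by linarith))))

theorem polar_iso {r a f : R3 → ℝ} {R A F : R3 →L[ℝ] ℝ} {n : R3} (hr : HasFDerivAt r R n)
    (ha : HasFDerivAt a A n) (hf : HasFDerivAt f F n) (u v : R3) :
    G0 (fderiv ℝ (fun n => ((r n * cos (a n), r n * sin (a n), f n) : R3)) n u)
      (fderiv ℝ (fun n => ((r n * cos (a n), r n * sin (a n), f n) : R3)) n v) =
      R u * R v + r n ^ 2 * (A u * A v) + F u * F v := by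
  rw [((hr.fun_mul ha.cos).prodMk ((hr.fun_mul ha.sin).prodMk hf)).fderiv, G0_apply]
  simp only [ContinuousLinearMap.prod_apply, add_apply, smul_apply, smul_eq_mul]
  linear_combination (R u * R v + r n ^ 2 * (A u * A v)) * cos_sq_add_sin_sq (a n)

namespace Neck

variable (N : Neck)

theorem pol_iso {b : Bool} {n : R3} (hn : n ∈ N.O none) (h : N.r0 b < N.rad b n) (u v : R3) :
    N.GN n u v = G0 (fderiv ℝ (N.pol b) n u) (fderiv ℝ (N.pol b) n v) := by
  cases b with
  | false =>
    have hr : 0 < N.rL - (n.1 + 2) := N.rL_pos.trans h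
    obtain ⟨h1, h2, h3⟩ := N.left n.1 ⟨hn.1, by simp only [r0, rad] at h; linarith⟩
    refine Eq.trans ?_ (polar_iso (r := N.rad false) (a := N.ang false) (f := N.fib false)
      (R := -d0) (A := N.τL • d2) (F := d1)
      ((d0.hasFDerivAt.add_const 2).const_sub N.rL) (d2.hasFDerivAt.const_mul N.τL)
      d1.hasFDerivAt u v).symm
    have := N.τL_pos
    rw [GN_apply]
    simp only [g11, g12, g22, h1, h2, h3, rad, d0, d1, d2]
    simp
    field_simp
    ring
  | true =>
    have hr : 0 < N.rR + (n.1 - 3) := N.rR_pos.trans h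
    obtain ⟨h1, h2, h3⟩ := N.right n.1 ⟨by simp only [r0, rad] at h; linarith, hn.2⟩
    refine Eq.trans ?_ (polar_iso (r := N.rad true) (a := N.ang true) (f := N.fib true)
      (R := d0) (A := N.τR • d1) (F := d2 + N.κ • d1)
      ((d0.hasFDerivAt.sub_const 3).const_add N.rR) (d1.hasFDerivAt.const_mul N.τR)
      (d2.hasFDerivAt.add (d1.hasFDerivAt.const_mul N.κ)) u v).symm
    have := N.τR_pos
    have hd : N.α n.1 * N.γ n.1 - N.β n.1 ^ 2 = N.α n.1 := by
      rw [h2, h3]
      ring
    rw [GN_apply]
    simp only [g11, g12, g22, hd]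
    simp only [h1, h2, h3, rad, d0, d1, d2]
    simp
    field_simp
    ring

theorem rel_iso_aux {b : Bool} {n p : R3} (h : N.rel none n (some b) p) :
    LocIso N.G N.rel none n (some b) p := by
  obtain ⟨h1, -, h3, h4⟩ := h
  refine ⟨fun n' => N.pol b n' - (N.pol b n - p), (N.contDiff_pol b).contDiffAt.sub contDiffAt_const,
    by simp, ?_, fun u v => ?_⟩
  · have hc : Continuous (N.rad b) := by
      cases b
      · exact (by fun_prop : Continuous fun n : R3 => N.rL - (n.1 + 2))
      · exact (by fun_prop : Continuous fun n : R3 => N.rR + (n.1 - 3))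
    filter_upwards [(N.isOpen_O none).mem_nhds h1,
      hc.continuousAt.eventually (lt_mem_nhds h3)] with n' k1 k2
    exact ⟨k1, mem_O_of_lat (pol_mem k1 k2) (by simpa using h4), k2, by simpa using h4⟩
  · rw [fderiv_sub_const]
    exact N.pol_iso h1 h3 u v

theorem rel_iso {i : Option Bool} {p : R3} {j : Option Bool} {q : R3} (h : N.rel i p j q) :
    LocIso N.G N.rel i p j q ∨ LocIso N.G N.rel j q i p := by
  rcases i with _ | b <;> rcases j with _ | b'
  · refine Or.inl ⟨fun p' => p' - (p - q), by fun_prop, by simp, ?_, fun u v => ?_⟩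
    · filter_upwards [(N.isOpen_O none).mem_nhds h.1] with p' hp'
      refine ⟨hp', ?_, by simpa using h.2.2⟩
      have := fst_eq_of_latN h.2.2
      simpa [O, this] using hp'
    · have := fst_eq_of_latN h.2.2
      simp only [fderiv_sub_const, fderiv_fun_id, ContinuousLinearMap.id_apply, G, GN, this]
  · exact Or.inl (N.rel_iso_aux h)
  · exact Or.inr (N.rel_iso_aux h)
  · obtain ⟨rfl, h1, h2, h3⟩ := h
    refine Or.inl ⟨fun p' => p' - (p - q), by fun_prop, by simp, ?_, fun u v => ?_⟩
    · filter_upwards [(N.isOpen_O (some b)).mem_nhds h1] with p' hp'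
      exact ⟨rfl, hp', mem_O_of_lat hp' (by simpa using h3), by simpa using h3⟩
    · simp only [fderiv_sub_const, fderiv_fun_id, ContinuousLinearMap.id_apply, G]

theorem glueIn : GlueIn N.O N.G N.rel where
  loc i := by
    cases i with
    | none => exact N.loc_GN
    | some b => exact loc_G0 (N.isOpen_O _)
  mem := rel_mem
  refl := rel_refl
  symm := rel_symm
  trans := rel_trans
  iso := N.rel_iso
  inj := N.rel_inj
  closed := N.rel_closed
  compact := N.rel_compact
  nonempty := ⟨none, 0, by simp [O]⟩

end Neck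

end Vale.Agent.P255
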