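import Vale.Agent.P255.Neck

/-!
# The gluing relation is a closed equivalence relation  (TASK; elementary)

Facts used throughout: for `n ∈ O none`, `rad b n < r0 b + 1`, and `r0 false < rad false n ↔ n.1 < -2`,
`r0 true < rad true n ↔ 3 < n.1`; `per b = 2 r0 b + 4`; `τL lR = 2π`, `τR lL = 2π`, `κ lL = lR`.
`pol_mem`: the point has norm `r = rad ∈ (r0, r0 + 1)`; for `(i,j) ≠ 0` one of its coordinates differs
from `i per`, `j per` by at least `per - r > r0`.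
`pol_sub_mem`: angles change by multiples of `2π` (`Real.cos_add_int_mul_two_pi`).
`sub_mem_of_pol`: the planar parts differ by less than `per` in each coordinate, so they are equal;
then the radii are equal (positive), `cos` and `sin` of the angles agree
(`Real.Angle.cos_sin_inj`, `Real.Angle.angle_eq_iff_two_pi_dvd_sub`), and the heights differ by a
multiple of `len`.
`exists_pol`: polar coordinates (`Complex.arg`, or `polarCoord`) of the planar part.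
`rel_closed`: for `none, some b` take `C = {(n,p) | r0 b ≤ rad b n ∧ pol b n - p ∈ latS b}`; equality
`rad b n = r0 b` contradicts `p ∈ O (some b)`.  For `some b, some b'` with `b ≠ b'` take `C = ∅`.
`rel_compact`: `K none = [-5/2, 7/2] × [0, lL] × [0, lR]`,
`K (some b) = {p ∈ [0,per]² × [0,len] | ∀ i j, (r0 + 1/4)² ≤ (p.1 - i per)² + (p.2.1 - j per)²}`; reduce
modulo the lattices with `Int.floor`/`toIcoMod`.  A neck point with `y ∉ [-5/2,7/2]` has
`rad > r0 + 1/2` and is related to `pol b n` (which satisfies the inequalities); a point of `O (some b)`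
violating an inequality is, after translation, of radius in `(r0, r0 + 1/4)`: use `exists_pol`.
-/

namespace Vale.Agent.P255

open scoped ContDiff Topology
open Set Real

theorem mem_lat {a b c : ℝ} {p : R3} : p ∈ lat a b c ↔
    (∃ i : ℤ, p.1 = i * a) ∧ (∃ j : ℤ, p.2.1 = j * b) ∧ ∃ k : ℤ, p.2.2 = k * c := by
  simp only [lat, AddSubgroup.mem_prod, AddSubgroup.mem_zmultiples_iff, zsmul_eq_mul]
  simp only [eq_comm]

theorem isClosed_lat (a b c : ℝ) : IsClosed (lat a b c : Set R3) := by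
  have h : ∀ a : ℝ, IsClosed (AddSubgroup.zmultiples a : Set ℝ) := fun a =>
    AddSubgroup.isClosed_of_discrete
  simp only [lat, AddSubgroup.coe_prod]
  exact (h a).prod ((h b).prod (h c))

theorem mr_disc (a : ℝ) : ∃ ε > 0, ∀ i : ℤ, |(i : ℝ) * a| < ε → (i : ℝ) * a = 0 := by
  rcases eq_or_ne a 0 with rfl | ha
  · exact ⟨1, one_pos, fun i _ => by simp⟩
  · refine ⟨|a|, abs_pos.2 ha, fun i hi => ?_⟩
    rw [abs_mul] at hi
    have h1 : |(i : ℝ)| < 1 := by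
      by_contra hc
      push Not at hc
      nlinarith [abs_pos.2 ha]
    have h2 : |i| < 1 := by exact_mod_cast h1
    have h3 : i = 0 := Int.abs_lt_one_iff.1 h2
    simp [h3]

theorem mr_sq_le {x P : ℝ} (hP : 2 * |x| ≤ P) (i : ℤ) : x ^ 2 ≤ (x - i * P) ^ 2 := by
  have h0 : 0 ≤ P := le_trans (by positivity) hP
  have hx1 := le_abs_self x
  have hx2 := neg_abs_le x
  rcases lt_trichotomy i 0 with hi | rfl | hi
  · have h1 : (i : ℝ) ≤ -1 := by exact_mod_cast (show i ≤ -1 by omega)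
    have h2 : (i : ℝ) * P ≤ -P := by nlinarith
    nlinarith [mul_nonneg (show 0 ≤ -(i * P) by linarith) (show 0 ≤ 2 * x - i * P by linarith)]
  · simp
  · have h1 : (1 : ℝ) ≤ i := by exact_mod_cast (show 1 ≤ i by omega)
    have h2 : P ≤ (i : ℝ) * P := by nlinarith
    nlinarith [mul_nonneg (show 0 ≤ i * P by linarith) (show 0 ≤ i * P - 2 * x by linarith)]

theorem mr_red {a : ℝ} (ha : 0 < a) (x : ℝ) : ∃ i : ℤ, x - i * a ∈ Icc 0 a := by
  obtain ⟨k, hk, -⟩ := existsUnique_zsmul_near_of_pos' ha x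
  rw [zsmul_eq_mul] at hk
  exact ⟨k, hk.1, hk.2.le⟩

theorem mr_int_zero {P d : ℝ} {i : ℤ} (h : d = i * P) (hd : |d| < P) : i = 0 := by
  have hP : 0 < P := lt_of_le_of_lt (abs_nonneg _) hd
  rw [h, abs_mul, abs_of_pos hP] at hd
  have h1 : |(i : ℝ)| < 1 := by
    by_contra hc
    push Not at hc
    nlinarith
  have h2 : |i| < 1 := by exact_mod_cast h1
  exact Int.abs_lt_one_iff.1 h2

theorem mr_isOpen (P c : ℝ) :
    IsOpen {p : R3 | ∀ i j : ℤ, c < (p.1 - i * P) ^ 2 + (p.2.1 - j * P) ^ 2} := by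
  set Z : Set ℝ := (AddSubgroup.zmultiples P : Set ℝ) with hZ
  have hZc : IsClosed Z := AddSubgroup.isClosed_of_discrete
  have hZn : Z.Nonempty := ⟨0, (AddSubgroup.zmultiples P).zero_mem⟩
  have h1 : ∀ x : ℝ, ∃ i : ℤ, Metric.infDist x Z ^ 2 = (x - i * P) ^ 2 := by
    intro x
    obtain ⟨y, hy, hxy⟩ := hZc.exists_infDist_eq_dist hZn x
    obtain ⟨i, rfl⟩ := AddSubgroup.mem_zmultiples_iff.1 hy
    exact ⟨i, by rw [hxy, Real.dist_eq, sq_abs, zsmul_eq_mul]⟩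
  have h2 : ∀ (x : ℝ) (i : ℤ), Metric.infDist x Z ^ 2 ≤ (x - i * P) ^ 2 := by
    intro x i
    have hm : (i : ℝ) * P ∈ Z := AddSubgroup.mem_zmultiples_iff.2 ⟨i, zsmul_eq_mul _ _⟩
    have := Metric.infDist_le_dist_of_mem (x := x) hm
    rw [Real.dist_eq] at this
    rw [← sq_abs (x - i * P)]
    exact pow_le_pow_left₀ Metric.infDist_nonneg this 2
  have : {p : R3 | ∀ i j : ℤ, c < (p.1 - i * P) ^ 2 + (p.2.1 - j * P) ^ 2} =
      {p : R3 | c < Metric.infDist p.1 Z ^ 2 + Metric.infDist p.2.1 Z ^ 2} := by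
    ext p
    simp only [mem_ofPred_eq]
    constructor
    · intro h
      obtain ⟨i, hi⟩ := h1 p.1
      obtain ⟨j, hj⟩ := h1 p.2.1
      rw [hi, hj]
      exact h i j
    · intro h i j
      linarith [h2 p.1 i, h2 p.2.1 j]
  rw [this]
  have hc := Metric.continuous_infDist_pt Z
  exact isOpen_lt continuous_const
    (((hc.comp continuous_fst).pow 2).add ((hc.comp continuous_snd.fst).pow 2))

theorem lat_discrete (a b c : ℝ) : ∃ ε > 0, ∀ p ∈ lat a b c, ‖p‖ < ε → p = 0 := by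
  obtain ⟨ε₁, h1, H1⟩ := mr_disc a
  obtain ⟨ε₂, h2, H2⟩ := mr_disc b
  obtain ⟨ε₃, h3, H3⟩ := mr_disc c
  refine ⟨min ε₁ (min ε₂ ε₃), by positivity, fun p hp hn => ?_⟩
  obtain ⟨⟨i, hi⟩, ⟨j, hj⟩, ⟨k, hk⟩⟩ := mem_lat.1 hp
  have n1 : |p.1| ≤ ‖p‖ := norm_fst_le p
  have n2 : |p.2.1| ≤ ‖p‖ := (norm_fst_le p.2).trans (norm_snd_le p)
  have n3 : |p.2.2| ≤ ‖p‖ := (norm_snd_le p.2).trans (norm_snd_le p)
  simp only [lt_min_iff] at hn
  have e1 : p.1 = 0 := by rw [hi] at n1 ⊢; exact H1 i (n1.trans_lt hn.1)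
  have e2 : p.2.1 = 0 := by rw [hj] at n2 ⊢; exact H2 j (n2.trans_lt hn.2.1)
  have e3 : p.2.2 = 0 := by rw [hk] at n3 ⊢; exact H3 k (n3.trans_lt hn.2.2)
  exact Prod.ext e1 (Prod.ext e2 e3)

namespace Neck

variable (N : Neck)

theorem lL_pos : 0 < N.lL := by
  exact div_pos Real.two_pi_pos N.τR_pos

theorem lR_pos : 0 < N.lR := by
  exact div_pos Real.two_pi_pos N.τL_pos

theorem κ_lL : N.κ * N.lL = N.lR := by
  have h1 := N.τL_pos
  have h2 := N.τR_pos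
  have h3 := N.κ_mul
  unfold lL lR
  field_simp
  linarith

theorem r0_pos (b : Bool) : 0 < N.r0 b := by
  cases b
  · exact N.rL_pos
  · exact N.rR_pos

theorem τL_lR : N.τL * N.lR = 2 * π := by
  have := N.τL_pos
  unfold lR
  field_simp

theorem τR_lL : N.τR * N.lL = 2 * π := by
  have := N.τR_pos
  unfold lL
  field_simp

theorem per_pos (b : Bool) : 0 < N.per b := by
  have := N.r0_pos b
  unfold per
  linarith

theorem len_pos (b : Bool) : 0 < N.len b := by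
  cases b
  · exact N.lL_pos
  · exact N.lR_pos

theorem continuous_rad (b : Bool) : Continuous (N.rad b) := by
  cases b
  · show Continuous fun n : R3 => N.rL - (n.1 + 2)
    fun_prop
  · show Continuous fun n : R3 => N.rR + (n.1 - 3)
    fun_prop

theorem isOpen_O (i : Option Bool) : IsOpen (N.O i) := by
  cases i with
  | none => exact isOpen_Ioo.preimage continuous_fst
  | some b => exact mr_isOpen _ _

theorem contDiff_pol (b : Bool) : ContDiff ℝ ∞ (N.pol b) := by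
  cases b
  · show ContDiff ℝ ∞ fun n : R3 => ((N.rL - (n.1 + 2)) * cos (N.τL * n.2.2),
      (N.rL - (n.1 + 2)) * sin (N.τL * n.2.2), n.2.1)
    fun_prop
  · show ContDiff ℝ ∞ fun n : R3 => ((N.rR + (n.1 - 3)) * cos (N.τR * n.2.1),
      (N.rR + (n.1 - 3)) * sin (N.τR * n.2.1), n.2.2 + N.κ * n.2.1)
    fun_prop

variable {N}

theorem mr_shift {b : Bool} {p p' : R3} (φ : ℝ → Prop)
    (hp : ∀ i j : ℤ, φ ((p.1 - i * N.per b) ^ 2 + (p.2.1 - j * N.per b) ^ 2))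
    (h : p - p' ∈ N.latS b) (i j : ℤ) :
    φ ((p'.1 - i * N.per b) ^ 2 + (p'.2.1 - j * N.per b) ^ 2) := by
  obtain ⟨⟨i₀, hi⟩, ⟨j₀, hj⟩, -⟩ := mem_lat.1 h
  simp only [Prod.fst_sub, Prod.snd_sub] at hi hj
  have e1 : p'.1 - i * N.per b = p.1 - ((i + i₀ : ℤ) : ℝ) * N.per b := by
    push_cast; linarith
  have e2 : p'.2.1 - j * N.per b = p.2.1 - ((j + j₀ : ℤ) : ℝ) * N.per b := by
    push_cast; linarith
  rw [e1, e2]
  exact hp _ _

theorem rad_lt {b : Bool} {n : R3} (hn : n ∈ N.O none) : N.rad b n < N.r0 b + 1 := by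
  obtain ⟨h1, h2⟩ : -3 < n.1 ∧ n.1 < 4 := hn
  cases b
  · show N.rL - (n.1 + 2) < N.rL + 1
    linarith
  · show N.rR + (n.1 - 3) < N.rR + 1
    linarith

theorem rad_congr (b : Bool) {n n' : R3} (h : n.1 = n'.1) : N.rad b n = N.rad b n' := by
  cases b <;> simp [rad, h]

theorem pol_sq (b : Bool) (n : R3) :
    (N.pol b n).1 ^ 2 + (N.pol b n).2.1 ^ 2 = N.rad b n ^ 2 := by
  simp only [pol]
  nlinarith [Real.cos_sq_add_sin_sq (N.ang b n)]

theorem pol_abs {b : Bool} {n : R3} (h : 0 ≤ N.rad b n) :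
    |(N.pol b n).1| ≤ N.rad b n ∧ |(N.pol b n).2.1| ≤ N.rad b n := by
  have h1 := N.pol_sq b n
  constructor
  · exact abs_le_of_sq_le_sq (by nlinarith [sq_nonneg (N.pol b n).2.1]) h
  · exact abs_le_of_sq_le_sq (by nlinarith [sq_nonneg (N.pol b n).1]) h

theorem pol_far {b : Bool} {n : R3} (hn : n ∈ N.O none) (h : 0 ≤ N.rad b n) (i j : ℤ) :
    N.rad b n ^ 2 ≤ ((N.pol b n).1 - i * N.per b) ^ 2 + ((N.pol b n).2.1 - j * N.per b) ^ 2 := by
  have h1 := N.pol_sq b n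
  obtain ⟨h2, h3⟩ := pol_abs h
  have h4 := rad_lt (b := b) hn
  have h5 : N.per b = 2 * N.r0 b + 4 := rfl
  have h6 := mr_sq_le (x := (N.pol b n).1) (P := N.per b) (by linarith) i
  have h7 := mr_sq_le (x := (N.pol b n).2.1) (P := N.per b) (by linarith) j
  linarith

theorem side_eq {b b' : Bool} {n : R3} (h : N.r0 b < N.rad b n) (h' : N.r0 b' < N.rad b' n) :
    b = b' := by
  cases b <;> cases b'
  · rfl
  · exfalso
    have h1 : N.rL < N.rL - (n.1 + 2) := h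
    have h2 : N.rR < N.rR + (n.1 - 3) := h'
    linarith
  · exfalso
    have h1 : N.rL < N.rL - (n.1 + 2) := h'
    have h2 : N.rR < N.rR + (n.1 - 3) := h
    linarith
  · rfl

theorem mem_O_of_lat {b : Bool} {p p' : R3} (hp : p ∈ N.O (some b)) (h : p - p' ∈ N.latS b) :
    p' ∈ N.O (some b) := by
  exact mr_shift (fun t => N.r0 b ^ 2 < t) hp h

theorem fst_eq_of_latN {n n' : R3} (h : n - n' ∈ N.latN) : n.1 = n'.1 := by
  obtain ⟨⟨i, hi⟩, -⟩ := mem_lat.1 h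
  simp only [Prod.fst_sub, mul_zero] at hi
  linarith

theorem pol_mem {b : Bool} {n : R3} (hn : n ∈ N.O none) (h : N.r0 b < N.rad b n) :
    N.pol b n ∈ N.O (some b) := by
  intro i j
  have h0 := N.r0_pos b
  have h1 := pol_far hn (h0.trans h).le i j
  nlinarith

theorem pol_sub_mem (b : Bool) {n n' : R3} (h : n - n' ∈ N.latN) :
    N.pol b n - N.pol b n' ∈ N.latS b := by
  have h0 := rad_congr (N := N) b (fst_eq_of_latN h)
  obtain ⟨-, ⟨j, hj⟩, ⟨k, hk⟩⟩ := mem_lat.1 h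
  simp only [Prod.fst_sub, Prod.snd_sub] at hj hk
  have ha : ∃ m : ℤ, N.ang b n = N.ang b n' + m * (2 * π) := by
    cases b
    · refine ⟨k, ?_⟩
      show N.τL * n.2.2 = N.τL * n'.2.2 + k * (2 * π)
      rw [← N.τL_lR]
      linear_combination N.τL * hk
    · refine ⟨j, ?_⟩
      show N.τR * n.2.1 = N.τR * n'.2.1 + j * (2 * π)
      rw [← N.τR_lL]
      linear_combination N.τR * hj
  have hf : ∃ m : ℤ, N.fib b n - N.fib b n' = m * N.len b := by
    cases b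
    · exact ⟨j, hj⟩
    · refine ⟨k + j, ?_⟩
      show n.2.2 + N.κ * n.2.1 - (n'.2.2 + N.κ * n'.2.1) = ((k + j : ℤ) : ℝ) * N.lR
      push_cast
      linear_combination hk + N.κ * hj + j * N.κ_lL
  obtain ⟨m, hm⟩ := ha
  refine mem_lat.2 ⟨⟨0, ?_⟩, ⟨0, ?_⟩, hf⟩
  · simp [pol, h0, hm, Real.cos_add_int_mul_two_pi]
  · simp [pol, h0, hm, Real.sin_add_int_mul_two_pi]

theorem sub_mem_of_pol {b : Bool} {n n' : R3} (hn : n ∈ N.O none) (hn' : n' ∈ N.O none)
    (h : N.r0 b < N.rad b n) (h' : N.r0 b < N.rad b n') (hp : N.pol b n - N.pol b n' ∈ N.latS b) :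
    n - n' ∈ N.latN := by
  have h0 := N.r0_pos b
  have hr : 0 < N.rad b n := h0.trans h
  have hr' : 0 < N.rad b n' := h0.trans h'
  obtain ⟨⟨i, hi⟩, ⟨j, hj⟩, ⟨k, hk⟩⟩ := mem_lat.1 hp
  simp only [Prod.fst_sub, Prod.snd_sub] at hi hj hk
  obtain ⟨a1, a2⟩ := pol_abs hr.le
  obtain ⟨a3, a4⟩ := pol_abs hr'.le
  have l1 := rad_lt (b := b) hn
  have l2 := rad_lt (b := b) hn'
  have h5 : N.per b = 2 * N.r0 b + 4 := rfl
  have hi0 : i = 0 := mr_int_zero hi (lt_of_le_of_lt (abs_sub _ _) (by linarith))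
  have hj0 : j = 0 := mr_int_zero hj (lt_of_le_of_lt (abs_sub _ _) (by linarith))
  simp only [hi0, hj0, Int.cast_zero, zero_mul, sub_eq_zero] at hi hj
  have hrr : N.rad b n = N.rad b n' := by
    have e := N.pol_sq b n
    rw [hi, hj, N.pol_sq b n'] at e
    exact (pow_left_inj₀ hr'.le hr.le two_ne_zero).1 e |>.symm
  simp only [pol, hrr] at hi hj hk
  have hc := mul_left_cancel₀ hr'.ne' hi
  have hs := mul_left_cancel₀ hr'.ne' hj
  obtain ⟨m, hm⟩ := Real.Angle.angle_eq_iff_two_pi_dvd_sub.1 (Real.Angle.cos_sin_inj hc hs)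
  cases b
  · have e1 : N.rL - (n.1 + 2) = N.rL - (n'.1 + 2) := hrr
    have e2 : N.τL * n.2.2 - N.τL * n'.2.2 = 2 * π * m := hm
    refine mem_lat.2 ⟨⟨0, ?_⟩, ⟨k, hk⟩, ⟨m, ?_⟩⟩
    · simp only [Prod.fst_sub, mul_zero]
      linarith
    · simp only [Prod.snd_sub]
      apply mul_left_cancel₀ N.τL_pos.ne'
      linear_combination e2 - m * N.τL_lR
  · have e1 : N.rR + (n.1 - 3) = N.rR + (n'.1 - 3) := hrr
    have e2 : N.τR * n.2.1 - N.τR * n'.2.1 = 2 * π * m := hm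
    have e3 : n.2.2 + N.κ * n.2.1 - (n'.2.2 + N.κ * n'.2.1) = k * N.lR := hk
    have e4 : n.2.1 - n'.2.1 = m * N.lL := by
      apply mul_left_cancel₀ N.τR_pos.ne'
      linear_combination e2 - m * N.τR_lL
    refine mem_lat.2 ⟨⟨0, ?_⟩, ⟨m, e4⟩, ⟨k - m, ?_⟩⟩
    · simp only [Prod.fst_sub, mul_zero]
      linarith
    · simp only [Prod.snd_sub]
      push_cast
      linear_combination e3 - N.κ * e4 - m * N.κ_lL

theorem exists_pol {b : Bool} {p : R3} {r : ℝ} (hr : N.r0 b < r) (hr' : r < N.r0 b + 1)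
    (hp : p.1 ^ 2 + p.2.1 ^ 2 = r ^ 2) : ∃ n ∈ N.O none, N.rad b n = r ∧ N.pol b n = p := by
  have h0 := N.r0_pos b
  obtain ⟨θ, hc, hs⟩ : ∃ θ : ℝ, r * cos θ = p.1 ∧ r * sin θ = p.2.1 := by
    have hz : ‖(⟨p.1, p.2.1⟩ : ℂ)‖ = r := by
      rw [Complex.norm_eq_sqrt_sq_add_sq]
      show √(p.1 ^ 2 + p.2.1 ^ 2) = r
      rw [hp, Real.sqrt_sq (h0.trans hr).le]
    refine ⟨Complex.arg ⟨p.1, p.2.1⟩, ?_, ?_⟩
    · rw [← hz]; exact Complex.norm_mul_cos_arg _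
    · rw [← hz]; exact Complex.norm_mul_sin_arg _
  cases b
  · have e1 : N.rL < r := hr
    have e2 : r < N.rL + 1 := hr'
    have e3 : N.rad false (N.rL - 2 - r, p.2.2, θ / N.τL) = r := by
      show N.rL - (N.rL - 2 - r + 2) = r
      ring
    have e4 : N.ang false (N.rL - 2 - r, p.2.2, θ / N.τL) = θ := by
      show N.τL * (θ / N.τL) = θ
      exact mul_div_cancel₀ _ N.τL_pos.ne'
    refine ⟨(N.rL - 2 - r, p.2.2, θ / N.τL), ⟨by linarith, by linarith⟩, e3, ?_⟩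
    simp only [pol, e3, e4, hc, hs]
    rfl
  · have e1 : N.rR < r := hr
    have e2 : r < N.rR + 1 := hr'
    have e3 : N.rad true (r - N.rR + 3, θ / N.τR, p.2.2 - N.κ * (θ / N.τR)) = r := by
      show N.rR + (r - N.rR + 3 - 3) = r
      ring
    have e4 : N.ang true (r - N.rR + 3, θ / N.τR, p.2.2 - N.κ * (θ / N.τR)) = θ := by
      show N.τR * (θ / N.τR) = θ
      exact mul_div_cancel₀ _ N.τR_pos.ne'
    have e5 : N.fib true (r - N.rR + 3, θ / N.τR, p.2.2 - N.κ * (θ / N.τR)) = p.2.2 := by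
      show p.2.2 - N.κ * (θ / N.τR) + N.κ * (θ / N.τR) = p.2.2
      ring
    refine ⟨(r - N.rR + 3, θ / N.τR, p.2.2 - N.κ * (θ / N.τR)), ⟨by linarith, by linarith⟩, e3, ?_⟩
    simp only [pol, e3, e4, e5, hc, hs]

theorem rel_mem {i : Option Bool} {p : R3} {j : Option Bool} {q : R3} (h : N.rel i p j q) :
    p ∈ N.O i ∧ q ∈ N.O j := by
  cases i <;> cases j
  · exact ⟨h.1, h.2.1⟩
  · exact ⟨h.1, h.2.1⟩
  · exact ⟨h.2.1, h.1⟩
  · obtain ⟨rfl, h1, h2, -⟩ := h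
    exact ⟨h1, h2⟩

theorem rel_refl {i : Option Bool} {p : R3} (h : p ∈ N.O i) : N.rel i p i p := by
  cases i with
  | none => exact ⟨h, h, by rw [sub_self]; exact zero_mem _⟩
  | some b => exact ⟨rfl, h, h, by rw [sub_self]; exact zero_mem _⟩

theorem rel_symm {i : Option Bool} {p : R3} {j : Option Bool} {q : R3} (h : N.rel i p j q) :
    N.rel j q i p := by
  cases i <;> cases j
  · exact ⟨h.2.1, h.1, by rw [← neg_sub]; exact neg_mem h.2.2⟩
  · exact h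
  · exact h
  · obtain ⟨rfl, h1, h2, h3⟩ := h
    exact ⟨rfl, h2, h1, by rw [← neg_sub]; exact neg_mem h3⟩

theorem rel_trans {i : Option Bool} {p : R3} {j : Option Bool} {q : R3} {k : Option Bool} {s : R3}
    (h : N.rel i p j q) (h' : N.rel j q k s) : N.rel i p k s := by
  rcases i with _ | b₁ <;> rcases j with _ | b₂ <;> rcases k with _ | b₃
  · refine ⟨h.1, h'.2.1, ?_⟩
    rw [← sub_add_sub_cancel p q s]
    exact add_mem h.2.2 h'.2.2
  · obtain ⟨h1, h2, h3⟩ := h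
    obtain ⟨-, h4, h5, h6⟩ := h'
    refine ⟨h1, h4, by rw [rad_congr b₃ (fst_eq_of_latN h3)]; exact h5, ?_⟩
    rw [← sub_add_sub_cancel _ (N.pol b₃ q) s]
    exact add_mem (pol_sub_mem b₃ h3) h6
  · obtain ⟨h1, h2, h3, h4⟩ := h
    obtain ⟨h5, -, h6, h7⟩ := h'
    refine ⟨h1, h5, sub_mem_of_pol h1 h5 h3 h6 ?_⟩
    rw [← sub_sub_sub_cancel_right _ _ q]
    exact sub_mem h4 h7
  · obtain ⟨h1, h2, h3, h4⟩ := h
    obtain ⟨rfl, -, h6, h7⟩ := h'
    refine ⟨h1, h6, h3, ?_⟩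
    rw [← sub_add_sub_cancel _ q s]
    exact add_mem h4 h7
  · obtain ⟨h1, h2, h3, h4⟩ := h
    obtain ⟨-, h5, h6⟩ := h'
    refine ⟨h5, h2, by rw [← rad_congr b₁ (fst_eq_of_latN h6)]; exact h3, ?_⟩
    rw [← sub_sub_sub_cancel_left _ _ (N.pol b₁ q)]
    exact sub_mem h4 (pol_sub_mem b₁ h6)
  · obtain ⟨h1, h2, h3, h4⟩ := h
    obtain ⟨-, h5, h6, h7⟩ := h'
    obtain rfl := side_eq h3 h6
    refine ⟨rfl, h2, h5, ?_⟩
    rw [← sub_sub_sub_cancel_left _ _ (N.pol b₁ q)]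
    exact sub_mem h7 h4
  · obtain ⟨rfl, h1, h2, h3⟩ := h
    obtain ⟨h4, -, h5, h6⟩ := h'
    refine ⟨h4, h1, h5, ?_⟩
    rw [← sub_sub_sub_cancel_right _ _ q]
    exact sub_mem h6 h3
  · obtain ⟨rfl, h1, h2, h3⟩ := h
    obtain ⟨rfl, -, h5, h6⟩ := h'
    refine ⟨rfl, h1, h5, ?_⟩
    rw [← sub_add_sub_cancel p q s]
    exact add_mem h3 h6

variable (N)

theorem rel_inj (i : Option Bool) (p : R3) :
    ∃ ε > 0, ∀ p' ∈ Metric.ball p ε, ∀ p'' ∈ Metric.ball p ε, N.rel i p' i p'' → p' = p'' := by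
  have key : ∀ a b c : ℝ, ∃ ε > 0, ∀ p' ∈ Metric.ball p ε, ∀ p'' ∈ Metric.ball p ε,
      p' - p'' ∈ lat a b c → p' = p'' := by
    intro a b c
    obtain ⟨ε, hε, H⟩ := lat_discrete a b c
    refine ⟨ε / 2, half_pos hε, fun p' h' p'' h'' hl => sub_eq_zero.1 (H _ hl ?_)⟩
    rw [← dist_eq_norm]
    have := dist_triangle_right p' p'' p
    rw [Metric.mem_ball] at h' h''
    linarith
  cases i with
  | none =>
    obtain ⟨ε, hε, H⟩ := key 0 N.lL N.lR
    exact ⟨ε, hε, fun p' h' p'' h'' hr => H p' h' p'' h'' hr.2.2⟩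
  | some b =>
    obtain ⟨ε, hε, H⟩ := key (N.per b) (N.per b) (N.len b)
    exact ⟨ε, hε, fun p' h' p'' h'' hr => H p' h' p'' h'' hr.2.2.2⟩

theorem rel_closed (i j : Option Bool) : ∃ C : Set (R3 × R3), IsClosed C ∧
    ∀ p ∈ N.O i, ∀ q ∈ N.O j, N.rel i p j q ↔ (p, q) ∈ C := by
  have hC : ∀ b, IsClosed {x : R3 × R3 | N.r0 b ≤ N.rad b x.1 ∧ N.pol b x.1 - x.2 ∈ N.latS b} :=
    fun b => (isClosed_le continuous_const ((N.continuous_rad b).comp continuous_fst)).inter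
      ((isClosed_lat _ _ _).preimage
        (((N.contDiff_pol b).continuous.comp continuous_fst).sub continuous_snd))
  have hlt : ∀ b n p, p ∈ N.O (some b) → N.r0 b ≤ N.rad b n → N.pol b n - p ∈ N.latS b →
      N.r0 b < N.rad b n := by
    intro b n p hp h1 h2
    have h3 : N.pol b n ∈ N.O (some b) := mem_O_of_lat hp (by rw [← neg_sub]; exact neg_mem h2)
    have h4 := h3 0 0
    simp only [Int.cast_zero, zero_mul, sub_zero, N.pol_sq] at h4
    exact lt_of_le_of_ne h1 fun he => by rw [he] at h4; exact lt_irrefl _ h4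
  rcases i with _ | b <;> rcases j with _ | b'
  · exact ⟨{x | x.1 - x.2 ∈ N.latN},
      (isClosed_lat _ _ _).preimage (continuous_fst.sub continuous_snd),
      fun p hp q hq => ⟨fun h => h.2.2, fun h => ⟨hp, hq, h⟩⟩⟩
  · exact ⟨_, hC b', fun p hp q hq => ⟨fun h => ⟨h.2.2.1.le, h.2.2.2⟩,
      fun h => ⟨hp, hq, hlt b' p q hq h.1 h.2, h.2⟩⟩⟩
  · exact ⟨_, (hC b).preimage continuous_swap, fun p hp q hq => ⟨fun h => ⟨h.2.2.1.le, h.2.2.2⟩,
      fun h => ⟨hq, hp, hlt b q p hp h.1 h.2, h.2⟩⟩⟩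
  · by_cases hb : b = b'
    · subst hb
      exact ⟨{x | x.1 - x.2 ∈ N.latS b},
        (isClosed_lat _ _ _).preimage (continuous_fst.sub continuous_snd),
        fun p hp q hq => ⟨fun h => h.2.2.2, fun h => ⟨rfl, hp, hq, h⟩⟩⟩
    · exact ⟨∅, isClosed_empty, fun p _ q _ => ⟨fun h => hb h.1, fun h => h.elim⟩⟩

theorem mr_box {n : R3} (hn : n ∈ N.O none) : ∃ n' : R3, n'.1 = n.1 ∧ n'.2.1 ∈ Icc 0 N.lL ∧
    n'.2.2 ∈ Icc 0 N.lR ∧ N.rel none n none n' := by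
  obtain ⟨j, hj⟩ := mr_red N.lL_pos n.2.1
  obtain ⟨k, hk⟩ := mr_red N.lR_pos n.2.2
  refine ⟨(n.1, n.2.1 - j * N.lL, n.2.2 - k * N.lR), rfl, hj, hk, hn, hn, ?_⟩
  exact mem_lat.2 ⟨⟨0, by simp⟩, ⟨j, by simp⟩, ⟨k, by simp⟩⟩

/-- The compact cores of the pieces. -/
def mrK : Option Bool → Set R3
  | none => Icc (-5 / 2 : ℝ) (7 / 2) ×ˢ Icc 0 N.lL ×ˢ Icc 0 N.lR
  | some b => (Icc 0 (N.per b) ×ˢ Icc 0 (N.per b) ×ˢ Icc 0 (N.len b)) ∩
      {p | ∀ i j : ℤ, (N.r0 b + 1 / 4) ^ 2 ≤ (p.1 - i * N.per b) ^ 2 + (p.2.1 - j * N.per b) ^ 2}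

theorem mr_memO {b : Bool} {p : R3}
    (hp : ∀ i j : ℤ, (N.r0 b + 1 / 4) ^ 2 ≤ (p.1 - i * N.per b) ^ 2 + (p.2.1 - j * N.per b) ^ 2) :
    p ∈ N.O (some b) := by
  intro i j
  have := N.r0_pos b
  nlinarith [hp i j]

theorem mr_KN {n : R3} (hn : n ∈ N.O none) (h : n.1 ∈ Icc (-5 / 2 : ℝ) (7 / 2)) :
    ∃ q ∈ N.mrK none, N.rel none n none q := by
  obtain ⟨n', h1, h2, h3, h4⟩ := N.mr_box hn
  exact ⟨n', ⟨by rw [h1]; exact h, h2, h3⟩, h4⟩

theorem mr_KS {b : Bool} {p : R3}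
    (hp : ∀ i j : ℤ, (N.r0 b + 1 / 4) ^ 2 ≤ (p.1 - i * N.per b) ^ 2 + (p.2.1 - j * N.per b) ^ 2) :
    ∃ q ∈ N.mrK (some b), N.rel (some b) p (some b) q := by
  obtain ⟨i, hi⟩ := mr_red (N.per_pos b) p.1
  obtain ⟨j, hj⟩ := mr_red (N.per_pos b) p.2.1
  obtain ⟨k, hk⟩ := mr_red (N.len_pos b) p.2.2
  have hl : p - (p.1 - i * N.per b, p.2.1 - j * N.per b, p.2.2 - k * N.len b) ∈ N.latS b :=
    mem_lat.2 ⟨⟨i, by simp⟩, ⟨j, by simp⟩, ⟨k, by simp⟩⟩
  have hq := mr_shift (fun t => (N.r0 b + 1 / 4) ^ 2 ≤ t) hp hl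
  exact ⟨_, ⟨⟨hi, hj, hk⟩, hq⟩, rfl, N.mr_memO hp, N.mr_memO hq, hl⟩

theorem rel_compact : ∃ K : Option Bool → Set R3, (∀ i, IsCompact (K i) ∧ K i ⊆ N.O i) ∧
    ∀ i, ∀ p ∈ N.O i, ∃ j, ∃ q ∈ K j, N.rel i p j q := by
  refine ⟨N.mrK, fun i => ?_, fun i p hp => ?_⟩
  · cases i with
    | none =>
      refine ⟨isCompact_Icc.prod (isCompact_Icc.prod isCompact_Icc), fun n hn => ?_⟩
      obtain ⟨⟨h1, h2⟩, -⟩ := hn
      exact ⟨by linarith, by linarith⟩
    | some b =>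
      refine ⟨(isCompact_Icc.prod (isCompact_Icc.prod isCompact_Icc)).inter_right ?_,
        fun p hp => N.mr_memO hp.2⟩
      simp only [ofPred_forall]
      exact isClosed_iInter fun i => isClosed_iInter fun j =>
        isClosed_le continuous_const (by fun_prop)
  · cases i with
    | none =>
      by_cases h : p.1 ∈ Icc (-5 / 2 : ℝ) (7 / 2)
      · exact ⟨none, N.mr_KN hp h⟩
      · obtain ⟨b, hb⟩ : ∃ b, N.r0 b + 1 / 4 < N.rad b p := by
          rw [mem_Icc, not_and_or, not_le, not_le] at h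
          rcases h with h | h
          · exact ⟨false, show N.rL + 1 / 4 < N.rL - (p.1 + 2) by linarith⟩
          · exact ⟨true, show N.rR + 1 / 4 < N.rR + (p.1 - 3) by linarith⟩
        have h0 := N.r0_pos b
        obtain ⟨q, hq, hr⟩ := N.mr_KS (b := b) (p := N.pol b p) fun i j =>
          le_trans (by nlinarith) (pol_far hp (by linarith) i j)
        refine ⟨some b, q, hq, rel_trans (j := some b) (q := N.pol b p) ?_ hr⟩
        exact ⟨hp, (rel_mem hr).1, by linarith, by rw [sub_self]; exact zero_mem _⟩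
    | some b =>
      by_cases h : ∀ i j : ℤ,
          (N.r0 b + 1 / 4) ^ 2 ≤ (p.1 - i * N.per b) ^ 2 + (p.2.1 - j * N.per b) ^ 2
      · exact ⟨some b, N.mr_KS h⟩
      · push Not at h
        obtain ⟨i, j, hij⟩ := h
        have h0 := N.r0_pos b
        have h1 := hp i j
        set r := √((p.1 - i * N.per b) ^ 2 + (p.2.1 - j * N.per b) ^ 2) with hr
        have h2 : N.r0 b < r := Real.lt_sqrt_of_sq_lt h1
        have h3 : r < N.r0 b + 1 / 4 := (Real.sqrt_lt' (by linarith)).2 hij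
        obtain ⟨n, hn, hn1, hn2⟩ := exists_pol (N := N) (b := b)
          (p := (p.1 - i * N.per b, p.2.1 - j * N.per b, p.2.2)) (r := r) h2 (by linarith)
          (Real.sq_sqrt (by positivity)).symm
        have h4 : n.1 ∈ Icc (-5 / 2 : ℝ) (7 / 2) := by
          rw [← hn1] at h2 h3
          cases b
          · have e1 : N.rL < N.rL - (n.1 + 2) := h2
            have e2 : N.rL - (n.1 + 2) < N.rL + 1 / 4 := h3
            exact ⟨by linarith, by linarith⟩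
          · have e1 : N.rR < N.rR + (n.1 - 3) := h2
            have e2 : N.rR + (n.1 - 3) < N.rR + 1 / 4 := h3
            exact ⟨by linarith, by linarith⟩
        obtain ⟨q, hq, hrel⟩ := N.mr_KN hn h4
        refine ⟨none, q, hq, rel_trans (j := none) (q := n) ?_ hrel⟩
        refine ⟨hn, hp, by rw [hn1]; exact h2, ?_⟩
        rw [hn2]
        exact mem_lat.2 ⟨⟨-i, by simp⟩, ⟨-j, by simp⟩, ⟨0, by simp⟩⟩

/-- Reduction of neck points to a compact box. -/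
theorem exists_box {n : R3} (hn : n ∈ N.O none) : ∃ n' : R3, n'.1 = n.1 ∧ n'.2.1 ∈ Icc 0 N.lL ∧
    n'.2.2 ∈ Icc 0 N.lR ∧ N.rel none n none n' := by
  exact N.mr_box hn

end Neck

end Vale.Agent.P255
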