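import Vale.Agent.P255.NeckUp
import Vale.Agent.P255.ModelRel
import Vale.Agent.P255.Jac

/-!
# The glued metric has no conjugate points
-/

namespace Vale.Agent.P255

open scoped ContDiff Topology Manifold
open Set Real

namespace Metric

variable {E M : Type*} [NormedAddCommGroup E] [NormedSpace ℝ E] [FiniteDimensional ℝ E]
  [TopologicalSpace M] [ChartedSpace E M] [IsManifold 𝓘(ℝ, E) ∞ M]
  {g : Metric E M} {γ : ℝ → M} {s : Set ℝ} {J : OpenPartialHomeomorph M E → ℝ → E}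
  {e : OpenPartialHomeomorph M E}

/-- `g(J, J')`. -/
noncomputable def lq (g : Metric E M) (γ : ℝ → M) (J : OpenPartialHomeomorph M E → ℝ → E)
    (t : ℝ) : ℝ := deriv (g.nsq γ J) t / 2

theorem IsJacobi.lq_eq (hJ : g.IsJacobi γ s J) (hγ : g.IsGeodesic γ s) (hs : IsOpen s)
    (he : e ∈ atlas E M) {t : ℝ} (ht : t ∈ s) (hx : γ t ∈ e.source) :
    g.lq γ J t = g.g e (e (γ t)) (J e t) (g.cov γ e (J e) t) := by
  rw [lq, (hJ.hasDerivAt_nsq hγ hs he ht hx).deriv]; ring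

theorem IsJacobi.hasDerivAt_lq (hJ : g.IsJacobi γ s J) (hγ : g.IsGeodesic γ s) (hs : IsOpen s)
    (he : e ∈ atlas E M) {t : ℝ} (ht : t ∈ s) (hx : γ t ∈ e.source) :
    HasDerivAt (g.lq γ J) (g.g e (e (γ t)) (g.cov γ e (J e) t) (g.cov γ e (J e) t) - g.g e (e (γ t))
      (riem (g.g e) (e (γ t)) (J e t) (deriv (e ∘ γ) t) (deriv (e ∘ γ) t)) (J e t)) t := by
  have := (hJ.hasDerivAt_deriv_nsq hγ hs he ht hx).div_const 2
  rwa [mul_div_cancel_left₀ _ (two_ne_zero' ℝ)] at this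

theorem IsJacobi.lq_differentiable (hJ : g.IsJacobi γ s J) (hγ : g.IsGeodesic γ s) (hs : IsOpen s)
    {t : ℝ} (ht : t ∈ s) : HasDerivAt (g.lq γ J) (deriv (g.lq γ J) t) t :=
  (hJ.hasDerivAt_lq hγ hs (chart_mem_atlas E (γ t)) ht
    (mem_chart_source E _)).differentiableAt.hasDerivAt

theorem IsJacobi.lq_pos (hJ : g.IsJacobi γ s J) (hγ : g.IsGeodesic γ s) (hs : IsOpen s)
    (he : e ∈ atlas E M) {t : ℝ} (ht : t ∈ s) (hx : γ t ∈ e.source) (h0 : J e t = 0)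
    (h1 : deriv (J e) t ≠ 0) : 0 < deriv (g.lq γ J) t := by
  rw [(hJ.hasDerivAt_lq hγ hs he ht hx).deriv]
  have hc : g.cov γ e (J e) t = deriv (J e) t := by
    rw [cov, h0, ← chrL_apply, map_zero, add_zero]
  rw [hc, h0, map_zero, sub_zero]
  exact g.pos e he _ (e.map_source hx) _ h1

theorem IsJacobi.lq_flat (hJ : g.IsJacobi γ s J) (hγ : g.IsGeodesic γ s) (hs : IsOpen s)
    (he : e ∈ atlas E M) {t : ℝ} (ht : t ∈ s) (hx : γ t ∈ e.source) {B : E →L[ℝ] E →L[ℝ] ℝ}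
    (hB : EqOn (g.g e) (fun _ => B) e.target) : 0 ≤ deriv (g.lq γ J) t := by
  rw [(hJ.hasDerivAt_lq hγ hs he ht hx).deriv]
  have h : g.g e =ᶠ[𝓝 (e (γ t))] fun _ => B :=
    hB.eventuallyEq_of_mem (e.open_target.mem_nhds (e.map_source hx))
  rw [riem_congr h, riem_const, map_zero, zero_apply, sub_zero]
  exact (g.loc he).nonneg (e.map_source hx) _

omit [FiniteDimensional ℝ E] [IsManifold 𝓘(ℝ, E) ∞ M] in
theorem IsJacobi.zero_chart (hJ : g.IsJacobi γ s J) (he : e ∈ atlas E M) {t : ℝ} (ht : t ∈ s)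
    (hx : γ t ∈ e.source) (h0 : J (chartAt E (γ t)) t = 0) : J e t = 0 := by
  rw [hJ.1 _ (chart_mem_atlas E (γ t)) e he t ht (mem_chart_source E _) hx, h0, map_zero]

end Metric

namespace Neck

variable (N : Neck) {M : Type} [TopologicalSpace M] [ChartedSpace R3 M]
  {g : Metric R3 M} {Ψ : Option Bool → R3 → M} {e e' : OpenPartialHomeomorph M R3}
  {γ : ℝ → M} {s : Set ℝ} {J : OpenPartialHomeomorph M R3 → ℝ → R3}

/-- Neck charts. -/
def NC (g : Metric R3 M) (Ψ : Option Bool → R3 → M) (e : OpenPartialHomeomorph M R3) : Prop :=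
  e ∈ atlas R3 M ∧ e.target ⊆ N.O none ∧ EqOn e.symm (Ψ none) e.target ∧
    EqOn (g.g e) N.GN e.target

variable {N}

theorem NC.apply (he : N.NC g Ψ e) {z : M} (hz : z ∈ e.source) : Ψ none (e z) = z := by
  rw [← he.2.2.1 (e.map_source hz), e.left_inv hz]

theorem exists_NC (hG : GlueOut N.O N.G N.rel g Ψ) {n : R3} (hn : n ∈ N.O none) :
    ∃ e, N.NC g Ψ e ∧ Ψ none n ∈ e.source := by
  obtain ⟨e, he, hn', hO, h1, h2⟩ := hG.chart none n hn
  exact ⟨e, ⟨he, hO, h1, h2⟩, h1 hn' ▸ e.map_target hn'⟩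

theorem tr_eventually (hG : GlueOut N.O N.G N.rel g Ψ) (he : N.NC g Ψ e) (he' : N.NC g Ψ e')
    {z : M} (hz : z ∈ e.source) (hz' : z ∈ e'.source) :
    (e z).1 = (e' z).1 ∧ (e' ∘ e.symm) =ᶠ[𝓝 (e z)] fun p => p - (e z - e' z) := by
  have key : ∀ x ∈ e.source, x ∈ e'.source → e x - e' x ∈ N.latN := fun x hx hx' => by
    have h1 := he.2.1 (e.map_source hx)
    have h2 := he'.2.1 (e'.map_source hx')
    exact ((hG.eq_iff h1 h2).1 ((he.apply hx).trans (he'.apply hx').symm)).2.2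
  refine ⟨fst_eq_of_latN (key z hz hz'), ?_⟩
  obtain ⟨ε, hε, hd⟩ := lat_discrete 0 N.lL N.lR
  have c1 : ContinuousAt e.symm (e z) := e.continuousAt_symm (e.map_source hz)
  have c2 : ContinuousAt (e' ∘ e.symm) (e z) :=
    ContinuousAt.comp (by rw [e.left_inv hz]; exact e'.continuousAt hz') c1
  have c3 : ContinuousAt (fun p => ‖p - (e' ∘ e.symm) p - (e z - e' z)‖) (e z) :=
    ((continuousAt_id.sub c2).sub continuousAt_const).norm
  have h3 : ∀ᶠ p in 𝓝 (e z), ‖p - (e' ∘ e.symm) p - (e z - e' z)‖ < ε :=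
    c3.eventually (gt_mem_nhds (by simpa [e.left_inv hz] using hε))
  have h4 : ∀ᶠ p in 𝓝 (e z), e.symm p ∈ e'.source :=
    c1.eventually (e'.open_source.mem_nhds (by rw [e.left_inv hz]; exact hz'))
  filter_upwards [h3, h4, e.open_target.mem_nhds (e.map_source hz)] with p hp3 hp4 hp
  have h5 := key _ (e.map_target hp) hp4
  rw [e.right_inv hp] at h5
  have h6 := hd _ (N.latN.sub_mem h5 (key z hz hz')) hp3
  have h7 : (e' ∘ e.symm) p = p - (e z - e' z) - (p - e' (e.symm p) - (e z - e' z)) := by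
    simp
  rw [h7, h6, sub_zero]

variable (N) in
/-- The correction term read in a chart. -/
noncomputable def Wc (γ : ℝ → M) (J : OpenPartialHomeomorph M R3 → ℝ → R3)
    (e : OpenPartialHomeomorph M R3) (t : ℝ) : ℝ :=
  N.W (e (γ t)).1 (deriv (e ∘ γ) t) (J e t)

open Classical in
variable (N) in
/-- The correction term. -/
noncomputable def Wt (g : Metric R3 M) (Ψ : Option Bool → R3 → M) (γ : ℝ → M)
    (J : OpenPartialHomeomorph M R3 → ℝ → R3) (t : ℝ) : ℝ :=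
  if h : ∃ e, N.NC g Ψ e ∧ γ t ∈ e.source then N.Wc γ J h.choose t else 0

variable [IsManifold 𝓘(ℝ, R3) ∞ M]

theorem Wc_eq (hG : GlueOut N.O N.G N.rel g Ψ) (hγ : g.IsGeodesic γ s) (hJ : g.IsJacobi γ s J)
    (hs : IsOpen s) (he : N.NC g Ψ e) (he' : N.NC g Ψ e') {t : ℝ} (ht : t ∈ s)
    (hz : γ t ∈ e.source) (hz' : γ t ∈ e'.source) : N.Wc γ J e' t = N.Wc γ J e t := by
  obtain ⟨h1, h2⟩ := tr_eventually hG he he' hz hz'
  have h3 : ∀ u, fderiv ℝ (e' ∘ e.symm) (e (γ t)) u = u := fun u => by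
    rw [h2.fderiv_eq, fderiv_sub_const, fderiv_fun_id]; rfl
  have h4 := (hasDerivAt_chart he.1 he'.1 (hγ.1.continuousAt (hs.mem_nhds ht)) hz hz'
    (hγ.2 e he.1 t ht hz).1.hasDerivAt).deriv
  rw [Wc, Wc, h4, hJ.1 e he.1 e' he'.1 t ht hz hz', h3, h3, h1]

theorem Wt_eq (hG : GlueOut N.O N.G N.rel g Ψ) (hγ : g.IsGeodesic γ s) (hJ : g.IsJacobi γ s J)
    (hs : IsOpen s) (he : N.NC g Ψ e) {t : ℝ} (ht : t ∈ s) (hz : γ t ∈ e.source) :
    N.Wt g Ψ γ J t = N.Wc γ J e t := by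
  have h : ∃ e, N.NC g Ψ e ∧ γ t ∈ e.source := ⟨e, he, hz⟩
  rw [Wt, dif_pos h]
  exact Wc_eq hG hγ hJ hs he h.choose_spec.1 ht hz h.choose_spec.2

theorem Wt_zero (hJ : g.IsJacobi γ s J) {t : ℝ} (ht : t ∈ s) (h0 : J (chartAt R3 (γ t)) t = 0) :
    N.Wt g Ψ γ J t = 0 := by
  rw [Wt]
  split_ifs with h
  · rw [Wc, hJ.zero_chart h.choose_spec.1.1 ht h.choose_spec.2 h0, W_zero]
  · rfl

theorem flat_nonneg (hG : GlueOut N.O N.G N.rel g Ψ) (hγ : g.IsGeodesic γ s)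
    (hJ : g.IsJacobi γ s J) (hs : IsOpen s) {t : ℝ} (ht : t ∈ s) {b : Bool} {p : R3}
    (hp : p ∈ N.O (some b)) (h : Ψ (some b) p = γ t) : 0 ≤ deriv (g.lq γ J) t := by
  obtain ⟨e, he, hp', -, h1, h2⟩ := hG.chart (some b) p hp
  exact hJ.lq_flat hγ hs he ht (by rw [← h, ← h1 hp']; exact e.map_target hp') (B := G0) h2

theorem up_neck (hG : GlueOut N.O N.G N.rel g Ψ) (hγ : g.IsGeodesic γ s)
    (hJ : g.IsJacobi γ s J) (hs : IsOpen s) (he : N.NC g Ψ e) {t : ℝ} (ht : t ∈ s)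
    (hz : γ t ∈ e.source) :
    Up (fun t => g.lq γ J t - N.Wt g Ψ γ J t) t 0 ∧ (J e t = 0 → deriv (J e) t ≠ 0 →
      ∃ c > 0, Up (fun t => g.lq γ J t - N.Wt g Ψ γ J t) t c) := by
  have hO : e (γ t) ∈ N.O none := he.2.1 (e.map_source hz)
  have hg : ∀ t', γ t' ∈ e.source → g.g e =ᶠ[𝓝 (e (γ t'))] N.GN := fun t' h =>
    he.2.2.2.eventuallyEq_of_mem (e.open_target.mem_nhds (e.map_source h))
  have h1 := hγ.eventually hs he.1 ht hz
  have h2 := hJ.eventually_lin hγ hs he.1 ht hz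
  have ode : ∀ᶠ t' in 𝓝 t, N.Ode (e ∘ γ) (deriv (e ∘ γ)) (J e) (deriv (J e)) t' := by
    filter_upwards [h1, h2] with t' a b
    refine ⟨a.2.2.1, ?_, b.1, ?_⟩
    · have := a.2.2.2
      rwa [chr_congr (hg t' a.2.1)] at this
    · have := b.2
      rwa [lin_congr (hg t' a.2.1)] at this
  have hq : ∀ᶠ t' in 𝓝 t, g.lq γ J t' = N.GN ((e ∘ γ) t') (J e t')
      (deriv (J e) t' + chr N.GN ((e ∘ γ) t') (deriv (e ∘ γ) t') (J e t')) := by
    filter_upwards [h1] with t' a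
    rw [hJ.lq_eq hγ hs he.1 a.1 a.2.1, Metric.cov, chr_congr (hg t' a.2.1),
      (hg t' a.2.1).eq_of_nhds]
    rfl
  have hW : (fun t => g.lq γ J t - N.Wt g Ψ γ J t) =ᶠ[𝓝 t]
      fun t => g.lq γ J t - N.W ((e ∘ γ) t).1 (deriv (e ∘ γ) t) (J e t) := by
    filter_upwards [h1] with t' a
    rw [Wt_eq hG hγ hJ hs he a.1 a.2.1]
    rfl
  have hflat : ((e ∘ γ) t).1 < -2 ∨ 3 < ((e ∘ γ) t).1 → 0 ≤ deriv (g.lq γ J) t := fun h => by
    obtain ⟨b, hb⟩ : ∃ b, N.r0 b < N.rad b (e (γ t)) := by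
      rcases h with h | h
      · exact ⟨false, by simp only [r0, rad, Function.comp] at h ⊢; linarith⟩
      · exact ⟨true, by simp only [r0, rad, Function.comp] at h ⊢; linarith⟩
    have hp := pol_mem hO hb
    refine flat_nonneg hG hγ hJ hs ht hp ?_
    exact ((hG.eq_iff hp hO).2 ⟨hO, hp, hb, by rw [sub_self]; exact zero_mem _⟩).trans (he.apply hz)
  obtain ⟨u1, u2⟩ := N.neck_up (x := e ∘ γ) hO ode hq (hJ.lq_differentiable hγ hs ht) hflat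
    (hJ.lq_pos hγ hs he.1 ht hz)
  refine ⟨u1.congr hW, fun a b => ?_⟩
  obtain ⟨c, hc, u⟩ := u2 a b
  exact ⟨c, hc, u.congr hW⟩

variable [T2Space M]

omit [IsManifold 𝓘(ℝ, R3) ∞ M] in
theorem Wt_eventually (hG : GlueOut N.O N.G N.rel g Ψ) {t : ℝ} (hγ : ContinuousAt γ t)
    (h : ¬ ∃ e, N.NC g Ψ e ∧ γ t ∈ e.source) : ∀ᶠ t' in 𝓝 t, N.Wt g Ψ γ J t' = 0 := by
  set B : Set R3 := Icc (-13 / 5 : ℝ) (18 / 5) ×ˢ (Icc 0 N.lL ×ˢ Icc 0 N.lR) with hB
  have hBO : B ⊆ N.O none := fun n hn => ⟨by linarith [hn.1.1], by linarith [hn.1.2]⟩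
  have hZ : IsClosed (Ψ none '' B) :=
    ((isCompact_Icc.prod (isCompact_Icc.prod isCompact_Icc)).image_of_continuousOn
      ((hG.cont none).mono hBO)).isClosed
  have hn : γ t ∈ (Ψ none '' B)ᶜ := by
    rintro ⟨n, hn, hn'⟩
    exact h (hn' ▸ exists_NC hG (hBO hn))
  filter_upwards [hγ.eventually (hZ.isOpen_compl.mem_nhds hn)] with t' ht'
  rw [Wt]
  split_ifs with h'
  · obtain ⟨he, hz⟩ := h'.choose_spec
    refine N.W_of_notMem (fun hy => ht' ?_) _ _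
    have hO := he.2.1 (h'.choose.map_source hz)
    obtain ⟨n', h1, h2, h3, h4⟩ := N.exists_box hO
    refine ⟨n', ⟨h1 ▸ hy, h2, h3⟩, ?_⟩
    rw [← he.apply hz]
    exact ((hG.eq_iff hO (rel_mem h4).2).2 h4).symm
  · rfl

theorem lyap_up (hG : GlueOut N.O N.G N.rel g Ψ) (hγ : g.IsGeodesic γ s)
    (hJ : g.IsJacobi γ s J) (hs : IsOpen s) {t : ℝ} (ht : t ∈ s) :
    Up (fun t => g.lq γ J t - N.Wt g Ψ γ J t) t 0 ∧ (J (chartAt R3 (γ t)) t = 0 →
      (∃ c > 0, Up (fun t => g.lq γ J t - N.Wt g Ψ γ J t) t c) ∨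
        ∃ e ∈ atlas R3 M, γ t ∈ e.source ∧ J e t = 0 ∧ deriv (J e) t = 0) := by
  by_cases h : ∃ e, N.NC g Ψ e ∧ γ t ∈ e.source
  · obtain ⟨e, he, hz⟩ := h
    obtain ⟨u1, u2⟩ := up_neck hG hγ hJ hs he ht hz
    refine ⟨u1, fun h0 => ?_⟩
    have h0' := hJ.zero_chart he.1 ht hz h0
    by_cases h1 : deriv (J e) t = 0
    · exact Or.inr ⟨e, he.1, hz, h0', h1⟩
    · exact Or.inl (u2 h0' h1)
  · have hW : (fun t => g.lq γ J t - N.Wt g Ψ γ J t) =ᶠ[𝓝 t] g.lq γ J := by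
      filter_upwards [Wt_eventually (J := J) hG (hγ.1.continuousAt (hs.mem_nhds ht)) h] with t' a
      rw [a, sub_zero]
    have hd := hJ.lq_differentiable hγ hs ht
    refine ⟨Up.congr (Up.of_hasDerivAt hd ?_) hW, fun h0 => ?_⟩
    · obtain ⟨i, p, hp, hi⟩ := hG.surj (γ t)
      cases i with
      | none => exact absurd (hi ▸ exists_NC hG hp) h
      | some b => exact flat_nonneg hG hγ hJ hs ht hp hi
    · by_cases h1 : deriv (J (chartAt R3 (γ t))) t = 0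
      · exact Or.inr ⟨_, chart_mem_atlas R3 _, mem_chart_source R3 _, h0, h1⟩
      · exact Or.inl ⟨_, hJ.lq_pos hγ hs (chart_mem_atlas R3 _) ht (mem_chart_source R3 _) h0 h1,
          Up.congr (Up.of_hasDerivAt hd le_rfl) hW⟩

variable (N) in
theorem noConj (hG : GlueOut N.O N.G N.rel g Ψ) : g.NoConj := by
  intro a b γ J hγ hJ t₀ ht₀ t₁ ht₁ hne h0 h1 t ht
  have hz : ∀ t ∈ Ioo a b, J (chartAt R3 (γ t)) t = 0 → g.lq γ J t - N.Wt g Ψ γ J t = 0 :=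
    fun t ht h => by
      rw [Wt_zero hJ ht h, hJ.lq_eq hγ isOpen_Ioo (chart_mem_atlas R3 _) ht (mem_chart_source R3 _),
        h, map_zero, zero_apply, sub_zero]
  rcases (lyap_up hG hγ hJ isOpen_Ioo ht₀).2 h0 with ⟨c, hc, u⟩ | ⟨e, he, hx, a0, a1⟩
  · exfalso
    rcases lt_or_gt_of_ne hne with h | h
    · have := Up.nonpos_of_eq h (fun r hr => (lyap_up hG hγ hJ isOpen_Ioo
        ⟨ht₀.1.trans_le hr.1, hr.2.trans_lt ht₁.2⟩).1) ((hz _ ht₀ h0).trans (hz _ ht₁ h1).symm)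
        (Or.inl u)
      linarith
    · have := Up.nonpos_of_eq h (fun r hr => (lyap_up hG hγ hJ isOpen_Ioo
        ⟨ht₁.1.trans_le hr.1, hr.2.trans_lt ht₀.2⟩).1) ((hz _ ht₁ h1).trans (hz _ ht₀ h0).symm)
        (Or.inr u)
      linarith
  · exact hJ.eq_zero hγ isOpen_Ioo isPreconnected_Ioo he ht₀ hx a0 a1 ht

end Neck

end Vale.Agent.P255
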