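import Vale.Agent.P255.NeckData
import Vale.Agent.P255.ModelIso
import Vale.Agent.P255.NoConj
import Vale.Agent.P255.Loops

namespace Vale.Agent.P255

open scoped ContDiff Manifold

theorem main : ∃ (M : Type) (_ : TopologicalSpace M) (_ : T2Space M) (_ : CompactSpace M)
    (_ : ConnectedSpace M) (_ : ChartedSpace (ℝ × ℝ × ℝ) M) (_ : IsManifold 𝓘(ℝ, ℝ × ℝ × ℝ) ∞ M),
    (∃ g : Metric (ℝ × ℝ × ℝ) M, g.NoConj) ∧ ∀ g : Metric (ℝ × ℝ × ℝ) M, ¬ g.NPC := by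
  obtain ⟨N⟩ := exists_neck
  obtain ⟨M, _, _, _, _, _, g, Ψ, hG⟩ := N.glueIn.glue
  exact ⟨M, _, ‹_›, ‹_›, N.connected hG, _, ‹_›, ⟨g, N.noConj hG⟩, N.no_npc hG (N.noConj hG)⟩

end Vale.Agent.P255
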