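import Vale.Agent.P255.Glue

/-!
# The neck data and the model (definitions only)

Coordinates on the neck: `n = (y, x₁, x₂)`, `-3 < y < 4`; metric `dy² + A(y)⁻¹(dx, dx)` with cometric
`A(P, Q) = α P² + 2 β P Q + γ Q²`.  For `y ≤ -2` it is the flat metric in cylindrical coordinates
(radius `rL - (y + 2)`, angle `τL x₂`, height `x₁`), for `y ≥ 3` it is the flat metric with radius
`rR + (y - 3)`, angle `τR x₁`, height `x₂ + κ x₁`.
-/

namespace Vale.Agent.P255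

open scoped ContDiff Topology
open Set Real

abbrev R3 := ℝ × ℝ × ℝ

/-- The quadratic form with coefficients `a, b, c`. -/
def qf (a b c P Q : ℝ) : ℝ := a * P ^ 2 + 2 * b * P * Q + c * Q ^ 2

/-- The quantity whose sign controls the monotonicity of the Lyapunov function:
`c` = diagonal coefficient, `a1 = a_y`, `a2 = a_yy`, `b = a_Q`, `b1 = a_{Qy}`. -/
def ee (c a1 a2 b b1 : ℝ) : ℝ := 2 * c * a1 ^ 2 - 2 * b1 * a1 * b + a2 * b ^ 2

structure Neck where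
  α : ℝ → ℝ
  β : ℝ → ℝ
  γ : ℝ → ℝ
  κ : ℝ
  τL : ℝ
  τR : ℝ
  rL : ℝ
  rR : ℝ
  τL_pos : 0 < τL
  τR_pos : 0 < τR
  rL_pos : 0 < rL
  rR_pos : 0 < rR
  κ_mul : κ * τL = τR
  smoothα : ContDiffOn ℝ ∞ α (Ioo (-3) 4)
  smoothβ : ContDiffOn ℝ ∞ β (Ioo (-3) 4)
  smoothγ : ContDiffOn ℝ ∞ γ (Ioo (-3) 4)
  α_pos : ∀ y ∈ Ioo (-3 : ℝ) 4, 0 < α y
  det_pos : ∀ y ∈ Ioo (-3 : ℝ) 4, 0 < α y * γ y - β y ^ 2
  left : ∀ y ∈ Ioo (-3 : ℝ) (-2), α y = 1 ∧ β y = 0 ∧ γ y = 1 / (τL * (rL - (y + 2))) ^ 2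
  right : ∀ y ∈ Ioo (3 : ℝ) 4,
    α y = 1 / (τR * (rR + (y - 3))) ^ 2 ∧ β y = -κ * α y ∧ γ y = 1 + κ ^ 2 * α y
  L0 : ∀ y ∈ Ioo (-3 : ℝ) 4, deriv α y ≤ 0
  L1 : ∀ y ∈ Ioo (-3 : ℝ) 4, ∀ P Q, Q ≠ 0 → 0 ≤ qf (deriv α y) (deriv β y) (deriv γ y) P Q →
    β y * P + γ y * Q ≠ 0 ∧ ee (γ y) (qf (deriv α y) (deriv β y) (deriv γ y) P Q)
      (qf (deriv (deriv α) y) (deriv (deriv β) y) (deriv (deriv γ) y) P Q)
      (2 * (β y * P + γ y * Q)) (2 * (deriv β y * P + deriv γ y * Q)) ≤ 0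
  R0 : ∀ y ∈ Ioo (-3 : ℝ) 4, 0 ≤ qf (deriv α y) (deriv β y) (deriv γ y) κ 1
  R1 : ∀ y ∈ Ioo (-3 : ℝ) 4, ∀ P Q, P ≠ κ * Q →
    qf (deriv α y) (deriv β y) (deriv γ y) P Q ≤ 0 →
    α y * P + β y * Q ≠ 0 ∧ ee (α y) (qf (deriv α y) (deriv β y) (deriv γ y) P Q)
      (qf (deriv (deriv α) y) (deriv (deriv β) y) (deriv (deriv γ) y) P Q)
      (2 * (α y * P + β y * Q)) (2 * (deriv α y * P + deriv β y * Q)) ≤ 0

/-- The coordinate functionals of `R3`. -/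
noncomputable def d0 : R3 →L[ℝ] ℝ := ContinuousLinearMap.fst ℝ ℝ (ℝ × ℝ)
noncomputable def d1 : R3 →L[ℝ] ℝ :=
  (ContinuousLinearMap.fst ℝ ℝ ℝ).comp (ContinuousLinearMap.snd ℝ ℝ (ℝ × ℝ))
noncomputable def d2 : R3 →L[ℝ] ℝ :=
  (ContinuousLinearMap.snd ℝ ℝ ℝ).comp (ContinuousLinearMap.snd ℝ ℝ (ℝ × ℝ))

/-- The Euclidean metric. -/
noncomputable def G0 : R3 →L[ℝ] R3 →L[ℝ] ℝ :=
  d0.smulRight d0 + d1.smulRight d1 + d2.smulRight d2

theorem G0_apply (u v : R3) : G0 u v = u.1 * v.1 + u.2.1 * v.2.1 + u.2.2 * v.2.2 := by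
  simp [G0, d0, d1, d2]

/-- The lattice `aℤ × bℤ × cℤ`. -/
def lat (a b c : ℝ) : AddSubgroup R3 :=
  (AddSubgroup.zmultiples a).prod ((AddSubgroup.zmultiples b).prod (AddSubgroup.zmultiples c))

namespace Neck

variable (N : Neck)

/-- Coefficients of the inverse matrix of `A`. -/
noncomputable def g11 (y : ℝ) : ℝ := N.γ y / (N.α y * N.γ y - N.β y ^ 2)
noncomputable def g12 (y : ℝ) : ℝ := -N.β y / (N.α y * N.γ y - N.β y ^ 2)
noncomputable def g22 (y : ℝ) : ℝ := N.α y / (N.α y * N.γ y - N.β y ^ 2)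

/-- The neck metric. -/
noncomputable def GN (n : R3) : R3 →L[ℝ] R3 →L[ℝ] ℝ :=
  d0.smulRight d0 + N.g11 n.1 • d1.smulRight d1 +
    N.g12 n.1 • (d1.smulRight d2 + d2.smulRight d1) + N.g22 n.1 • d2.smulRight d2

theorem GN_apply (n u v : R3) : N.GN n u v = u.1 * v.1 + N.g11 n.1 * (u.2.1 * v.2.1) +
    N.g12 n.1 * (u.2.1 * v.2.2 + u.2.2 * v.2.1) + N.g22 n.1 * (u.2.2 * v.2.2) := by
  simp [GN, d0, d1, d2]; ring

/-- Fibre lengths. -/
noncomputable def lL : ℝ := 2 * π / N.τR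
noncomputable def lR : ℝ := 2 * π / N.τL

/-! Sides: `false` = left, `true` = right. -/

def r0 : Bool → ℝ
  | false => N.rL
  | true => N.rR

def rad : Bool → R3 → ℝ
  | false, n => N.rL - (n.1 + 2)
  | true, n => N.rR + (n.1 - 3)

def ang : Bool → R3 → ℝ
  | false, n => N.τL * n.2.2
  | true, n => N.τR * n.2.1

def fib : Bool → R3 → ℝ
  | false, n => n.2.1
  | true, n => n.2.2 + N.κ * n.2.1

noncomputable def len : Bool → ℝ
  | false => N.lL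
  | true => N.lR

/-- The period of the flat torus. -/
def per (b : Bool) : ℝ := 2 * N.r0 b + 4

/-- Cylindrical coordinates. -/
noncomputable def pol (b : Bool) (n : R3) : R3 :=
  (N.rad b n * cos (N.ang b n), N.rad b n * sin (N.ang b n), N.fib b n)

noncomputable def latS (b : Bool) : AddSubgroup R3 := lat (N.per b) (N.per b) (N.len b)

noncomputable def latN : AddSubgroup R3 := lat 0 N.lL N.lR

/-- The pieces: `none` = neck, `some b` = complement of the solid cylinders. -/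
def O : Option Bool → Set R3
  | none => {n | n.1 ∈ Ioo (-3 : ℝ) 4}
  | some b => {p | ∀ i j : ℤ, N.r0 b ^ 2 < (p.1 - i * N.per b) ^ 2 + (p.2.1 - j * N.per b) ^ 2}

noncomputable def G : Option Bool → R3 → R3 →L[ℝ] R3 →L[ℝ] ℝ
  | none => N.GN
  | some _ => fun _ => G0

/-- The gluing relation (`r0 b < rad b n` says that `n` lies in the collar of side `b`). -/
def rel : Option Bool → R3 → Option Bool → R3 → Prop
  | none, n, none, n' => n ∈ N.O none ∧ n' ∈ N.O none ∧ n - n' ∈ N.latN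
  | none, n, some b, p =>
      n ∈ N.O none ∧ p ∈ N.O (some b) ∧ N.r0 b < N.rad b n ∧ N.pol b n - p ∈ N.latS b
  | some b, p, none, n =>
      n ∈ N.O none ∧ p ∈ N.O (some b) ∧ N.r0 b < N.rad b n ∧ N.pol b n - p ∈ N.latS b
  | some b, p, some b', p' =>
      b = b' ∧ p ∈ N.O (some b) ∧ p' ∈ N.O (some b) ∧ p - p' ∈ N.latS b

/-! The Lyapunov correction. -/

/-- Momenta of the velocity `v` at height `y`. -/
noncomputable def mP (y : ℝ) (v : R3) : ℝ := N.g11 y * v.2.1 + N.g12 y * v.2.2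
noncomputable def mQ (y : ℝ) (v : R3) : ℝ := N.g12 y * v.2.1 + N.g22 y * v.2.2

/-- `a_y`. -/
noncomputable def a1 (y P Q : ℝ) : ℝ := qf (deriv N.α y) (deriv N.β y) (deriv N.γ y) P Q

/-- `T_L`, `T_R` for `b = a_Q`, `a_P` and `σ = δx₂`, `δx₁`. -/
noncomputable def tt (a1 b w σ δy : ℝ) : ℝ := a1 * (2 * w * σ ^ 2 / b ^ 2 - 2 * σ * δy / b)

noncomputable def T (y w P Q δy δ1 δ2 : ℝ) : ℝ :=
  if 0 < N.a1 y P Q then tt (N.a1 y P Q) (2 * (N.β y * P + N.γ y * Q)) w δ2 δy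
  else if N.a1 y P Q < 0 then tt (N.a1 y P Q) (2 * (N.α y * P + N.β y * Q)) w δ1 δy else 0

/-- `G'(u, v)` on the torus directions. -/
noncomputable def G1 (y : ℝ) (u v : R3) : ℝ := deriv N.g11 y * (u.2.1 * v.2.1) +
  deriv N.g12 y * (u.2.1 * v.2.2 + u.2.2 * v.2.1) + deriv N.g22 y * (u.2.2 * v.2.2)

/-- The cut-off: `0` for `y ≤ -13/5` and `y ≥ 18/5`, `1` on `[-12/5, 17/5]`. -/
noncomputable def cut (y : ℝ) : ℝ :=
  smoothTransition (5 * y + 13) * smoothTransition (18 - 5 * y)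

/-- The correction term `W(y, v, J)`; the Lyapunov function is `g(J, J') - W`. -/
noncomputable def W (y : ℝ) (v J : R3) : ℝ :=
  cut y * (v.1 * N.G1 y J J / 2 - J.1 * N.G1 y J v +
    N.T y v.1 (N.mP y v) (N.mQ y v) J.1 J.2.1 J.2.2)

end Neck

/-- `f` has lower derivative at least `c` at `t`. -/
def Up (f : ℝ → ℝ) (t c : ℝ) : Prop :=
  ∀ ε > 0, ∀ᶠ s in 𝓝 t, (c - ε) * (s - t) ^ 2 ≤ (s - t) * (f s - f t)

end Vale.Agent.P255
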