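import Mathlib

/-!
# The warping profile  (TASK)

`S = Real.smoothTransition`.
`S_symm`: from the definition.  `S_deriv`: with `f = expNegInvGlue`, `f' x = f x / x²`
(`expNegInvGlue.hasDerivAt_polynomial_eval_inv_mul`, or directly), on `(0,1)`
`S' = S (1 - S) (1/x² + 1/(1-x)²) ≥ 8 S (1 - S)`; outside `S (1 - S) = 0` and `S' ≥ 0` (monotone).
`exists_profile`: `g₀ u = (c + l u)^(-1/2)`, `χ u = S (u + 2)`, `k = (1 - χ) (-τ) + χ g₀'` (smooth on
`Ioo (-4) 5`), `g u = g₀ 0 + ∫₀ᵘ k`.  Then `g' = k < 0`, `g'' = χ' (τ + g₀') + χ g₀'' ≥ 0` as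
`|g₀'| ≤ l ≤ τ`, `g = g₀` on `[-1, 5)`, `g` affine of slope `-τ` on `u ≤ -2`, `g > 0`.
`h u = g u ^ (-2) - l ∫₀ᵘ S`.  For `u ≤ 0`, `h = g^(-2)`, `h' = -2 g'/g³ > 0` and
`2 h h'' - 3 h'² = -4 g''/g⁵ ≤ 0`; for `u > -1`, `h u = c + l u - l ∫₀ᵘ S`.
-/

namespace Vale.Agent.P255

open scoped ContDiff
open Set Real

theorem S_symm (x : ℝ) : smoothTransition (1 - x) = 1 - smoothTransition x := by
  have h := (smoothTransition.pos_denom x).ne'
  unfold smoothTransition
  rw [sub_sub_cancel, add_comm (expNegInvGlue (1 - x))]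
  field_simp
  ring

theorem prof_glue (x : ℝ) : HasDerivAt expNegInvGlue (x⁻¹ ^ 2 * expNegInvGlue x) x := by
  simpa using expNegInvGlue.hasDerivAt_polynomial_eval_inv_mul 1 x

theorem S_deriv (x : ℝ) :
    8 * smoothTransition x * (1 - smoothTransition x) ≤ deriv smoothTransition x := by
  have h := smoothTransition.pos_denom x
  have h1 := (prof_glue (1 - x)).comp x ((hasDerivAt_id x).const_sub 1)
  have h2 : HasDerivAt smoothTransition _ x := (prof_glue x).div ((prof_glue x).add h1) h.ne'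
  have h3 : expNegInvGlue x * expNegInvGlue (1 - x) * 8 ≤
      expNegInvGlue x * expNegInvGlue (1 - x) * (x⁻¹ ^ 2 + (1 - x)⁻¹ ^ 2) := by
    rcases le_or_gt x 0 with h0 | h0
    · simp [expNegInvGlue.zero_of_nonpos h0]
    rcases le_or_gt (1 - x) 0 with h4 | h4
    · simp [expNegInvGlue.zero_of_nonpos h4]
    refine mul_le_mul_of_nonneg_left ?_
      (mul_nonneg (expNegInvGlue.nonneg _) (expNegInvGlue.nonneg _))
    have h5 : 4 ≤ x⁻¹ * (1 - x)⁻¹ := by
      rw [← mul_inv, le_inv_comm₀ (by norm_num) (mul_pos h0 h4)]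
      nlinarith [sq_nonneg (x - 1 / 2)]
    nlinarith [sq_nonneg (x⁻¹ - (1 - x)⁻¹)]
  rw [h2.deriv, ← S_symm]
  unfold smoothTransition
  simp only [sub_sub_cancel, add_comm (expNegInvGlue (1 - x))]
  rw [mul_assoc, div_mul_div_comm, ← mul_div_assoc, ← sq]
  refine div_le_div_of_nonneg_right ?_ (by positivity)
  linarith

theorem prof_S_nonneg (x : ℝ) : 0 ≤ deriv smoothTransition x :=
  le_trans (mul_nonneg (mul_nonneg (by norm_num) (smoothTransition.nonneg x))
    (sub_nonneg.2 (smoothTransition.le_one x))) (S_deriv x)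

theorem prof_S_hasDerivAt (x : ℝ) : HasDerivAt smoothTransition (deriv smoothTransition x) x :=
  ((smoothTransition.contDiff (n := 1)).differentiable (by simp) x).hasDerivAt

theorem prof_S_zero {x : ℝ} (hx : x ≤ 0) : deriv smoothTransition x = 0 :=
  IsLocalMin.deriv_eq_zero (Filter.Eventually.of_forall fun y => by
    rw [smoothTransition.zero_of_nonpos hx]
    exact smoothTransition.nonneg y)

theorem prof_int {k : ℝ → ℝ} (hk : ContDiff ℝ ∞ k) :
    (∀ u, HasDerivAt (fun u => ∫ x in (0 : ℝ)..u, k x) (k u) u) ∧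
      ContDiff ℝ ∞ fun u => ∫ x in (0 : ℝ)..u, k x := by
  have h := fun u => (hk.continuous.integral_hasStrictDerivAt 0 u).hasDerivAt
  refine ⟨h, contDiff_infty_iff_deriv.2 ⟨fun u => (h u).differentiableAt, ?_⟩⟩
  rw [show deriv (fun u => ∫ x in (0 : ℝ)..u, k x) = k from funext fun u => (h u).deriv]
  exact hk

theorem prof_g {c l τ : ℝ} (hc : |c - 1| ≤ 1 / 10) (hl : 0 < l) (hl' : l ≤ 1 / 100)
    (hτ : l ≤ τ) : ∃ g k k' : ℝ → ℝ, ContDiff ℝ ∞ g ∧ (∀ u, HasDerivAt g (k u) u) ∧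
      (∀ u, -4 < u → HasDerivAt k (k' u) u ∧ k u < 0 ∧ 0 ≤ k' u ∧ 0 < g u) ∧
      (∀ u ≤ -2, g u = g (-2) - τ * (u + 2)) ∧ ∀ u, -1 ≤ u → (g u ^ 2)⁻¹ = c + l * u := by
  obtain ⟨c1, c2⟩ := abs_le.1 hc
  have hp : ∀ u, -4 < u → 81 / 100 ≤ c + l * u := fun u hu => by nlinarith
  have hq : ∀ u, -4 < u → 9 / 10 ≤ √(c + l * u) := fun u hu =>
    le_sqrt_of_sq_le (by linarith [hp u hu])
  set a : ℝ → ℝ := fun u => (√(c + l * u))⁻¹ with ha
  have a0 : ∀ u, -4 < u → 0 < a u := fun u hu => inv_pos.2 (by linarith [hq u hu])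
  have a1 : ∀ u, -4 < u → l / 2 * a u ^ 3 ≤ τ := fun u hu => by
    have h1 : a u ≤ 10 / 9 := by
      rw [ha, inv_le_comm₀ (by linarith [hq u hu]) (by norm_num)]
      linarith [hq u hu]
    have h2 : a u ^ 3 ≤ (10 / 9) ^ 3 := pow_le_pow_left₀ (a0 u hu).le h1 3
    nlinarith
  have da : ∀ u, -4 < u → HasDerivAt a (-(l / 2 * a u ^ 3)) u := fun u hu => by
    have h0 : √(c + l * u) ≠ 0 := by linarith [hq u hu]
    have h1 := ((((hasDerivAt_id u).const_mul l).const_add c).sqrt
      (show c + l * u ≠ 0 by linarith [hp u hu])).inv h0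
    refine h1.congr_deriv ?_
    simp only [ha, id]
    field_simp
  set k : ℝ → ℝ := fun u => -(τ * (1 - smoothTransition (u + 2)) +
    smoothTransition (u + 2) * (l / 2 * a u ^ 3)) with hk
  have k2 : ∀ u ≤ -2, k u = -τ := fun u hu => by
    simp [hk, smoothTransition.zero_of_nonpos (show u + 2 ≤ 0 by linarith)]
  have k0 : ∀ u, -4 < u → k u < 0 := fun u hu => by
    have h1 := mul_nonneg (sub_nonneg.2 (smoothTransition.le_one (u + 2))) (sub_nonneg.2 (a1 u hu))
    have h2 : 0 < l / 2 * a u ^ 3 := by have := a0 u hu; positivity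
    simp only [hk]
    linarith
  have sk : ContDiff ℝ ∞ k := by
    refine contDiff_iff_contDiffAt.2 fun u => ?_
    rcases lt_or_ge u (-3) with hu | hu
    · refine (contDiffAt_const (c := -τ)).congr_of_eventuallyEq ?_
      filter_upwards [gt_mem_nhds hu] with v hv using k2 v (by linarith)
    · have h1 : ContDiffAt ℝ ∞ a u :=
        (ContDiffAt.sqrt (by fun_prop) (by linarith [hp u (by linarith)])).inv
          (by linarith [hq u (by linarith)])
      have h2 : ContDiffAt ℝ ∞ (fun u : ℝ => smoothTransition (u + 2)) u :=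
        smoothTransition.contDiffAt.comp u (by fun_prop)
      exact ((contDiffAt_const.mul (contDiffAt_const.sub h2)).add
        (h2.mul (contDiffAt_const.mul (h1.pow 3)))).neg
  obtain ⟨i1, i2⟩ := prof_int sk
  have g1 : ∀ u, -1 ≤ u → a 0 + ∫ x in (0 : ℝ)..u, k x = a u := fun u hu => by
    rw [intervalIntegral.integral_eq_sub_of_hasDerivAt (f := a) (fun x hx => ?_)
      (sk.continuous.intervalIntegrable _ _), add_sub_cancel]
    have h1 : -1 ≤ x := le_trans (le_min (by norm_num) hu) hx.1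
    refine (da x (by linarith)).congr_deriv ?_
    simp [hk, smoothTransition.one_of_one_le (show 1 ≤ x + 2 by linarith)]
  refine ⟨fun u => a 0 + ∫ x in (0 : ℝ)..u, k x, k, fun u =>
    deriv smoothTransition (u + 2) * (τ - l / 2 * a u ^ 3) +
      smoothTransition (u + 2) * (l / 2 * (3 * a u ^ 2 * (l / 2 * a u ^ 3))),
    contDiff_const.add i2, fun u => (i1 u).const_add _, fun u hu => ⟨?_, k0 u hu, ?_, ?_⟩,
    fun u hu => ?_, fun u hu => ?_⟩
  · have h1 := (prof_S_hasDerivAt (u + 2)).comp u ((hasDerivAt_id u).add_const 2)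
    refine (((h1.const_sub 1).const_mul τ).add
      (h1.mul (((da u hu).pow 3).const_mul (l / 2)))).neg.congr_deriv ?_
    simp only [Function.comp_apply, id, Pi.pow_apply]
    push_cast
    ring
  · have h1 := a0 u hu
    have h2 := smoothTransition.nonneg (u + 2)
    exact add_nonneg (mul_nonneg (prof_S_nonneg _) (sub_nonneg.2 (a1 u hu))) (by positivity)
  · beta_reduce
    rcases le_total 0 u with h0 | h0
    · rw [g1 u (by linarith)]
      exact a0 u hu
    · have h1 := intervalIntegral.integral_nonneg (μ := MeasureTheory.volume)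
        (f := fun x => -k x) h0 fun x hx => neg_nonneg.2 (k0 x (by linarith [hx.1])).le
      rw [intervalIntegral.integral_neg, ← intervalIntegral.integral_symm] at h1
      linarith [a0 0 (by norm_num)]
  · beta_reduce
    rw [← intervalIntegral.integral_add_adjacent_intervals (b := -2) (c := u)
      (sk.continuous.intervalIntegrable _ _) (sk.continuous.intervalIntegrable _ _),
      intervalIntegral.integral_congr (a := -2) (g := fun _ => -τ) fun x hx =>
        k2 x (hx.2.trans (max_le le_rfl hu))]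
    simp only [intervalIntegral.integral_const, smul_eq_mul]
    ring
  · beta_reduce
    rw [g1 u hu, ha, inv_pow, inv_inv, sq_sqrt (by linarith [hp u (by linarith)])]

theorem exists_profile {c l τ : ℝ} (hc : |c - 1| ≤ 1 / 10) (hl : 0 < l) (hl' : l ≤ 1 / 100)
    (hτ : l ≤ τ) : ∃ (h : ℝ → ℝ) (r : ℝ), 0 < r ∧ ContDiffOn ℝ ∞ h (Ioo (-3) 4) ∧
      (∀ u ∈ Ioo (-3 : ℝ) (-2), h u = 1 / (τ * (r - (u + 2))) ^ 2) ∧
      (∀ u ∈ Ioc (-3 : ℝ) 0, 0 < h u ∧ 0 < deriv h u ∧
        2 * h u * deriv (deriv h) u ≤ 3 * deriv h u ^ 2) ∧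
      ∀ u ∈ Ioo (-1 : ℝ) 4, h u = c + l * u - l * ∫ x in (0 : ℝ)..u, smoothTransition x := by
  obtain ⟨g, k, k', sg, dg, hk, g2, g1⟩ := prof_g hc hl hl' hτ
  obtain ⟨i1, i2⟩ := prof_int (smoothTransition.contDiff (n := ⊤))
  have hτ0 : 0 < τ := hl.trans_le hτ
  have i0 : ∀ u ≤ (0 : ℝ), ∫ x in (0 : ℝ)..u, smoothTransition x = 0 := fun u hu => by
    rw [intervalIntegral.integral_congr (g := fun _ => (0 : ℝ)) fun x hx =>
      smoothTransition.zero_of_nonpos (hx.2.trans (max_le le_rfl hu))]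
    simp
  have d1 : ∀ u, -4 < u → HasDerivAt
      (fun u => (g u ^ 2)⁻¹ - l * ∫ x in (0 : ℝ)..u, smoothTransition x)
      (-2 * k u / g u ^ 3 - l * smoothTransition u) u := fun u hu => by
    have h0 := (hk u hu).2.2.2.ne'
    refine ((((dg u).pow 2).inv (pow_ne_zero 2 h0)).sub ((i1 u).const_mul l)).congr_deriv ?_
    simp only [Pi.pow_apply]
    push_cast
    field_simp
  refine ⟨fun u => (g u ^ 2)⁻¹ - l * ∫ x in (0 : ℝ)..u, smoothTransition x, g (-2) / τ,
    div_pos (hk _ (by norm_num)).2.2.2 hτ0, ?_, fun u hu => ?_, fun u hu => ?_, fun u hu => ?_⟩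
  · exact ((sg.contDiffOn.pow 2).inv fun u hu =>
      pow_ne_zero 2 (hk u (by linarith [hu.1])).2.2.2.ne').sub (contDiff_const.mul i2).contDiffOn
  · simp only
    rw [i0 u (by linarith [hu.2]), g2 u hu.2.le, mul_zero, sub_zero, one_div, mul_sub τ,
      mul_div_cancel₀ _ hτ0.ne']
  · have hu4 : -4 < u := by linarith [hu.1]
    obtain ⟨dk, k0, k1, g0⟩ := hk u hu4
    have e : deriv (fun u => (g u ^ 2)⁻¹ - l * ∫ x in (0 : ℝ)..u, smoothTransition x) =ᶠ[nhds u]
        fun u => -2 * k u / g u ^ 3 - l * smoothTransition u := by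
      filter_upwards [lt_mem_nhds hu4] with v hv using (d1 v hv).deriv
    have d2 := ((dk.const_mul (-2)).div ((dg u).pow 3) (pow_ne_zero 3 g0.ne')).sub
      ((prof_S_hasDerivAt u).const_mul l)
    have d3 : deriv (fun u => -2 * k u / g u ^ 3 - l * smoothTransition u) u = _ := d2.deriv
    rw [e.deriv_eq, d3, (d1 u hu4).deriv]
    simp only [i0 u hu.2, prof_S_zero hu.2, smoothTransition.zero_of_nonpos hu.2, mul_zero,
      sub_zero, Pi.pow_apply]
    refine ⟨by positivity, div_pos (by linarith) (by positivity), ?_⟩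
    rw [← sub_nonneg]
    refine le_of_le_of_eq (show 0 ≤ 4 * k' u / g u ^ 5 by positivity) ?_
    push_cast
    field_simp
    ring
  · simp only
    rw [g1 u hu.1.le]

end Vale.Agent.P255
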