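import Vale.Agent.P255.NeckIneq
import Vale.Agent.P255.Profile

/-!
# Construction of the neck  (TASK)

`l = 1/100`, `S = smoothTransition`, `i₁ y = ∫₀^y S`, `i₂ y = ∫₀^y S (1 - S)`, `I = i₁ 1 ∈ [0,1]`,
`M = l/8 * i₂ 1 ∈ (0, l/8]` (positive since `0 < S < 1` on `(0,1)`), `κ = M / (1 - M)`, `τR = l`,
`τL = l / κ`.  Let `hL` be the profile with `c = 1 + κ - l (1 - I)`, `τ = τL`, and `hR` the profile
with `c = 1 - M - l (1 - I)`, `τ = τR` (for `u ≥ 1`, `h u = c + l (1 - I)`).  Put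
`γh y = hL y - κ`, `αh y = hR (1 - y)`, `ν y = M - l/8 * i₂ y`, and `A = γh Q² + αh X² + ν Y²`
(`X = P - κ Q`, `Y = P + Q`), i.e. `α = αh + ν`, `β = ν - κ αh`, `γ = γh + κ² αh + ν`.
* `y ≤ 0` (in fact `αh = 1 - M` on `(-3, 0]`, `ν = M`): `α = 1`, `β = 0`, `γ = hL`.
* `y ≥ 1`: `γh = 1`, `ν = 0`: `α = αh`, `β = -κ α`, `γ = 1 + κ² α`.
* on `(-1, 2)`: `γh' = l (1 - S)`, `αh' = -l S` (`S_symm`), `ν' = -l/8 S (1 - S)`; on `[0,1]`:
  `β = κ l i₁ - l/8 i₂`, `0 ≤ i₂ ≤ i₁ ≤ S y` (monotone `S`), `β + κ α = (1 + κ) ν`,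
  `0 ≤ ν = l/8 ∫_y^1 S (1-S) ≤ l/8 (1 - S y)`; use `ineqL`, `ineqR`, `S_deriv`.
* for `y < 0` (open condition, so derivatives are those of `1, 0, hL`): `a_y = γ' Q²`,
  `ee γ .. = 2 γ Q⁶ (2 γ γ'' - 3 γ'²) ≤ 0` up to the obvious normalisation; similarly for `y > 1`.
-/

namespace Vale.Agent.P255

open scoped ContDiff
open Set Real

namespace NeckDataAux

/-- The pointwise conditions on the values and the first two derivatives. -/
structure Pt (κ α β γ α1 β1 γ1 α2 β2 γ2 : ℝ) : Prop where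
  apos : 0 < α
  det : 0 < α * γ - β ^ 2
  L0 : α1 ≤ 0
  L1 : ∀ P Q, Q ≠ 0 → 0 ≤ qf α1 β1 γ1 P Q → β * P + γ * Q ≠ 0 ∧
    ee γ (qf α1 β1 γ1 P Q) (qf α2 β2 γ2 P Q) (2 * (β * P + γ * Q)) (2 * (β1 * P + γ1 * Q)) ≤ 0
  R0 : 0 ≤ qf α1 β1 γ1 κ 1
  R1 : ∀ P Q, P ≠ κ * Q → qf α1 β1 γ1 P Q ≤ 0 → α * P + β * Q ≠ 0 ∧
    ee α (qf α1 β1 γ1 P Q) (qf α2 β2 γ2 P Q) (2 * (α * P + β * Q)) (2 * (α1 * P + β1 * Q)) ≤ 0

theorem ee_le {h h1 h2 : ℝ} (h0 : 0 < h) (hh : 2 * h * h2 ≤ 3 * h1 ^ 2) (Q : ℝ) :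
    ee h (h1 * Q ^ 2) (h2 * Q ^ 2) (2 * (h * Q)) (2 * (h1 * Q)) ≤ 0 := by
  have e : ee h (h1 * Q ^ 2) (h2 * Q ^ 2) (2 * (h * Q)) (2 * (h1 * Q)) =
      -(2 * (Q ^ 2) ^ 2 * h * (3 * h1 ^ 2 - 2 * h * h2)) := by
    unfold ee
    ring
  rw [e, neg_nonpos]
  exact mul_nonneg (by positivity) (by linarith)

theorem ptB {κ h h1 h2 : ℝ} (h0 : 0 < h) (h0' : 0 < h1) (hh : 2 * h * h2 ≤ 3 * h1 ^ 2) :
    Pt κ 1 0 h 0 0 h1 0 0 h2 := by
  refine ⟨one_pos, by simpa using h0, le_rfl, fun P Q hQ _ => ⟨?_, ?_⟩, ?_, fun P Q hP hA => ?_⟩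
  · simpa using ⟨h0.ne', hQ⟩
  · simpa [qf] using ee_le h0 hh Q
  · simpa [qf] using h0'.le
  · have hQ : Q = 0 := by
      by_contra hQ
      have : 0 < h1 * Q ^ 2 := by positivity
      simp only [qf] at hA
      linarith
    subst hQ
    exact ⟨by simpa using hP, by simp [qf, ee]⟩

theorem ptC {κ a a1 a2 : ℝ} (h0 : 0 < a) (h0' : a1 < 0) (hh : 2 * a * a2 ≤ 3 * a1 ^ 2) :
    Pt κ a (-κ * a) (1 + κ ^ 2 * a) a1 (-κ * a1) (κ ^ 2 * a1) a2 (-κ * a2) (κ ^ 2 * a2) := by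
  have q : ∀ c P Q : ℝ, qf c (-κ * c) (κ ^ 2 * c) P Q = c * (P - κ * Q) ^ 2 := fun c P Q => by
    unfold qf
    ring
  have q' : ∀ c P Q : ℝ, c * P + -κ * c * Q = c * (P - κ * Q) := fun c P Q => by ring
  refine ⟨h0, by nlinarith, h0'.le, fun P Q hQ hA => ?_, by rw [q]; simp,
    fun P Q hP _ => ⟨?_, ?_⟩⟩
  · have hP : P = κ * Q := by
      by_contra hP
      have h1 : 0 < (P - κ * Q) ^ 2 := sq_pos_of_ne_zero (sub_ne_zero.2 hP)
      rw [q] at hA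
      nlinarith
    subst hP
    refine ⟨fun e => hQ (by linarith), by rw [q, q]; simp [ee]⟩
  · rw [q']
    exact mul_ne_zero h0.ne' (sub_ne_zero.2 hP)
  · rw [q, q, q', q']
    exact ee_le h0 hh _

theorem ptA {s s1 l κ α β γ : ℝ} (hs0 : 0 ≤ s) (hs1 : s ≤ 1) (hs' : 8 * s * (1 - s) ≤ s1)
    (hl : 0 < l) (hl' : l ≤ 1 / 100) (hκ : 0 ≤ κ) (hκ' : κ ≤ l) (hβ : |β| ≤ l * s)
    (hγ : |γ - 1| ≤ 2 * l) (hρ : 0 ≤ β + κ * α) (hρ' : β + κ * α ≤ l * (1 - s) / 4)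
    (hα : |α - 1| ≤ 2 * l) :
    Pt κ α β γ (0 + -l * s + -(l / 8) * (s * (1 - s))) (0 + κ * l * s + -(l / 8) * (s * (1 - s)))
      (l + -(l + κ ^ 2 * l) * s + -(l / 8) * (s * (1 - s)))
      (-l * s1 + -(l / 8) * ((1 - 2 * s) * s1)) (κ * l * s1 + -(l / 8) * ((1 - 2 * s) * s1))
      (-(l + κ ^ 2 * l) * s1 + -(l / 8) * ((1 - 2 * s) * s1)) := by
  have q1 : ∀ P Q : ℝ, qf (0 + -l * s + -(l / 8) * (s * (1 - s)))
      (0 + κ * l * s + -(l / 8) * (s * (1 - s)))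
      (l + -(l + κ ^ 2 * l) * s + -(l / 8) * (s * (1 - s))) P Q =
      l * ((1 - s) * Q ^ 2 - s * (P - κ * Q) ^ 2 - s * (1 - s) / 8 * (P + Q) ^ 2) := fun P Q => by
    unfold qf
    ring
  have q2 : ∀ P Q : ℝ, qf (-l * s1 + -(l / 8) * ((1 - 2 * s) * s1))
      (κ * l * s1 + -(l / 8) * ((1 - 2 * s) * s1))
      (-(l + κ ^ 2 * l) * s1 + -(l / 8) * ((1 - 2 * s) * s1)) P Q =
      -l * s1 * (Q ^ 2 + (P - κ * Q) ^ 2 + (1 - 2 * s) / 8 * (P + Q) ^ 2) := fun P Q => by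
    unfold qf
    ring
  have h1 := abs_le.1 hα
  have h2 := abs_le.1 hγ
  have h3 : β ^ 2 ≤ (1 / 100) ^ 2 :=
    sq_le_sq' (by nlinarith [(abs_le.1 hβ).1]) (by nlinarith [(abs_le.1 hβ).2])
  have h4 : 0 ≤ s * (1 - s) := mul_nonneg hs0 (by linarith)
  refine ⟨by linarith [h1.1], ?_, ?_, fun P Q hQ hA => ?_, ?_, fun P Q hP hA => ?_⟩
  · have : (9 / 10 : ℝ) * (9 / 10) ≤ α * γ :=
      mul_le_mul (by linarith [h1.1]) (by linarith [h2.1]) (by norm_num) (by linarith [h1.1])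
    linarith
  · nlinarith [mul_nonneg hl.le hs0, mul_nonneg hl.le h4]
  · rw [q1] at hA
    have h := ineqL hs0 hs1 hs' hl hl' hκ hκ' hβ hγ hQ hA
    rw [q1, q2, show 2 * ((0 + κ * l * s + -(l / 8) * (s * (1 - s))) * P +
      (l + -(l + κ ^ 2 * l) * s + -(l / 8) * (s * (1 - s))) * Q) =
      2 * l * ((1 - s) * Q + κ * s * (P - κ * Q) - s * (1 - s) / 8 * (P + Q)) by ring]
    exact h
  · rw [q1]
    refine mul_nonneg hl.le ?_
    have h5 : (κ + 1) ^ 2 ≤ 4 := by nlinarith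
    have h6 : s * (κ + 1) ^ 2 ≤ 4 := by nlinarith [sq_nonneg (κ + 1)]
    nlinarith [mul_nonneg (sub_nonneg.2 hs1) (sub_nonneg.2 h6)]
  · rw [q1] at hA
    have h := ineqR hs0 hs1 hs' hl hl' hκ hκ' hρ hρ' hα hP hA
    rw [q1, q2, show 2 * ((0 + -l * s + -(l / 8) * (s * (1 - s))) * P +
      (0 + κ * l * s + -(l / 8) * (s * (1 - s))) * Q) =
      2 * l * (-s * (P - κ * Q) - s * (1 - s) / 8 * (P + Q)) by ring]
    exact h

theorem bounds {l M κ y s u v w u' α β γ : ℝ} (hl : 0 < l) (hl' : l ≤ 1 / 100) (hM : M = l / 8 * w)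
    (hM0 : 0 < M) (hM1 : M ≤ l / 8) (hκM : κ * (1 - M) = M) (hκ0 : 0 < κ) (hκ1 : κ ≤ l)
    (h0 : 0 ≤ y) (h1 : y ≤ 1) (s0 : 0 ≤ s) (s1 : s ≤ 1) (p1 : 0 ≤ v) (p2 : v ≤ u) (p3 : u ≤ y * s)
    (q1 : 0 ≤ w - v) (q2 : w - v ≤ u') (q3 : u' ≤ (1 - y) * (1 - s))
    (a0 : α = 1 + 0 * y + -l * u + -(l / 8) * v) (b0 : β = 0 + 0 * y + κ * l * u + -(l / 8) * v)
    (c0 : γ = (1 - l / 2 + κ ^ 2 * (1 - M) + M) + l * y + -(l + κ ^ 2 * l) * u + -(l / 8) * v) :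
    |β| ≤ l * s ∧ |γ - 1| ≤ 2 * l ∧ 0 ≤ β + κ * α ∧ β + κ * α ≤ l * (1 - s) / 4 ∧
      |α - 1| ≤ 2 * l := by
  have p4 : u ≤ s := p3.trans (mul_le_of_le_one_left s0 h1)
  have p5 : u ≤ y := p3.trans (mul_le_of_le_one_right h0 s1)
  have q4 : w - v ≤ 1 - s :=
    q2.trans (q3.trans (mul_le_of_le_one_left (by linarith) (by linarith)))
  have r1 : 0 ≤ l * u := mul_nonneg hl.le (by linarith)
  have r2 : 0 ≤ l * v := mul_nonneg hl.le p1
  have r3 : l * u ≤ l * s := mul_le_mul_of_nonneg_left p4 hl.le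
  have r4 : l * v ≤ l * u := mul_le_mul_of_nonneg_left p2 hl.le
  have r5 : l * s ≤ l := mul_le_of_le_one_right hl.le s1
  have r6 : κ * (l * u) ≤ l * u := mul_le_of_le_one_left r1 (by linarith)
  have r7 : 0 ≤ κ * (l * u) := mul_nonneg hκ0.le r1
  have r8 : β + κ * α = (1 + κ) * (l / 8 * (w - v)) := by
    rw [a0, b0]
    linear_combination (1 + κ) * hM + hκM
  have r9 : 0 ≤ l / 8 * (w - v) := mul_nonneg (by linarith) q1
  have r10 : l / 8 * (w - v) ≤ l / 8 * (1 - s) := mul_le_mul_of_nonneg_left q4 (by linarith)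
  have r11 : 0 ≤ κ ^ 2 * (1 - M - l * u) := mul_nonneg (sq_nonneg _) (by linarith)
  have r12 : κ ^ 2 * (1 - M - l * u) ≤ l := by
    have h2 : κ * κ ≤ κ := mul_le_of_le_one_left hκ0.le (by linarith)
    have h3 : κ ^ 2 * (1 - M - l * u) ≤ κ ^ 2 :=
      mul_le_of_le_one_right (sq_nonneg κ) (by linarith)
    linarith
  have r13 : l * u ≤ l * y := mul_le_mul_of_nonneg_left p5 hl.le
  have r14 : l * y ≤ l := mul_le_of_le_one_right hl.le h1
  have r15 : κ * (l / 8 * (w - v)) ≤ l / 8 * (w - v) := mul_le_of_le_one_left r9 (by linarith)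
  refine ⟨?_, ?_, ?_, ?_, ?_⟩
  · rw [b0, abs_le]
    constructor <;> linarith
  · rw [c0, abs_le]
    constructor <;> linarith
  · rw [r8]
    positivity
  · rw [r8]
    linarith
  · rw [a0, abs_le]
    constructor <;> linarith

noncomputable def i1 (y : ℝ) : ℝ := ∫ x in (0 : ℝ)..y, smoothTransition x

noncomputable def i2 (y : ℝ) : ℝ := ∫ x in (0 : ℝ)..y, smoothTransition x * (1 - smoothTransition x)

theorem cont2 : Continuous fun x => smoothTransition x * (1 - smoothTransition x) :=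
  smoothTransition.continuous.mul (continuous_const.sub smoothTransition.continuous)

theorem hd1 (y : ℝ) : HasDerivAt i1 (smoothTransition y) y :=
  (smoothTransition.continuous.integral_hasStrictDerivAt 0 y).hasDerivAt

theorem hd2 (y : ℝ) : HasDerivAt i2 (smoothTransition y * (1 - smoothTransition y)) y :=
  (cont2.integral_hasStrictDerivAt 0 y).hasDerivAt

theorem smooth2 : ContDiff ℝ ∞ i2 := by
  rw [contDiff_infty_iff_deriv]
  refine ⟨fun y => (hd2 y).differentiableAt, ?_⟩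
  rw [funext fun y => (hd2 y).deriv]
  exact smoothTransition.contDiff.mul (contDiff_const.sub smoothTransition.contDiff)

theorem i1_neg {y : ℝ} (hy : y ≤ 0) : i1 y = 0 := by
  rw [i1, intervalIntegral.integral_congr (g := fun _ => 0), intervalIntegral.integral_zero]
  intro x hx
  rw [uIcc_of_ge hy] at hx
  exact smoothTransition.zero_of_nonpos hx.2

theorem i2_neg {y : ℝ} (hy : y ≤ 0) : i2 y = 0 := by
  rw [i2, intervalIntegral.integral_congr (g := fun _ => 0), intervalIntegral.integral_zero]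
  intro x hx
  rw [uIcc_of_ge hy] at hx
  simp [smoothTransition.zero_of_nonpos hx.2]

theorem i1_symm' (y : ℝ) : i1 (1 - y) + y - i1 y = i1 1 := by
  have h : ∀ y, HasDerivAt (fun y => i1 (1 - y) + y - i1 y) 0 y := fun y => by
    have h := (((hd1 (1 - y)).comp_const_sub 1 y).add (hasDerivAt_id y)).sub (hd1 y)
    rw [S_symm] at h
    exact h.congr_deriv (by ring)
  have := is_const_of_deriv_eq_zero (fun y => (h y).differentiableAt) (fun y => (h y).deriv) y 0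
  simpa [i1_neg le_rfl] using this

theorem i1_symm (y : ℝ) : i1 (1 - y) = 1 / 2 - y + i1 y := by
  have h1 := i1_symm' 1
  rw [sub_self, i1_neg le_rfl] at h1
  linarith [i1_symm' y]

theorem i2_symm (y : ℝ) : i2 (1 - y) = i2 1 - i2 y := by
  have h : ∀ y, HasDerivAt (fun y => i2 (1 - y) + i2 y) 0 y := fun y => by
    have h := ((hd2 (1 - y)).comp_const_sub 1 y).add (hd2 y)
    rw [S_symm] at h
    exact h.congr_deriv (by ring)
  have := is_const_of_deriv_eq_zero (fun y => (h y).differentiableAt) (fun y => (h y).deriv) y 0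
  simp only [sub_zero, i2_neg le_rfl] at this
  linarith

theorem i_bounds {y : ℝ} (hy : 0 ≤ y) :
    0 ≤ i2 y ∧ i2 y ≤ i1 y ∧ i1 y ≤ y * smoothTransition y := by
  refine ⟨intervalIntegral.integral_nonneg hy fun x _ => mul_nonneg (smoothTransition.nonneg x)
    (sub_nonneg.2 (smoothTransition.le_one x)), intervalIntegral.integral_mono_on hy
    (cont2.intervalIntegrable _ _) (smoothTransition.continuous.intervalIntegrable _ _)
    fun x _ => by nlinarith [smoothTransition.nonneg x], ?_⟩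
  have h := intervalIntegral.integral_mono_on (μ := MeasureTheory.volume) hy
    (smoothTransition.continuous.intervalIntegrable _ _)
    (continuous_const.intervalIntegrable _ _)
    (g := fun _ => smoothTransition y) fun x hx => smoothTransition.monotone hx.2
  simpa [i1] using h

theorem i2_pos : 0 < i2 1 :=
  intervalIntegral.intervalIntegral_pos_of_pos_on (cont2.intervalIntegrable _ _)
    (fun _ hx => mul_pos (smoothTransition.pos_of_pos hx.1)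
      (sub_pos.2 (smoothTransition.lt_one_of_lt_one hx.2))) one_pos

theorem deriv_two {f g : ℝ → ℝ} {U : Set ℝ} (hU : IsOpen U) (h : EqOn f g U) {y : ℝ}
    (hy : y ∈ U) : deriv f y = deriv g y ∧ deriv (deriv f) y = deriv (deriv g) y :=
  ⟨h.deriv hU hy, (h.deriv hU).deriv hU hy⟩

theorem deriv_fam {f : ℝ → ℝ} {U : Set ℝ} (hU : IsOpen U) (c0 c1 c2 c3 : ℝ)
    (h : ∀ y ∈ U, f y = c0 + c1 * y + c2 * i1 y + c3 * i2 y) {y : ℝ} (hy : y ∈ U) :
    deriv f y = c1 + c2 * smoothTransition y +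
      c3 * (smoothTransition y * (1 - smoothTransition y)) ∧
    deriv (deriv f) y = c2 * deriv smoothTransition y +
      c3 * ((1 - 2 * smoothTransition y) * deriv smoothTransition y) := by
  obtain ⟨e1, e2⟩ := deriv_two hU (g := fun y => c0 + c1 * y + c2 * i1 y + c3 * i2 y) h hy
  have h1 : deriv (fun y => c0 + c1 * y + c2 * i1 y + c3 * i2 y) = fun y =>
      c1 + c2 * smoothTransition y + c3 * (smoothTransition y * (1 - smoothTransition y)) := by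
    funext y
    have := (((((hasDerivAt_id y).const_mul c1).const_add c0).add ((hd1 y).const_mul c2)).add
      ((hd2 y).const_mul c3)).deriv
    rw [mul_one] at this
    exact this
  rw [e1, e2, h1]
  refine ⟨rfl, ?_⟩
  have hS : HasDerivAt smoothTransition (deriv smoothTransition y) y :=
    ((smoothTransition.contDiff (n := 1)).differentiable (by simp) y).hasDerivAt
  have h2 := (((hS.const_mul c2).const_add c1).add ((hS.mul (hS.const_sub 1)).const_mul c3)).deriv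
  exact h2.trans (by ring)

theorem deriv_aff (c0 c1 : ℝ) (f : ℝ → ℝ) :
    deriv (fun y => c0 + c1 * f y) = fun y => c1 * deriv f y := by
  funext y
  rw [deriv_const_add, deriv_const_mul_field]

end NeckDataAux

open NeckDataAux in
theorem exists_neck : Nonempty Neck := by
  obtain ⟨l, hl, hl'⟩ : ∃ l : ℝ, 0 < l ∧ l ≤ 1 / 100 := ⟨1 / 100, by norm_num, le_rfl⟩
  obtain ⟨M, hM⟩ : ∃ M : ℝ, M = l / 8 * i2 1 := ⟨_, rfl⟩
  have hi1 : i1 1 = 1 / 2 := by simpa [i1_neg le_rfl] using i1_symm 0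
  have hM0 : 0 < M := hM ▸ mul_pos (by linarith) i2_pos
  have hM1 : M ≤ l / 8 := by
    have := (i_bounds zero_le_one).2.1
    rw [hM]
    nlinarith
  obtain ⟨κ, hκ⟩ : ∃ κ : ℝ, κ = M / (1 - M) := ⟨_, rfl⟩
  have hκM : κ * (1 - M) = M := by rw [hκ, div_mul_cancel₀ _ (by linarith)]
  have hκ0 : 0 < κ := hκ ▸ div_pos hM0 (by linarith)
  have hκ1 : κ ≤ l := by nlinarith
  obtain ⟨hL, rL, hrL, sL, aL, bL, cL⟩ := exists_profile (c := 1 + κ - l / 2) (τ := l / κ)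
    (abs_le.2 ⟨by linarith, by linarith⟩) hl hl' (by rw [le_div_iff₀ hκ0]; nlinarith)
  obtain ⟨hR, rR, hrR, sR, aR, bR, cR⟩ := exists_profile (c := 1 - M - l / 2) (τ := l)
    (abs_le.2 ⟨by linarith, by linarith⟩) hl hl' le_rfl
  have eR : ∀ y ∈ Ioo (-3 : ℝ) 2, hR (1 - y) = 1 - M - l * i1 y := fun y hy => by
    have h1 : hR (1 - y) = _ - l * i1 (1 - y) := cR (1 - y) ⟨by linarith [hy.2], by linarith [hy.1]⟩
    rw [h1, i1_symm]
    ring
  have eL : ∀ y ∈ Ioo (-1 : ℝ) 4, hL y = 1 + κ - l / 2 + l * y - l * i1 y := cL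
  obtain ⟨α, hα⟩ : ∃ α : ℝ → ℝ, α = fun y => hR (1 - y) + (M - l / 8 * i2 y) := ⟨_, rfl⟩
  obtain ⟨β, hβ⟩ : ∃ β : ℝ → ℝ, β = fun y => (M - l / 8 * i2 y) - κ * hR (1 - y) := ⟨_, rfl⟩
  obtain ⟨γ, hγ⟩ : ∃ γ : ℝ → ℝ, γ = fun y =>
    hL y - κ + κ ^ 2 * hR (1 - y) + (M - l / 8 * i2 y) := ⟨_, rfl⟩
  have sR' : ContDiffOn ℝ ∞ (fun y => hR (1 - y)) (Ioo (-3) 4) :=
    sR.comp (contDiff_const.sub contDiff_id).contDiffOn
      fun y hy => ⟨by linarith [hy.2], by linarith [hy.1]⟩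
  have sν : ContDiffOn ℝ ∞ (fun y => M - l / 8 * i2 y) (Ioo (-3) 4) :=
    (contDiff_const.sub (contDiff_const.mul smooth2)).contDiffOn
  have zB : ∀ y ∈ Ioo (-3 : ℝ) 0, α y = 1 ∧ β y = 0 ∧ γ y = hL y := fun y hy => by
    simp only [hα, hβ, hγ, eR y ⟨hy.1, by linarith [hy.2]⟩, i1_neg hy.2.le, i2_neg hy.2.le]
    exact ⟨by ring, by linarith, by linear_combination (κ - 1) * hκM⟩
  have zC : ∀ y ∈ Ioo (1 : ℝ) 4, α y = hR (1 - y) ∧ β y = -κ * hR (1 - y) ∧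
      γ y = 1 + κ ^ 2 * hR (1 - y) := fun y hy => by
    have h1 := i1_symm y
    have h2 := i2_symm y
    rw [i1_neg (by linarith [hy.1])] at h1
    rw [i2_neg (by linarith [hy.1])] at h2
    simp only [hα, hβ, hγ, eL y ⟨by linarith [hy.1], hy.2⟩]
    exact ⟨by linear_combination hM - l / 8 * h2, by linear_combination hM - l / 8 * h2,
      by linear_combination hM - l / 8 * h2 + l * h1⟩
  have zA : ∀ y ∈ Ioo (-1 : ℝ) 2, α y = 1 + 0 * y + -l * i1 y + -(l / 8) * i2 y ∧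
      β y = 0 + 0 * y + κ * l * i1 y + -(l / 8) * i2 y ∧
      γ y = (1 - l / 2 + κ ^ 2 * (1 - M) + M) + l * y + -(l + κ ^ 2 * l) * i1 y +
        -(l / 8) * i2 y := fun y hy => by
    simp only [hα, hβ, hγ, eR y ⟨by linarith [hy.1], hy.2⟩, eL y ⟨hy.1, by linarith [hy.2]⟩]
    exact ⟨by ring, by linear_combination -hκM, by ring⟩
  have key : ∀ y ∈ Ioo (-3 : ℝ) 4, Pt κ (α y) (β y) (γ y) (deriv α y) (deriv β y) (deriv γ y)
      (deriv (deriv α) y) (deriv (deriv β) y) (deriv (deriv γ) y) := by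
    intro y hy
    rcases lt_or_ge y 0 with h0 | h0
    · have hy' : y ∈ Ioo (-3 : ℝ) 0 := ⟨hy.1, h0⟩
      obtain ⟨a1, a2⟩ := deriv_two isOpen_Ioo (g := fun _ => 1) (fun y hy => (zB y hy).1) hy'
      obtain ⟨b1, b2⟩ := deriv_two isOpen_Ioo (g := fun _ => 0) (fun y hy => (zB y hy).2.1) hy'
      obtain ⟨c1, c2⟩ := deriv_two isOpen_Ioo (g := hL) (fun y hy => (zB y hy).2.2) hy'
      obtain ⟨a0, b0, c0⟩ := zB y hy'
      obtain ⟨p1, p2, p3⟩ := bL y ⟨hy.1, h0.le⟩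
      simp only [deriv_const', deriv_const] at a1 a2 b1 b2
      rw [a0, b0, c0, a1, a2, b1, b2, c1, c2]
      exact ptB p1 p2 p3
    rcases lt_or_ge 1 y with h1 | h1
    · have hy' : y ∈ Ioo (1 : ℝ) 4 := ⟨h1, hy.2⟩
      obtain ⟨a1, a2⟩ := deriv_two isOpen_Ioo (g := fun y => hR (1 - y))
        (fun y hy => (zC y hy).1) hy'
      obtain ⟨b1, b2⟩ := deriv_two isOpen_Ioo (g := fun y => -κ * hR (1 - y))
        (fun y hy => (zC y hy).2.1) hy'
      obtain ⟨c1, c2⟩ := deriv_two isOpen_Ioo (g := fun y => 1 + κ ^ 2 * hR (1 - y))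
        (fun y hy => (zC y hy).2.2) hy'
      obtain ⟨a0, b0, c0⟩ := zC y hy'
      obtain ⟨p1, p2, p3⟩ := bR (1 - y) ⟨by linarith [hy.2], by linarith⟩
      have d1 : deriv (fun y => hR (1 - y)) = fun y => -deriv hR (1 - y) :=
        funext fun y => deriv_comp_const_sub _ _ _
      have d2 : deriv (fun y => -deriv hR (1 - y)) y = deriv (deriv hR) (1 - y) := by
        rw [deriv.fun_neg, deriv_comp_const_sub, neg_neg]
      rw [deriv_aff] at c1 c2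
      rw [deriv_const_mul_field'] at b1 b2
      rw [deriv_const_mul_field, d1, d2] at b2 c2
      rw [d1] at a1 b1 c1
      rw [d1, d2] at a2
      rw [a0, b0, c0, a1, a2, b1, b2, c1, c2]
      exact ptC p1 (neg_lt_zero.2 p2) (by rw [neg_sq]; exact p3)
    have hy' : y ∈ Ioo (-1 : ℝ) 2 := ⟨by linarith, by linarith⟩
    obtain ⟨a1, a2⟩ := deriv_fam isOpen_Ioo _ _ _ _ (fun y hy => (zA y hy).1) hy'
    obtain ⟨b1, b2⟩ := deriv_fam isOpen_Ioo _ _ _ _ (fun y hy => (zA y hy).2.1) hy'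
    obtain ⟨c1, c2⟩ := deriv_fam isOpen_Ioo _ _ _ _ (fun y hy => (zA y hy).2.2) hy'
    obtain ⟨a0, b0, c0⟩ := zA y hy'
    rw [a1, a2, b1, b2, c1, c2]
    obtain ⟨p1, p2, p3⟩ := i_bounds h0
    obtain ⟨q1, q2, q3⟩ := i_bounds (sub_nonneg.2 h1)
    rw [S_symm] at q3
    rw [i2_symm] at q1 q2
    obtain ⟨r1, r2, r3, r4, r5⟩ := bounds hl hl' hM hM0 hM1 hκM hκ0 hκ1 h0 h1
      (smoothTransition.nonneg y) (smoothTransition.le_one y) p1 p2 p3 q1 q2 q3 a0 b0 c0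
    exact ptA (smoothTransition.nonneg y) (smoothTransition.le_one y) (S_deriv y) hl hl' hκ0.le hκ1
      r1 r2 r3 r4 r5
  refine ⟨⟨α, β, γ, κ, l / κ, l, rL, rR, div_pos hl hκ0, hl, hrL, hrR,
    mul_div_cancel₀ _ hκ0.ne', ?_, ?_, ?_, fun y hy => (key y hy).apos, fun y hy => (key y hy).det,
    fun y hy => ?_, fun y hy => ?_, fun y hy => (key y hy).L0, fun y hy => (key y hy).L1,
    fun y hy => (key y hy).R0, fun y hy => (key y hy).R1⟩⟩
  · exact hα ▸ sR'.add sν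
  · exact hβ ▸ sν.sub (contDiffOn_const.mul sR')
  · exact hγ ▸ ((sL.sub contDiffOn_const).add (contDiffOn_const.mul sR')).add sν
  · obtain ⟨a0, b0, c0⟩ := zB y ⟨hy.1, by linarith [hy.2]⟩
    exact ⟨a0, b0, c0.trans (aL y hy)⟩
  · obtain ⟨a0, b0, c0⟩ := zC y ⟨by linarith [hy.1], hy.2⟩
    refine ⟨?_, by rw [a0, b0], by rw [a0, c0]⟩
    rw [a0, aR (1 - y) ⟨by linarith [hy.2], by linarith [hy.1]⟩]
    ring_nf

end Vale.Agent.P255
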