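import Vale.Agent.P255.NeckChr
import Vale.Agent.P255.Ham

/-!
# The geodesic and Jacobi equations of the neck in Hamiltonian form

At every time `t` at which `Ode` holds and `x t ∈ O none`, the four functions `mP`, `mQ`, `dP`, `dQ`
have derivative `0` (product and chain rules, `hasDerivAt_of_smooth`, `smooth_deriv`, `chr_GN`,
`lin_GN`; then unfold `g11 = γ / det` .., rewrite first derivatives by `deriv_g`, keep the second
derivatives of `g11, g12, g22` as atoms, `field_simp; ring`).  Hence they are constant near `t₀`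
(`Filter.EventuallyEq` / `IsOpen.is_const_of_deriv_eq_zero` on a small ball).  The six equations of
`HamAt` at `t₀` are components of `Ode` (`HasDerivAt.fst` ..) up to algebraic identities
(`deriv_g`, `deriv2_g`; prove them as separate lemmas on real variables; matrix form: `v = A p`,
`G' = -G A' G`, `G A'' G = -G'' + 2 G' A G'`).
-/

set_option maxSynthPendingDepth 3

namespace Vale.Agent.P255

open scoped ContDiff Topology
open Set Real

namespace Neck

variable (N : Neck)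

/-- The geodesic equation and its linearisation at time `t`. -/
def Ode (x v J K : ℝ → R3) (t : ℝ) : Prop :=
  HasDerivAt x (v t) t ∧ HasDerivAt v (-chr N.GN (x t) (v t) (v t)) t ∧ HasDerivAt J (K t) t ∧
    HasDerivAt K (lin N.GN (x t) (v t) (J t) (K t)) t

theorem nh_const {f : ℝ → ℝ} {t₀ : ℝ} (h : ∀ᶠ t in 𝓝 t₀, HasDerivAt f 0 t) :
    ∀ᶠ t in 𝓝 t₀, f t = f t₀ := by
  obtain ⟨ε, hε, H⟩ := Metric.eventually_nhds_iff_ball.mp h
  filter_upwards [Metric.ball_mem_nhds t₀ hε] with t ht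
  exact IsOpen.is_const_of_deriv_eq_zero Metric.isOpen_ball (convex_ball t₀ ε).isPreconnected
    (fun z hz => (H z hz).differentiableAt.differentiableWithinAt) (fun z hz => (H z hz).deriv)
    ht (Metric.mem_ball_self hε)

theorem nh_deriv_zero {f : ℝ → ℝ} {f' c y : ℝ} (hy : y ∈ Ioo (-3 : ℝ) 4) (h : HasDerivAt f f' y)
    (e : ∀ z ∈ Ioo (-3 : ℝ) 4, f z = c) : f' = 0 := by
  have e1 : f =ᶠ[𝓝 y] fun _ => c := by
    filter_upwards [isOpen_Ioo.mem_nhds hy] with z hz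
    exact e z hz
  exact h.unique ((hasDerivAt_const y c).congr_of_eventuallyEq e1)

theorem nh_up {y : ℝ} (hy : y ∈ Ioo (-3 : ℝ) 4) (s t : ℝ) :
    N.α y * (N.g11 y * s + N.g12 y * t) + N.β y * (N.g12 y * s + N.g22 y * t) = s ∧
    N.β y * (N.g11 y * s + N.g12 y * t) + N.γ y * (N.g12 y * s + N.g22 y * t) = t := by
  obtain ⟨h1, h2⟩ := N.nc_low hy 1 0
  obtain ⟨h3, h4⟩ := N.nc_low hy 0 1
  constructor
  · linear_combination s * h1 + t * h2
  · linear_combination s * h3 + t * h4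

theorem nh_low1 {y : ℝ} (hy : y ∈ Ioo (-3 : ℝ) 4) (s t : ℝ) :
    deriv N.g11 y * (N.α y * s + N.β y * t) + deriv N.g12 y * (N.β y * s + N.γ y * t) +
      (N.g11 y * (deriv N.α y * s + deriv N.β y * t) +
        N.g12 y * (deriv N.β y * s + deriv N.γ y * t)) = 0 ∧
    deriv N.g12 y * (N.α y * s + N.β y * t) + deriv N.g22 y * (N.β y * s + N.γ y * t) +
      (N.g12 y * (deriv N.α y * s + deriv N.β y * t) +
        N.g22 y * (deriv N.β y * s + deriv N.γ y * t)) = 0 := by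
  have ha := hasDerivAt_of_smooth N.smoothα hy
  have hb := hasDerivAt_of_smooth N.smoothβ hy
  have hc := hasDerivAt_of_smooth N.smoothγ hy
  have h11 := hasDerivAt_of_smooth N.smooth_g11 hy
  have h12 := hasDerivAt_of_smooth N.smooth_g12 hy
  have h22 := hasDerivAt_of_smooth N.smooth_g22 hy
  have s1 := (ha.mul_const s).fun_add (hb.mul_const t)
  have s2 := (hb.mul_const s).fun_add (hc.mul_const t)
  have k1 := nh_deriv_zero hy ((h11.fun_mul s1).fun_add (h12.fun_mul s2))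
    fun z hz => (N.nc_low hz s t).1
  have k2 := nh_deriv_zero hy ((h12.fun_mul s1).fun_add (h22.fun_mul s2))
    fun z hz => (N.nc_low hz s t).2
  constructor
  · linear_combination k1
  · linear_combination k2

theorem nh_up1 {y : ℝ} (hy : y ∈ Ioo (-3 : ℝ) 4) (s t : ℝ) :
    deriv N.α y * (N.g11 y * s + N.g12 y * t) + deriv N.β y * (N.g12 y * s + N.g22 y * t) +
      (N.α y * (deriv N.g11 y * s + deriv N.g12 y * t) +
        N.β y * (deriv N.g12 y * s + deriv N.g22 y * t)) = 0 ∧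
    deriv N.β y * (N.g11 y * s + N.g12 y * t) + deriv N.γ y * (N.g12 y * s + N.g22 y * t) +
      (N.β y * (deriv N.g11 y * s + deriv N.g12 y * t) +
        N.γ y * (deriv N.g12 y * s + deriv N.g22 y * t)) = 0 := by
  obtain ⟨h1, h2⟩ := N.nh_low1 hy 1 0
  obtain ⟨h3, h4⟩ := N.nh_low1 hy 0 1
  constructor
  · linear_combination s * h1 + t * h2
  · linear_combination s * h3 + t * h4

theorem nh_low2 {y : ℝ} (hy : y ∈ Ioo (-3 : ℝ) 4) (s t : ℝ) :
    deriv (deriv N.g11) y * (N.α y * s + N.β y * t) +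
      deriv (deriv N.g12) y * (N.β y * s + N.γ y * t) +
      2 * (deriv N.g11 y * (deriv N.α y * s + deriv N.β y * t) +
        deriv N.g12 y * (deriv N.β y * s + deriv N.γ y * t)) +
      (N.g11 y * (deriv (deriv N.α) y * s + deriv (deriv N.β) y * t) +
        N.g12 y * (deriv (deriv N.β) y * s + deriv (deriv N.γ) y * t)) = 0 ∧
    deriv (deriv N.g12) y * (N.α y * s + N.β y * t) +
      deriv (deriv N.g22) y * (N.β y * s + N.γ y * t) +
      2 * (deriv N.g12 y * (deriv N.α y * s + deriv N.β y * t) +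
        deriv N.g22 y * (deriv N.β y * s + deriv N.γ y * t)) +
      (N.g12 y * (deriv (deriv N.α) y * s + deriv (deriv N.β) y * t) +
        N.g22 y * (deriv (deriv N.β) y * s + deriv (deriv N.γ) y * t)) = 0 := by
  have ha := hasDerivAt_of_smooth N.smoothα hy
  have hb := hasDerivAt_of_smooth N.smoothβ hy
  have hc := hasDerivAt_of_smooth N.smoothγ hy
  have h11 := hasDerivAt_of_smooth N.smooth_g11 hy
  have h12 := hasDerivAt_of_smooth N.smooth_g12 hy
  have h22 := hasDerivAt_of_smooth N.smooth_g22 hy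
  have ha' := hasDerivAt_of_smooth (smooth_deriv N.smoothα) hy
  have hb' := hasDerivAt_of_smooth (smooth_deriv N.smoothβ) hy
  have hc' := hasDerivAt_of_smooth (smooth_deriv N.smoothγ) hy
  have h11' := hasDerivAt_of_smooth (smooth_deriv N.smooth_g11) hy
  have h12' := hasDerivAt_of_smooth (smooth_deriv N.smooth_g12) hy
  have h22' := hasDerivAt_of_smooth (smooth_deriv N.smooth_g22) hy
  have s1 := (ha.mul_const s).fun_add (hb.mul_const t)
  have s2 := (hb.mul_const s).fun_add (hc.mul_const t)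
  have r1 := (ha'.mul_const s).fun_add (hb'.mul_const t)
  have r2 := (hb'.mul_const s).fun_add (hc'.mul_const t)
  have k1 := nh_deriv_zero hy (((h11'.fun_mul s1).fun_add (h12'.fun_mul s2)).fun_add
    ((h11.fun_mul r1).fun_add (h12.fun_mul r2))) fun z hz => (N.nh_low1 hz s t).1
  have k2 := nh_deriv_zero hy (((h12'.fun_mul s1).fun_add (h22'.fun_mul s2)).fun_add
    ((h12.fun_mul r1).fun_add (h22.fun_mul r2))) fun z hz => (N.nh_low1 hz s t).2
  constructor
  · linear_combination k1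
  · linear_combination k2

theorem nh_c0 {f : ℝ → R3} {f' : R3} {t : ℝ} (h : HasDerivAt f f' t) :
    HasDerivAt (fun s => (f s).1) f'.1 t :=
  d0.hasFDerivAt.comp_hasDerivAt t h

theorem nh_c1 {f : ℝ → R3} {f' : R3} {t : ℝ} (h : HasDerivAt f f' t) :
    HasDerivAt (fun s => (f s).2.1) f'.2.1 t :=
  d1.hasFDerivAt.comp_hasDerivAt t h

theorem nh_c2 {f : ℝ → R3} {f' : R3} {t : ℝ} (h : HasDerivAt f f' t) :
    HasDerivAt (fun s => (f s).2.2) f'.2.2 t :=
  d2.hasFDerivAt.comp_hasDerivAt t h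

/-- Derivative of `f(y) u₁ + g(y) u₂` along a curve. -/
theorem nh_lin {f g : ℝ → ℝ} (hf : ContDiffOn ℝ ∞ f (Ioo (-3) 4))
    (hg : ContDiffOn ℝ ∞ g (Ioo (-3) 4)) {x u : ℝ → R3} {x' u' : R3} {t : ℝ}
    (hy : (x t).1 ∈ Ioo (-3 : ℝ) 4) (hx : HasDerivAt x x' t) (hu : HasDerivAt u u' t) :
    HasDerivAt (fun s => f (x s).1 * (u s).2.1 + g (x s).1 * (u s).2.2)
      (x'.1 * (deriv f (x t).1 * (u t).2.1 + deriv g (x t).1 * (u t).2.2) +
        (f (x t).1 * u'.2.1 + g (x t).1 * u'.2.2)) t := by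
  have h1 : HasDerivAt (fun s => f (x s).1) (deriv f (x t).1 * x'.1) t :=
    (hasDerivAt_of_smooth hf hy).comp t (nh_c0 hx)
  have h2 : HasDerivAt (fun s => g (x s).1) (deriv g (x t).1 * x'.1) t :=
    (hasDerivAt_of_smooth hg hy).comp t (nh_c0 hx)
  refine ((h1.fun_mul (nh_c1 hu)).fun_add (h2.fun_mul (nh_c2 hu))).congr_deriv ?_
  ring

theorem nh_zero {x v J K : ℝ → R3} {t : ℝ} (hx : x t ∈ N.O none) (h : N.Ode x v J K t) :
    HasDerivAt (fun s => N.mP (x s).1 (v s)) 0 t ∧ HasDerivAt (fun s => N.mQ (x s).1 (v s)) 0 t ∧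
    HasDerivAt (fun s => N.dP (x s).1 (v s) (J s) (K s)) 0 t ∧
    HasDerivAt (fun s => N.dQ (x s).1 (v s) (J s) (K s)) 0 t := by
  obtain ⟨h1, h2, h3, h4⟩ := h
  have hy : (x t).1 ∈ Ioo (-3 : ℝ) 4 := hx
  rw [N.chr_GN hx] at h2
  rw [N.lin_GN hx] at h4
  obtain ⟨l1, l2⟩ := N.nc_low hy (N.c1 (x t).1 (v t)) (N.c2 (x t).1 (v t))
  obtain ⟨m1, m2⟩ := N.nc_low hy (N.c1 (x t).1 (K t)) (N.c2 (x t).1 (K t))
  obtain ⟨n1, n2⟩ := N.nc_low hy (N.e1 (x t).1 (v t)) (N.e2 (x t).1 (v t))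
  obtain ⟨p1, p2⟩ := N.nh_low1 hy (N.c1 (x t).1 (v t)) (N.c2 (x t).1 (v t))
  refine ⟨?_, ?_, ?_, ?_⟩
  · refine (nh_lin N.smooth_g11 N.smooth_g12 hy h1 h2).congr_deriv ?_
    simp only [Prod.snd_neg, Prod.fst_neg, c1, c2] at l1 ⊢
    linear_combination (-(v t).1) * l1
  · refine (nh_lin N.smooth_g12 N.smooth_g22 hy h1 h2).congr_deriv ?_
    simp only [Prod.snd_neg, Prod.fst_neg, c1, c2] at l2 ⊢
    linear_combination (-(v t).1) * l2
  · refine (((nh_c0 h3).fun_mul (nh_lin (smooth_deriv N.smooth_g11) (smooth_deriv N.smooth_g12)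
      hy h1 h2)).fun_add (nh_lin N.smooth_g11 N.smooth_g12 hy h1 h4)).congr_deriv ?_
    simp only [Prod.snd_neg, Prod.fst_neg, c1, c2, e1, e2] at l1 m1 n1 p1 ⊢
    linear_combination (-(K t).1) * l1 - (v t).1 * m1 - (J t).1 * (v t).1 * n1 -
      (J t).1 * (v t).1 * p1
  · refine (((nh_c0 h3).fun_mul (nh_lin (smooth_deriv N.smooth_g12) (smooth_deriv N.smooth_g22)
      hy h1 h2)).fun_add (nh_lin N.smooth_g12 N.smooth_g22 hy h1 h4)).congr_deriv ?_
    simp only [Prod.snd_neg, Prod.fst_neg, c1, c2, e1, e2] at l2 m2 n2 p2 ⊢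
    linear_combination (-(K t).1) * l2 - (v t).1 * m2 - (J t).1 * (v t).1 * n2 -
      (J t).1 * (v t).1 * p2

theorem nh_ham {x v J K : ℝ → R3} {t : ℝ} (hx : x t ∈ N.O none) (h : N.Ode x v J K t) :
    N.HamAt (N.mP (x t).1 (v t)) (N.mQ (x t).1 (v t)) (N.dP (x t).1 (v t) (J t) (K t))
      (N.dQ (x t).1 (v t) (J t) (K t)) (fun t => (x t).1) (fun t => (v t).1) (fun t => (J t).1)
      (fun t => (K t).1) (fun t => (J t).2.1) (fun t => (J t).2.2) t := by
  obtain ⟨h1, h2, h3, h4⟩ := h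
  have hy : (x t).1 ∈ Ioo (-3 : ℝ) 4 := hx
  rw [N.chr_GN hx] at h2
  rw [N.lin_GN hx] at h4
  obtain ⟨u1, u2⟩ := N.nh_up hy (v t).2.1 (v t).2.2
  obtain ⟨k1, k2⟩ := N.nh_up hy (K t).2.1 (K t).2.2
  obtain ⟨w1, w2⟩ := N.nh_up1 hy (v t).2.1 (v t).2.2
  obtain ⟨p1, p2⟩ := N.nh_low1 hy (N.mP (x t).1 (v t)) (N.mQ (x t).1 (v t))
  obtain ⟨q1, q2⟩ := N.nh_low2 hy (N.mP (x t).1 (v t)) (N.mQ (x t).1 (v t))
  refine ⟨nh_c0 h1, (nh_c0 h2).congr_deriv ?_, nh_c0 h3, (nh_c0 h4).congr_deriv ?_,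
    (nh_c1 h3).congr_deriv ?_, (nh_c2 h3).congr_deriv ?_⟩
  · simp only [Prod.fst_neg, a1, qf, G1, mP, mQ] at p1 p2 ⊢
    linear_combination ((v t).2.1 / 2) * p1 + ((v t).2.2 / 2) * p2 -
      ((deriv N.g11 (x t).1 * (v t).2.1 + deriv N.g12 (x t).1 * (v t).2.2) / 2) * u1 -
      ((deriv N.g12 (x t).1 * (v t).2.1 + deriv N.g22 (x t).1 * (v t).2.2) / 2) * u2
  · simp only [a2, qf, G1, mP, mQ, dP, dQ, c1, c2, e1, e2] at p1 p2 q1 q2 ⊢
    linear_combination ((J t).1 * (v t).2.1 / 2) * q1 + ((J t).1 * (v t).2.2 / 2) * q2 +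
      (K t).2.1 * p1 + (K t).2.2 * p2 -
      ((J t).1 * (deriv (deriv N.g11) (x t).1 * (v t).2.1 +
          deriv (deriv N.g12) (x t).1 * (v t).2.2) / 2 +
        (deriv N.g11 (x t).1 * (K t).2.1 + deriv N.g12 (x t).1 * (K t).2.2)) * u1 -
      ((J t).1 * (deriv (deriv N.g12) (x t).1 * (v t).2.1 +
          deriv (deriv N.g22) (x t).1 * (v t).2.2) / 2 +
        (deriv N.g12 (x t).1 * (K t).2.1 + deriv N.g22 (x t).1 * (K t).2.2)) * u2
  · simp only [mP, mQ, dP, dQ, c1, c2]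
    linear_combination (-1) * k1 - (J t).1 * w1
  · simp only [mP, mQ, dP, dQ, c1, c2]
    linear_combination (-1) * k2 - (J t).1 * w2

theorem ham_of_ode {x v J K : ℝ → R3} {t₀ : ℝ} (hx : x t₀ ∈ N.O none)
    (ode : ∀ᶠ t in 𝓝 t₀, N.Ode x v J K t) :
    ∃ P Q dP dQ : ℝ, (∀ᶠ t in 𝓝 t₀, N.mP (x t).1 (v t) = P ∧ N.mQ (x t).1 (v t) = Q ∧
      N.dP (x t).1 (v t) (J t) (K t) = dP ∧ N.dQ (x t).1 (v t) (J t) (K t) = dQ) ∧
      N.HamAt P Q dP dQ (fun t => (x t).1) (fun t => (v t).1) (fun t => (J t).1)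
        (fun t => (K t).1) (fun t => (J t).2.1) (fun t => (J t).2.2) t₀ := by
  have h0 := ode.self_of_nhds
  have hU : ∀ᶠ t in 𝓝 t₀, x t ∈ N.O none :=
    h0.1.continuousAt.eventually (N.loc_GN.isOpen.mem_nhds hx)
  have hall := (hU.and ode).mono fun t ht => N.nh_zero ht.1 ht.2
  have e1 := nh_const (hall.mono fun t ht => ht.1)
  have e2 := nh_const (hall.mono fun t ht => ht.2.1)
  have e3 := nh_const (hall.mono fun t ht => ht.2.2.1)
  have e4 := nh_const (hall.mono fun t ht => ht.2.2.2)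
  refine ⟨_, _, _, _, ?_, N.nh_ham hx h0⟩
  filter_upwards [e1, e2, e3, e4] with t h1 h2 h3 h4
  exact ⟨h1, h2, h3, h4⟩

end Neck

end Vale.Agent.P255
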