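import Vale.Agent.P255.Neck

/-!
# The polynomial inequalities in the transition zone  (TASK; pure real algebra)

`s ∈ [0,1]` is the value of the transition function, `s1 ≥ 8 s (1-s)` its derivative, `η = 1/8`,
`X = P - κ Q`, `Y = P + Q`, `A' = λ[(1-s) Q² - s X² - η s (1-s) Y²]`,
`A'' = -λ s1 [Q² + X² + η (1-2s) Y²]`.
`ineqL`: reduce to `Q = 1` by homogeneity (`P = t Q`).  `D = (1-s) - s X² - η s(1-s) Y² ≥ 0` gives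
`s X² ≤ 1 - s`, `s |X| ≤ 1/2`, `|β P| ≤ λ`, so `w = β P + γ ∈ [0.9, 1.1]`; `Z = 1 + X² + η(1-2s)Y² ≥ 1/2`;
`Nn = (1-s) + κ s X - η s(1-s) Y ≥ 0.85 (1-s) - κ/2`; `ee = 2γλ²D² - 8λ² Nn D w - 4 λ s1 Z w²`.
If `s ≤ 1/2` then `γ D ≤ 4 Nn w`.  If `s ≥ 1/2` then `s1 ≥ 4(1-s) ≥ 4 D` and the last term dominates.
`ineqR`: reduce to `X = 1`, `Q = t`.  `D' = s + η s(1-s) Y² - (1-s) t² ≥ 0` gives `(1-s) t² ≤ 1.7 s`,
`(1-s)|t| ≤ 1.31`; `α P + β Q = α + ρ t =: w'` with `0 ≤ ρ = β + κ α ≤ λ (1-s) / 4`, `w' ≥ 0.9`;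
`N' = s + η s (1-s) Y ≥ 0.7 s`, `D' ≤ 1.25 s`, so `α D' ≤ 4 N' w'`, and
`ee = 2αλ²D'² - 8λ² N' D' w' - 4 λ s1 Z w'² ≤ 0`.
-/

namespace Vale.Agent.P255

theorem ineq_half {s x c : ℝ} (hs0 : 0 ≤ s) (hc : 0 ≤ c) (h : s * x ^ 2 ≤ 4 * c ^ 2 * (1 - s)) :
    |s * x| ≤ c := by
  refine abs_le.2 (abs_le_of_sq_le_sq' ?_ hc)
  nlinarith [mul_le_mul_of_nonneg_left h hs0, mul_nonneg (sq_nonneg c) (sq_nonneg (s - 1 / 2))]

theorem ineq_small {β s t l : ℝ} (hs0 : 0 ≤ s) (hl : 0 < l) (hβ : |β| ≤ l * s) (h : |s * t| ≤ 1) :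
    |β * t| ≤ l := by
  rw [abs_mul, abs_of_nonneg hs0] at h
  rw [abs_mul]
  calc |β| * |t| ≤ l * s * |t| := mul_le_mul_of_nonneg_right hβ (abs_nonneg _)
    _ = l * (s * |t|) := by ring
    _ ≤ l := mul_le_of_le_one_right hl.le h

theorem ineqL_fin {s s1 l γ D Z N w : ℝ} (hs0 : 0 ≤ s) (hs1 : s ≤ 1) (hs' : 8 * s * (1 - s) ≤ s1)
    (hl : 0 < l) (hl' : l ≤ 1 / 100) (hγ : γ ≤ 11 / 10) (hD : 0 ≤ D) (hD1 : D ≤ 1 - s)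
    (w1 : 97 / 100 ≤ w) (w2 : w ≤ 103 / 100) (hZ : 1 / 2 ≤ Z)
    (hN : 4 / 5 * (1 - s) - 1 / 200 ≤ N) :
    l * D * (γ * D - 4 * N * w) - 2 * s1 * Z * w ^ 2 ≤ 0 := by
  have h1s : 0 ≤ 1 - s := by linarith
  have hs10 : 0 ≤ s1 := le_trans (by positivity) hs'
  have hZw : 1 / 2 * (97 / 100) ^ 2 ≤ Z * w ^ 2 := by gcongr
  have hlD : 0 ≤ l * D := by positivity
  have hγD : γ * D ≤ 11 / 10 * D := mul_le_mul_of_nonneg_right hγ hD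
  have b4 := mul_le_mul_of_nonneg_left hZw hs10
  rcases le_total s (1 / 2) with hs | hs
  · have b0 : 39 / 100 * (97 / 100) ≤ N * w :=
      mul_le_mul (by linarith) w1 (by norm_num) (by linarith)
    have b1 : γ * D - 4 * N * w ≤ 0 := by linarith
    linarith [mul_nonneg hlD (neg_nonneg.2 b1)]
  · have b0 : -(1 / 200) * w ≤ N * w := mul_le_mul_of_nonneg_right (by linarith) (by linarith)
    have b1 : γ * D - 4 * N * w ≤ 2 := by linarith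
    have b2 := mul_le_mul_of_nonneg_right hs h1s
    have b3 := mul_le_mul_of_nonneg_left b1 hlD
    have b5 := mul_le_mul_of_nonneg_right hl' hD
    linarith

theorem ineqL_core {s s1 l κ β γ t : ℝ} (hs0 : 0 ≤ s) (hs1 : s ≤ 1) (hs' : 8 * s * (1 - s) ≤ s1)
    (hl : 0 < l) (hl' : l ≤ 1 / 100) (hκ : 0 ≤ κ) (hκ' : κ ≤ l) (hβ : |β| ≤ l * s)
    (hγ : |γ - 1| ≤ 2 * l) {D Z N w : ℝ}
    (eD : D = (1 - s) - s * (t - κ) ^ 2 - s * (1 - s) / 8 * (t + 1) ^ 2)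
    (eZ : Z = 1 + (t - κ) ^ 2 + (1 - 2 * s) / 8 * (t + 1) ^ 2)
    (eN : N = (1 - s) + κ * s * (t - κ) - s * (1 - s) / 8 * (t + 1)) (ew : w = β * t + γ)
    (hD : 0 ≤ D) : 0 < w ∧ l * D * (γ * D - 4 * N * w) - 2 * s1 * Z * w ^ 2 ≤ 0 := by
  have h1s : 0 ≤ 1 - s := by linarith
  have a0 : 0 ≤ s * (1 - s) / 8 * (t + 1) ^ 2 := by positivity
  have a1 : 0 ≤ s * (t - κ) ^ 2 := by positivity
  obtain ⟨a4, a5⟩ := abs_le.1 (ineq_half (x := t - κ) (c := 1 / 2) hs0 (by norm_num) (by linarith))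
  have a6 : s * κ ≤ κ := mul_le_of_le_one_left hκ hs1
  have a7 : 0 ≤ s * κ := by positivity
  obtain ⟨g3, g4⟩ := abs_le.1 (ineq_small (t := t) hs0 hl hβ (abs_le.2 ⟨by linarith, by linarith⟩))
  obtain ⟨g1, g2⟩ := abs_le.1 hγ
  refine ⟨by linarith, ineqL_fin hs0 hs1 hs' hl hl' (by linarith) hD (by linarith) (by linarith)
    (by linarith) ?_ ?_⟩
  · have b0 : κ * κ ≤ κ := mul_le_of_le_one_left hκ (by linarith)
    linarith [sq_nonneg (t - κ - (κ + 1)), mul_nonneg h1s (sq_nonneg (t + 1)), sq_nonneg (t - κ)]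
  · have b1 : s * (t + 1) ≤ 8 / 5 := by linarith
    have b2 := mul_le_mul_of_nonneg_left b1 h1s
    have b3 := mul_le_mul_of_nonneg_left a4 hκ
    linarith

theorem ineqR_fin {s s1 l α D Z N w : ℝ} (hs0 : 0 ≤ s) (hs10 : 0 ≤ s1) (hl : 0 < l)
    (hα : α ≤ 11 / 10) (hD : 0 ≤ D) (hD1 : D ≤ 5 / 4 * s) (w1 : 97 / 100 ≤ w) (hZ : 0 ≤ Z)
    (hN : 9 / 10 * s ≤ N) : l * D * (α * D - 4 * N * w) - 2 * s1 * Z * w ^ 2 ≤ 0 := by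
  have hlD : 0 ≤ l * D := by positivity
  have b0 : α * D ≤ 11 / 10 * D := mul_le_mul_of_nonneg_right hα hD
  have b2 : 9 / 10 * s * (97 / 100) ≤ N * w := mul_le_mul hN w1 (by norm_num) (by linarith)
  have b1 : α * D - 4 * N * w ≤ 0 := by linarith
  have b3 : 0 ≤ s1 * Z * w ^ 2 := by positivity
  linarith [mul_nonneg hlD (neg_nonneg.2 b1)]

theorem ineqR_core {s s1 l κ α ρ t : ℝ} (hs0 : 0 ≤ s) (hs1 : s ≤ 1) (hs' : 8 * s * (1 - s) ≤ s1)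
    (hl : 0 < l) (hl' : l ≤ 1 / 100) (hκ : 0 ≤ κ) (hκ' : κ ≤ l) (hρ : 0 ≤ ρ)
    (hρ' : ρ ≤ l * (1 - s) / 4) (hα : |α - 1| ≤ 2 * l) {D Z N w : ℝ}
    (eD : D = s + s * (1 - s) / 8 * (1 + (1 + κ) * t) ^ 2 - (1 - s) * t ^ 2)
    (eZ : Z = t ^ 2 + 1 + (1 - 2 * s) / 8 * (1 + (1 + κ) * t) ^ 2)
    (eN : N = s + s * (1 - s) / 8 * (1 + (1 + κ) * t)) (ew : w = α + ρ * t)
    (hD : 0 ≤ D) : 0 < w ∧ l * D * (α * D - 4 * N * w) - 2 * s1 * Z * w ^ 2 ≤ 0 := by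
  have h1s : 0 ≤ 1 - s := by linarith
  have a0 : (1 + (1 + κ) * t) ^ 2 ≤ 2 + 21 / 10 * t ^ 2 := by
    have b0 : κ * κ ≤ κ := mul_le_of_le_one_left hκ (by linarith)
    have b1 : (1 + κ) ^ 2 ≤ 21 / 20 := by linarith
    linarith [sq_nonneg (1 - (1 + κ) * t), mul_le_mul_of_nonneg_right b1 (sq_nonneg t)]
  have a1 := mul_le_mul_of_nonneg_left a0 (show 0 ≤ s * (1 - s) / 8 by positivity)
  have a2 : 0 ≤ (1 - s) * t ^ 2 := by positivity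
  have a3 : s * ((1 - s) * t ^ 2) ≤ (1 - s) * t ^ 2 := mul_le_of_le_one_left a2 hs1
  have a4 : 0 ≤ s * s := by positivity
  have a5 : D + 7 / 10 * ((1 - s) * t ^ 2) ≤ 5 / 4 * s := by linarith
  have a6 := ineq_half (x := t) (c := 7 / 10) h1s (by norm_num) (by linarith)
  obtain ⟨g3, g4⟩ := abs_le.1 (ineq_small (β := ρ) (t := t) h1s hl
    (by rw [abs_of_nonneg hρ]; linarith [mul_nonneg hl.le h1s]) (by linarith))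
  obtain ⟨g1, g2⟩ := abs_le.1 hα
  obtain ⟨g5, g6⟩ := abs_le.1 a6
  refine ⟨by linarith, ineqR_fin hs0 (le_trans (by positivity) hs') hl (by linarith) hD
    (by linarith) (by linarith) ?_ ?_⟩
  · linarith [mul_nonneg h1s (sq_nonneg (1 + (1 + κ) * t)), sq_nonneg t]
  · have b1 : -(4 / 5) ≤ (1 - s) * (1 + (1 + κ) * t) := by
      linarith [mul_le_mul_of_nonneg_left g5 hκ]
    linarith [mul_le_mul_of_nonneg_left b1 hs0]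

theorem ineqL {s s1 l κ β γ P Q : ℝ} (hs0 : 0 ≤ s) (hs1 : s ≤ 1) (hs' : 8 * s * (1 - s) ≤ s1)
    (hl : 0 < l) (hl' : l ≤ 1 / 100) (hκ : 0 ≤ κ) (hκ' : κ ≤ l) (hβ : |β| ≤ l * s)
    (hγ : |γ - 1| ≤ 2 * l) (hQ : Q ≠ 0)
    (h : 0 ≤ l * ((1 - s) * Q ^ 2 - s * (P - κ * Q) ^ 2 - s * (1 - s) / 8 * (P + Q) ^ 2)) :
    β * P + γ * Q ≠ 0 ∧
      ee γ (l * ((1 - s) * Q ^ 2 - s * (P - κ * Q) ^ 2 - s * (1 - s) / 8 * (P + Q) ^ 2))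
        (-l * s1 * (Q ^ 2 + (P - κ * Q) ^ 2 + (1 - 2 * s) / 8 * (P + Q) ^ 2))
        (2 * (β * P + γ * Q))
        (2 * l * ((1 - s) * Q + κ * s * (P - κ * Q) - s * (1 - s) / 8 * (P + Q))) ≤ 0 := by
  obtain ⟨t, rfl⟩ : ∃ t, P = t * Q := ⟨P / Q, by field_simp⟩
  have hQ2 : 0 < Q ^ 2 := by positivity
  obtain ⟨h1, h2⟩ := ineqL_core (t := t) hs0 hs1 hs' hl hl' hκ hκ' hβ hγ rfl rfl rfl rfl (by
    refine nonneg_of_mul_nonneg_right (le_of_le_of_eq h ?_) (mul_pos hl hQ2)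
    ring)
  refine ⟨?_, le_of_eq_of_le ?_ (mul_nonpos_of_nonneg_of_nonpos
    (show 0 ≤ 2 * l * Q ^ 4 by positivity) h2)⟩
  · rw [← mul_assoc, ← add_mul]
    exact mul_ne_zero h1.ne' hQ
  · unfold ee
    ring

theorem ineqR {s s1 l κ α β P Q : ℝ} (hs0 : 0 ≤ s) (hs1 : s ≤ 1) (hs' : 8 * s * (1 - s) ≤ s1)
    (hl : 0 < l) (hl' : l ≤ 1 / 100) (hκ : 0 ≤ κ) (hκ' : κ ≤ l) (hρ : 0 ≤ β + κ * α)
    (hρ' : β + κ * α ≤ l * (1 - s) / 4) (hα : |α - 1| ≤ 2 * l) (hX : P ≠ κ * Q)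
    (h : l * ((1 - s) * Q ^ 2 - s * (P - κ * Q) ^ 2 - s * (1 - s) / 8 * (P + Q) ^ 2) ≤ 0) :
    α * P + β * Q ≠ 0 ∧
      ee α (l * ((1 - s) * Q ^ 2 - s * (P - κ * Q) ^ 2 - s * (1 - s) / 8 * (P + Q) ^ 2))
        (-l * s1 * (Q ^ 2 + (P - κ * Q) ^ 2 + (1 - 2 * s) / 8 * (P + Q) ^ 2))
        (2 * (α * P + β * Q))
        (2 * l * (-s * (P - κ * Q) - s * (1 - s) / 8 * (P + Q))) ≤ 0 := by
  obtain ⟨X, rfl⟩ : ∃ X, P = κ * Q + X := ⟨P - κ * Q, by ring⟩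
  have hX0 : X ≠ 0 := fun h0 => hX (by rw [h0, add_zero])
  obtain ⟨t, rfl⟩ : ∃ t, Q = t * X := ⟨Q / X, by field_simp⟩
  have hQ2 : 0 < X ^ 2 := by positivity
  obtain ⟨h1, h2⟩ := ineqR_core (t := t) hs0 hs1 hs' hl hl' hκ hκ' hρ hρ' hα rfl rfl rfl rfl (by
    refine nonneg_of_mul_nonneg_right (le_of_le_of_eq (neg_nonneg.2 h) ?_) (mul_pos hl hQ2)
    ring)
  refine ⟨?_, le_of_eq_of_le ?_ (mul_nonpos_of_nonneg_of_nonpos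
    (show 0 ≤ 2 * l * X ^ 4 by positivity) h2)⟩
  · rw [show α * (κ * (t * X) + X) + β * (t * X) = (α + (β + κ * α) * t) * X by ring]
    exact mul_ne_zero h1.ne' hX0
  · unfold ee
    ring

end Vale.Agent.P255
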