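import Vale.Agent.P255.NeckHam

/-!
# Monotonicity of the Lyapunov function in the neck  (TASK)

Let `y = (x ·).1`, `w = (v ·).1`, `ω`, `T`, `P Q dP dQ` as in `ham_of_ode`, `ham_up`; by `GN_cov`,
`q = ω + (w G1 J J / 2 - J.1 G1 J v)` near `t₀`, so `W = cut y * D` with `D = q - (ω - T)` near `t₀`.
* `-12/5 < y t₀ < 17/5`: `cut y = 1` near `t₀`, so `q - W = ω - T` near `t₀`; use `ham_up`.  If
  `J t₀ = 0` then `dP = mP K`, `dQ = mQ K`, and `K ≠ 0` gives `K.1 ≠ 0` or `(dP, dQ) ≠ 0`; `qf_pos`.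
* `y t₀ < -2` (`N.left` on an open set: `α = 1`, `β = 0`, `γ' > 0`, `g11 = 1`, `g12 = 0`, `g22 = 1/γ`):
  if `Q ≠ 0` then `a1 = γ' Q² > 0` and `D = 0` near `t₀` (`field_simp`; `v.2.2 = γ Q`), so `q - W = q`.
  If `Q = 0` then `T = 0`, `v.2.2 = 0`, `D = -γ' w σ² / (2 γ²)`, `σ = J.2.2`; `D` is differentiable at `t₀`,
  `ω = q - D` near `t₀`, so `q' - D' ≥ 0` (`ham_up`, `Up.le_deriv`), and
  `(q - W)' = (1 - χ) q' + χ (q' - D') - χ'(y) w D` with `0 ≤ χ ≤ 1`, `χ' ≥ 0` (`cut` is monotone on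
  `y < 17/5`), `w D ≤ 0`.  If `J t₀ = 0` then `D = D' = 0` at `t₀` and the derivative is `q'`.
* `3 < y t₀` (`N.right`: `α' < 0`, `β = -κ α`, `γ = 1 + κ² α`, `g11 = 1/α + κ²`, `g12 = κ`, `g22 = 1`,
  `a1 = α' (P - κ Q)²`, `α P + β Q = α (P - κ Q) = v.2.1`): the same with `σ = J.2.1`,
  `D = -α' w σ² / (2 α²)` if `P = κ Q` and `D = 0` otherwise; `χ' ≤ 0`, `w D ≥ 0`.
-/

namespace Vale.Agent.P255

open scoped ContDiff Topology
open Set Real

theorem nu_cut {q D χ : ℝ → ℝ} {t q' D' χ' m : ℝ} (hq : HasDerivAt q q' t)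
    (hD : HasDerivAt D D' t) (hχ : HasDerivAt χ χ' t) (h0 : 0 ≤ χ t) (h1 : χ t ≤ 1)
    (hs : χ' * D t ≤ 0) (hm : m ≤ q') (hF : Up (fun s => q s - D s) t m) :
    Up (fun s => q s - χ s * D s) t m := by
  have h2 := hF.le_deriv (hq.sub hD)
  refine Up.of_hasDerivAt (hq.sub (hχ.mul hD)) ?_
  nlinarith [mul_le_mul_of_nonneg_left h2 h0, mul_le_mul_of_nonneg_left hm (sub_nonneg.2 h1)]

theorem nu_S_one {x : ℝ} (hx : 1 ≤ x) : deriv smoothTransition x = 0 :=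
  IsLocalMax.deriv_eq_zero (Filter.Eventually.of_forall fun y => by
    rw [smoothTransition.one_of_one_le hx]
    exact smoothTransition.le_one y)

namespace Neck

variable (N : Neck)

theorem nu_cut_deriv (y : ℝ) : ∃ c', HasDerivAt cut c' y ∧ (y < -2 → 0 ≤ c') ∧ (3 < y → c' ≤ 0) := by
  have hS : ∀ x, HasDerivAt smoothTransition (deriv smoothTransition x) x := fun x =>
    ((smoothTransition.contDiff (n := 1)).differentiable (by simp) x).hasDerivAt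
  have h0 : ∀ x, 0 ≤ deriv smoothTransition x := fun x => smoothTransition.monotone.deriv_nonneg
  have h1 := (hS (5 * y + 13)).comp y (((hasDerivAt_id y).const_mul 5).add_const 13)
  have h2 := (hS (18 - 5 * y)).comp y (((hasDerivAt_id y).const_mul 5).const_sub 18)
  refine ⟨_, h1.mul h2, fun hy => ?_, fun hy => ?_⟩
  · rw [nu_S_one (x := 18 - 5 * y) (by linarith), zero_mul, mul_zero, add_zero]
    exact mul_nonneg (mul_nonneg (h0 _) (by norm_num)) (smoothTransition.nonneg _)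
  · rw [nu_S_one (x := 5 * y + 13) (by linarith), zero_mul, zero_mul, zero_add]
    exact mul_nonpos_of_nonneg_of_nonpos (smoothTransition.nonneg _)
      (mul_nonpos_of_nonneg_of_nonpos (h0 _) (by norm_num))

theorem nu_cut_mem (y : ℝ) : 0 ≤ cut y ∧ cut y ≤ 1 :=
  ⟨mul_nonneg (smoothTransition.nonneg _) (smoothTransition.nonneg _),
    mul_le_one₀ (smoothTransition.le_one _) (smoothTransition.nonneg _) (smoothTransition.le_one _)⟩

/-- The correction term without cut-off. -/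
noncomputable def nuD (y : ℝ) (v J : R3) : ℝ := v.1 * N.G1 y J J / 2 - J.1 * N.G1 y J v +
  N.T y v.1 (N.mP y v) (N.mQ y v) J.1 J.2.1 J.2.2

theorem nu_left {y : ℝ} (hy : y ∈ Ioo (-3 : ℝ) (-2)) (v J : R3) : N.G1 y J J ≤ 0 ∧
    (N.mQ y v = 0 → N.nuD y v J = v.1 * N.G1 y J J / 2) ∧ (N.mQ y v ≠ 0 → N.nuD y v J = 0) := by
  have hy' : y ∈ Ioo (-3 : ℝ) 4 := ⟨hy.1, by linarith [hy.2]⟩
  obtain ⟨a0, b0, -⟩ := N.left y hy
  have a1 : deriv N.α y = 0 := by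
    rw [Filter.EventuallyEq.deriv_eq (f := fun _ => 1) ?_, deriv_const]
    filter_upwards [isOpen_Ioo.mem_nhds hy] with z hz using (N.left z hz).1
  have b1 : deriv N.β y = 0 := by
    rw [Filter.EventuallyEq.deriv_eq (f := fun _ => 0) ?_, deriv_const]
    filter_upwards [isOpen_Ioo.mem_nhds hy] with z hz using (N.left z hz).2.1
  have c0 := N.γ_pos hy'
  have c1 : 0 ≤ deriv N.γ y := by simpa [qf, a1, b1] using N.R0 y hy'
  obtain ⟨g1, g2, g3⟩ := N.deriv_g hy'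
  have eD : N.α y * N.γ y - N.β y ^ 2 = N.γ y := by rw [a0, b0]; ring
  have eG : ∀ u u', N.G1 y u u' = -(deriv N.γ y / N.γ y ^ 2) * (u.2.2 * u'.2.2) := fun u u' => by
    simp only [G1, g1, g2, g3, D0, D1, eD]
    rw [a0, b0, a1, b1]
    field_simp
    ring
  have eQ : v.2.2 = N.γ y * N.mQ y v := by
    simp only [mQ, g12, g22, eD]
    rw [a0, b0]
    field_simp
    ring
  have eA : N.a1 y (N.mP y v) (N.mQ y v) = deriv N.γ y * N.mQ y v ^ 2 := by
    simp [Neck.a1, qf, a1, b1]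
  have eT := N.T_left (y := y) (w := v.1) (P := N.mP y v) (Q := N.mQ y v) (δy := J.1)
    (δ1 := J.2.1) (δ2 := J.2.2) (by rw [eA]; positivity)
  refine ⟨?_, fun h => ?_, fun h => ?_⟩
  · rw [eG, neg_mul, neg_nonpos]
    exact mul_nonneg (by positivity) (mul_self_nonneg _)
  · rw [nuD, eT, eA, eG J v, eQ, h]
    simp [tt]
  · rw [nuD, eT, eA, eG, eG, b0, tt]
    generalize N.mQ y v = Q at *
    rw [eQ]
    field_simp
    ring

theorem nu_right {y : ℝ} (hy : y ∈ Ioo (3 : ℝ) 4) (v J : R3) : 0 ≤ N.G1 y J J ∧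
    (N.mP y v - N.κ * N.mQ y v = 0 → N.nuD y v J = v.1 * N.G1 y J J / 2) ∧
    (N.mP y v - N.κ * N.mQ y v ≠ 0 → N.nuD y v J = 0) := by
  have hy' : y ∈ Ioo (-3 : ℝ) 4 := ⟨by linarith [hy.1], hy.2⟩
  obtain ⟨-, b0, c0⟩ := N.right y hy
  have ha := hasDerivAt_of_smooth N.smoothα hy'
  have b1 : deriv N.β y = -N.κ * deriv N.α y := by
    rw [Filter.EventuallyEq.deriv_eq (f := fun z => -N.κ * N.α z) ?_, (ha.const_mul _).deriv]
    filter_upwards [isOpen_Ioo.mem_nhds hy] with z hz using (N.right z hz).2.1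
  have c1 : deriv N.γ y = N.κ ^ 2 * deriv N.α y := by
    rw [Filter.EventuallyEq.deriv_eq (f := fun z => 1 + N.κ ^ 2 * N.α z) ?_,
      ((ha.const_mul _).const_add 1).deriv]
    filter_upwards [isOpen_Ioo.mem_nhds hy] with z hz using (N.right z hz).2.2
  have a0 := N.α_pos y hy'
  have a1 := N.L0 y hy'
  obtain ⟨g1, g2, g3⟩ := N.deriv_g hy'
  have eD : N.α y * N.γ y - N.β y ^ 2 = N.α y := by rw [b0, c0]; ring
  have eG : ∀ u u', N.G1 y u u' = -deriv N.α y / N.α y ^ 2 * (u.2.1 * u'.2.1) := fun u u' => by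
    simp only [G1, g1, g2, g3, D0, D1, eD]
    rw [b0, c0, b1, c1]
    field_simp
    ring
  have eQ : v.2.1 = N.α y * (N.mP y v - N.κ * N.mQ y v) := by
    simp only [mP, mQ, g11, g12, g22, eD]
    rw [b0, c0]
    field_simp
    ring
  have eA : N.a1 y (N.mP y v) (N.mQ y v) = deriv N.α y * (N.mP y v - N.κ * N.mQ y v) ^ 2 := by
    rw [Neck.a1, qf, b1, c1]
    ring
  have eT := N.T_right (y := y) (w := v.1) (P := N.mP y v) (Q := N.mQ y v) (δy := J.1)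
    (δ1 := J.2.1) (δ2 := J.2.2) (by rw [eA]; exact mul_nonpos_of_nonpos_of_nonneg a1 (sq_nonneg _))
  have eB : N.α y * N.mP y v + N.β y * N.mQ y v = N.α y * (N.mP y v - N.κ * N.mQ y v) := by
    rw [b0]
    ring
  refine ⟨?_, fun h => ?_, fun h => ?_⟩
  · rw [eG]
    exact mul_nonneg (div_nonneg (by linarith) (by positivity)) (mul_self_nonneg _)
  · rw [nuD, eT, eA, eG J v, eQ, h]
    simp [tt]
  · rw [nuD, eT, eA, eB, eG, eG, tt]
    generalize N.mP y v - N.κ * N.mQ y v = Q at *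
    rw [eQ]
    field_simp
    ring

theorem W_of_notMem {y : ℝ} (hy : y ∉ Icc (-13 / 5 : ℝ) (18 / 5)) (v J : R3) : N.W y v J = 0 := by
  rw [mem_Icc, not_and_or, not_le, not_le] at hy
  unfold W cut
  rcases hy with hy | hy
  · rw [smoothTransition.zero_of_nonpos (x := 5 * y + 13) (by linarith), zero_mul, zero_mul]
  · rw [smoothTransition.zero_of_nonpos (x := 18 - 5 * y) (by linarith), mul_zero, zero_mul]

theorem W_zero (y : ℝ) (v : R3) : N.W y v 0 = 0 := by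
  simp [W, G1, T, tt]

theorem neck_up {x v J K : ℝ → R3} {q : ℝ → ℝ} {t₀ q' : ℝ} (hx : x t₀ ∈ N.O none)
    (ode : ∀ᶠ t in 𝓝 t₀, N.Ode x v J K t)
    (hq : ∀ᶠ t in 𝓝 t₀, q t = N.GN (x t) (J t) (K t + chr N.GN (x t) (v t) (J t)))
    (hq' : HasDerivAt q q' t₀) (hflat : (x t₀).1 < -2 ∨ 3 < (x t₀).1 → 0 ≤ q')
    (hpos : J t₀ = 0 → K t₀ ≠ 0 → 0 < q') :
    Up (fun t => q t - N.W (x t).1 (v t) (J t)) t₀ 0 ∧
      (J t₀ = 0 → K t₀ ≠ 0 → ∃ c > 0, Up (fun t => q t - N.W (x t).1 (v t) (J t)) t₀ c) := by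
  obtain ⟨P, Q, dP, dQ, hc, H⟩ := N.ham_of_ode hx ode
  have hy : (x t₀).1 ∈ Ioo (-3 : ℝ) 4 := hx
  have hcy := H.hy.continuousAt
  obtain ⟨U0, U1⟩ := N.ham_up hy H
  have eF : (fun t => q t - N.nuD (x t).1 (v t) (J t)) =ᶠ[𝓝 t₀] fun t =>
      (J t).1 * (K t).1 + (J t).2.1 * dP + (J t).2.2 * dQ -
        N.T (x t).1 (v t).1 P Q (J t).1 (J t).2.1 (J t).2.2 := by
    filter_upwards [hc, hq, hcy (isOpen_Ioo.mem_nhds hy)] with t h1 h2 h3
    rw [h2, N.GN_cov h3, nuD, h1.1, h1.2.1, h1.2.2.1, h1.2.2.2]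
    ring
  have U2 : J t₀ = 0 → K t₀ ≠ 0 →
      ∃ c > 0, c ≤ q' ∧ Up (fun t => q t - N.nuD (x t).1 (v t) (J t)) t₀ c := fun hJ hK => by
    refine ⟨min q' _, lt_min (hpos hJ hK) ?_, min_le_left _ _,
      ((U1 (by simp [hJ]) (by simp [hJ]) (by simp [hJ])).congr eF).mono (min_le_right _ _)⟩
    by_cases h0 : dP ≠ 0 ∨ dQ ≠ 0
    · exact add_pos_of_nonneg_of_pos (sq_nonneg _) (N.qf_pos hy h0)
    push Not at h0
    obtain ⟨-, -, e1, e2⟩ := hc.self_of_nhds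
    simp only [Neck.dP, Neck.dQ, hJ, Prod.fst_zero, zero_mul, zero_add, h0.1, h0.2] at e1 e2
    have h1 : (K t₀).1 ≠ 0 := fun h1 => by
      have h2 := N.loc_GN.pos _ hx _ hK
      rw [GN_apply, h1] at h2
      simp only [mP, mQ] at e1 e2
      have h3 := congrArg (· * (K t₀).2.1) e1
      have h4 := congrArg (· * (K t₀).2.2) e2
      linarith
    simpa [h0.1, h0.2, qf] using pow_pos_of_ne_zero_aux h1
  by_cases hz : (x t₀).1 < -2 ∨ 3 < (x t₀).1
  swap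
  · push Not at hz
    have e : (fun t => q t - N.W (x t).1 (v t) (J t)) =ᶠ[𝓝 t₀]
        fun t => q t - N.nuD (x t).1 (v t) (J t) := by
      filter_upwards [hcy (Ioo_mem_nhds (show -12 / 5 < (x t₀).1 by linarith [hz.1])
        (show (x t₀).1 < 17 / 5 by linarith [hz.2]))] with t ht
      rw [W, cut, smoothTransition.one_of_one_le (by linarith [ht.1]),
        smoothTransition.one_of_one_le (by linarith [ht.2]), one_mul, one_mul, nuD]
    exact ⟨(U0.congr eF).congr e, fun hJ hK => (U2 hJ hK).imp fun c hc => ⟨hc.1, hc.2.2.congr e⟩⟩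
  obtain ⟨c', hc', cl, cr⟩ := nu_cut_deriv (x t₀).1
  have key : ∃ D', HasDerivAt (fun t => N.nuD (x t).1 (v t) (J t)) D' t₀ ∧
      c' * (v t₀).1 * N.nuD (x t₀).1 (v t₀) (J t₀) ≤ 0 := by
    have A : (∀ᶠ t in 𝓝 t₀, N.nuD (x t).1 (v t) (J t) = 0) →
        ∃ D', HasDerivAt (fun t => N.nuD (x t).1 (v t) (J t)) D' t₀ ∧
          c' * (v t₀).1 * N.nuD (x t₀).1 (v t₀) (J t₀) ≤ 0 := fun h =>
      ⟨0, (hasDerivAt_const t₀ 0).congr_of_eventuallyEq h, by rw [h.self_of_nhds, mul_zero]⟩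
    have B : (∀ᶠ t in 𝓝 t₀, N.nuD (x t).1 (v t) (J t) = (v t).1 * N.G1 (x t).1 (J t) (J t) / 2) →
        c' * N.G1 (x t₀).1 (J t₀) (J t₀) ≤ 0 →
        ∃ D', HasDerivAt (fun t => N.nuD (x t).1 (v t) (J t)) D' t₀ ∧
          c' * (v t₀).1 * N.nuD (x t₀).1 (v t₀) (J t₀) ≤ 0 := fun h hs => by
      refine ⟨_, ((H.hw.mul ((((ham_deriv N.smooth_g11 hy H.hy).2.mul (H.hδ1.mul H.hδ1)).add
        ((ham_deriv N.smooth_g12 hy H.hy).2.mul ((H.hδ1.mul H.hδ2).add (H.hδ2.mul H.hδ1)))).add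
        ((ham_deriv N.smooth_g22 hy H.hy).2.mul (H.hδ2.mul H.hδ2)))).div_const
          2).congr_of_eventuallyEq h, ?_⟩
      rw [h.self_of_nhds]
      nlinarith [mul_nonneg (neg_nonneg.2 hs) (sq_nonneg (v t₀).1)]
    rcases hz with hz | hz
    · have hI := hcy (Ioo_mem_nhds hy.1 hz)
      by_cases h0 : Q = 0
      · refine B ?_ (mul_nonpos_of_nonneg_of_nonpos (cl hz) (N.nu_left ⟨hy.1, hz⟩ 0 _).1)
        filter_upwards [hc, hI] with t h1 h2 using (N.nu_left h2 _ _).2.1 (h1.2.1.trans h0)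
      · refine A ?_
        filter_upwards [hc, hI] with t h1 h2 using (N.nu_left h2 _ _).2.2 (h1.2.1 ▸ h0)
    · have hI := hcy (Ioo_mem_nhds hz hy.2)
      by_cases h0 : P - N.κ * Q = 0
      · refine B ?_ (mul_nonpos_of_nonpos_of_nonneg (cr hz) (N.nu_right ⟨hz, hy.2⟩ 0 _).1)
        filter_upwards [hc, hI] with t h1 h2 using
          (N.nu_right h2 _ _).2.1 (by rw [h1.1, h1.2.1, h0])
      · refine A ?_
        filter_upwards [hc, hI] with t h1 h2 using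
          (N.nu_right h2 _ _).2.2 (by rw [h1.1, h1.2.1]; exact h0)
  obtain ⟨D', hD, hs⟩ := key
  have fin := fun m => nu_cut (m := m) (χ := fun t => cut (x t).1) hq' hD
    (HasDerivAt.comp (h := fun t => (x t).1) t₀ hc' H.hy) (nu_cut_mem _).1 (nu_cut_mem _).2 hs
  exact ⟨fin 0 (hflat hz) (U0.congr eF),
    fun hJ hK => (U2 hJ hK).imp fun c hc => ⟨hc.1, fin c hc.2.1 hc.2.2⟩⟩

end Neck

end Vale.Agent.P255
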