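import Vale.Agent.P255.ModelRel

/-!
# The punctured square times the fibre; connectedness

`H (ρ, θ, z) = Ψ (some b) (R cos θ, R sin θ, z)` with `R = (1 - s) (r0 + 1/2) + s (per/2) / μ θ`,
`s = max 0 (min ρ 1)`, `μ θ = max |cos θ| |sin θ| > 0`, `μ ≤ 1`.  Then `r0 + 1/2 ≤ R` and `R μ ≤ per/2`, so
the point lies in the square `[-per/2, per/2]²` and has radius `> r0`; such points are in `O (some b)`
(`|x| ≤ per/2` gives `x² ≤ (x - i per)²`).  Continuity: `hG.cont` composed with a continuous map into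
`O (some b)`.  Periodicity: `hG.eq_iff` and `mem_lat`.  For `|θ| ≤ π/4`, `μ θ = cos θ = μ (π - θ)`, and
the two points differ by `(per, 0, 0)`; for `θ ∈ [π/4, 3π/4]`, `μ θ = sin θ = μ (-θ)`.
At `ρ = 0` the point is `pol b (nb b θ z)`.  Last clause: translate `p` into the square (`round`),
take polar coordinates `(r, θ)`; if `r ≥ r0 + 1/2` solve for `s ∈ [0,1]` (`r μ ≤ per/2`), otherwise
use `exists_pol`.
`connected`: `M` is the union of the preconnected sets `Ψ none '' O none` (convex), `range H`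
(two sides), each meeting the first.
-/

namespace Vale.Agent.P255

open scoped ContDiff Topology
open Set Real

/-- The sup norm of the unit vector of angle `θ`. -/
noncomputable def sqμ (θ : ℝ) : ℝ := max |cos θ| |sin θ|

theorem sqμ_pos (θ : ℝ) : 0 < sqμ θ := by
  by_contra h
  have h1 : |cos θ| ≤ 0 := (le_max_left _ _).trans (not_lt.1 h)
  have h2 : |sin θ| ≤ 0 := (le_max_right _ _).trans (not_lt.1 h)
  have := cos_sq_add_sin_sq θ
  rw [abs_nonpos_iff.1 h1, abs_nonpos_iff.1 h2] at this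
  norm_num at this

theorem sqμ_le (θ : ℝ) : sqμ θ ≤ 1 := max_le (abs_cos_le_one θ) (abs_sin_le_one θ)

theorem continuous_sqμ : Continuous sqμ := by unfold sqμ; fun_prop

theorem sq_le_sub_int {x P : ℝ} (h : |x| ≤ P / 2) (i : ℤ) : x ^ 2 ≤ (x - i * P) ^ 2 := by
  obtain ⟨h1, h2⟩ := abs_le.1 h
  have hP : 0 ≤ P := by linarith
  rcases lt_trichotomy i 0 with hi | rfl | hi
  · have : (i : ℝ) ≤ -1 := by exact_mod_cast Int.le_sub_one_of_lt hi
    have a : i * P ≤ -P := by nlinarith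
    nlinarith
  · simp
  · have : (1 : ℝ) ≤ i := by exact_mod_cast hi
    have a : P ≤ i * P := by nlinarith
    nlinarith

theorem abs_sub_round_mul {P : ℝ} (hP : 0 < P) (x : ℝ) : |x - round (x / P) * P| ≤ P / 2 := by
  have h := abs_sub_round (x / P)
  have e : x - round (x / P) * P = (x / P - round (x / P)) * P := by field_simp
  rw [e, abs_mul, abs_of_pos hP]
  nlinarith

namespace Neck

variable (N : Neck)

/-- The neck point with radius `r0 + 1/2`, angle `θ`, height `z`. -/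
noncomputable def nb : Bool → ℝ → ℝ → R3
  | false, θ, z => (-5 / 2, z, θ / N.τL)
  | true, θ, z => (7 / 2, θ / N.τR, z - N.κ * (θ / N.τR))

theorem nb_mem (b : Bool) (θ z : ℝ) : N.nb b θ z ∈ N.O none := by
  cases b <;> simp only [nb, O, mem_setOf_eq, mem_Ioo] <;> norm_num

theorem rad_nb (b : Bool) (θ z : ℝ) : N.rad b (N.nb b θ z) = N.r0 b + 1 / 2 := by
  cases b <;> simp only [nb, rad, r0] <;> ring

theorem pol_nb (b : Bool) (θ z : ℝ) :
    N.pol b (N.nb b θ z) = ((N.r0 b + 1 / 2) * cos θ, (N.r0 b + 1 / 2) * sin θ, z) := by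
  have h1 : N.ang b (N.nb b θ z) = θ := by
    cases b
    · exact mul_div_cancel₀ _ N.τL_pos.ne'
    · exact mul_div_cancel₀ _ N.τR_pos.ne'
  have h2 : N.fib b (N.nb b θ z) = z := by
    cases b <;> simp [nb, fib]
  rw [pol, rad_nb, h1, h2]

theorem sq_mem {b : Bool} {p : R3} (h1 : |p.1| ≤ N.per b / 2) (h2 : |p.2.1| ≤ N.per b / 2)
    (h : N.r0 b ^ 2 < p.1 ^ 2 + p.2.1 ^ 2) : p ∈ N.O (some b) := fun i j =>
  h.trans_le (add_le_add (sq_le_sub_int h1 i) (sq_le_sub_int h2 j))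

/-- The radius. -/
noncomputable def sqR (b : Bool) (ρ θ : ℝ) : ℝ :=
  (1 - max 0 (min ρ 1)) * (N.r0 b + 1 / 2) + max 0 (min ρ 1) * (N.per b / 2 / sqμ θ)

/-- The parametrisation of the punctured square times the line. -/
noncomputable def sqP (b : Bool) (x : R3) : R3 :=
  (N.sqR b x.1 x.2.1 * cos x.2.1, N.sqR b x.1 x.2.1 * sin x.2.1, x.2.2)

theorem sq_end (b : Bool) (θ : ℝ) : N.r0 b + 2 ≤ N.per b / 2 / sqμ θ := by
  rw [le_div_iff₀ (sqμ_pos θ), per]
  nlinarith [sqμ_le θ, N.r0_pos b]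

theorem sqR_bounds (b : Bool) (ρ θ : ℝ) :
    N.r0 b + 1 / 2 ≤ N.sqR b ρ θ ∧ N.sqR b ρ θ * sqμ θ ≤ N.per b / 2 := by
  have s0 : 0 ≤ max 0 (min ρ 1) := le_max_left _ _
  have s1 : max 0 (min ρ 1) ≤ 1 := max_le zero_le_one (min_le_right _ _)
  have h := N.sq_end b θ
  constructor
  · unfold sqR; nlinarith
  · rw [← le_div_iff₀ (sqμ_pos θ)]
    unfold sqR; nlinarith

theorem sqP_mem (b : Bool) (x : R3) : N.sqP b x ∈ N.O (some b) := by
  obtain ⟨h1, h2⟩ := N.sqR_bounds b x.1 x.2.1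
  have r0 := N.r0_pos b
  have hR : 0 ≤ N.sqR b x.1 x.2.1 := by linarith
  refine N.sq_mem ?_ ?_ ?_
  · simp only [sqP]
    rw [abs_mul, abs_of_nonneg hR]
    exact (mul_le_mul_of_nonneg_left (le_max_left _ _) hR).trans h2
  · simp only [sqP]
    rw [abs_mul, abs_of_nonneg hR]
    exact (mul_le_mul_of_nonneg_left (le_max_right _ _) hR).trans h2
  · simp only [sqP]
    have := cos_sq_add_sin_sq x.2.1
    have e : (N.sqR b x.1 x.2.1 * cos x.2.1) ^ 2 + (N.sqR b x.1 x.2.1 * sin x.2.1) ^ 2 =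
        N.sqR b x.1 x.2.1 ^ 2 := by linear_combination N.sqR b x.1 x.2.1 ^ 2 * this
    rw [e]
    nlinarith

theorem continuous_sqP (b : Bool) : Continuous (N.sqP b) := by
  have h : Continuous fun x : R3 => N.sqR b x.1 x.2.1 := by
    unfold sqR
    refine Continuous.add (by fun_prop) (Continuous.mul (by fun_prop) ?_)
    exact continuous_const.div (continuous_sqμ.comp (by fun_prop)) fun x => (sqμ_pos _).ne'
  unfold sqP
  fun_prop

theorem sqR_one (b : Bool) (θ : ℝ) : N.sqR b 1 θ = N.per b / 2 / sqμ θ := by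
  simp [sqR]

theorem exists_sqP {b : Bool} {p : R3} (h1 : |p.1| ≤ N.per b / 2) (h2 : |p.2.1| ≤ N.per b / 2)
    (h : (N.r0 b + 1 / 2) ^ 2 ≤ p.1 ^ 2 + p.2.1 ^ 2) : ∃ x, N.sqP b x = p := by
  have r0 := N.r0_pos b
  set w : ℂ := ⟨p.1, p.2.1⟩ with hw
  have hr : ‖w‖ ^ 2 = p.1 ^ 2 + p.2.1 ^ 2 := by
    rw [Complex.sq_norm, Complex.normSq_apply]; ring
  have hr' : N.r0 b + 1 / 2 ≤ ‖w‖ :=
    le_of_sq_le_sq (by rw [hr]; exact h) (norm_nonneg _)
  have hc : ‖w‖ * cos w.arg = p.1 := Complex.norm_mul_cos_arg w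
  have hs : ‖w‖ * sin w.arg = p.2.1 := Complex.norm_mul_sin_arg w
  have hμ : ‖w‖ ≤ N.per b / 2 / sqμ w.arg := by
    rw [le_div_iff₀ (sqμ_pos _), sqμ, mul_max_of_nonneg _ _ (norm_nonneg w)]
    refine max_le ?_ ?_
    · rw [← abs_of_nonneg (norm_nonneg w), ← abs_mul, hc]; exact h1
    · rw [← abs_of_nonneg (norm_nonneg w), ← abs_mul, hs]; exact h2
  have he := N.sq_end b w.arg
  set L := N.per b / 2 / sqμ w.arg with hL
  have hd : 0 < L - (N.r0 b + 1 / 2) := by linarith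
  set s := (‖w‖ - (N.r0 b + 1 / 2)) / (L - (N.r0 b + 1 / 2)) with hs'
  have s0 : 0 ≤ s := div_nonneg (by linarith) hd.le
  have s1 : s ≤ 1 := (div_le_one hd).2 (by linarith)
  have hR : N.sqR b s w.arg = ‖w‖ := by
    rw [sqR, min_eq_left s1, max_eq_right s0, ← hL]
    have : s * (L - (N.r0 b + 1 / 2)) = ‖w‖ - (N.r0 b + 1 / 2) := div_mul_cancel₀ _ hd.ne'
    linarith
  exact ⟨(s, w.arg, p.2.2), by simp only [sqP]; rw [hR, hc, hs]⟩

variable {M : Type} [TopologicalSpace M] [ChartedSpace R3 M] {g : Metric R3 M}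
  {Ψ : Option Bool → R3 → M}

theorem exists_square (hG : GlueOut N.O N.G N.rel g Ψ) (b : Bool) :
    ∃ H : R3 → M, Continuous H ∧ (∀ ρ θ z, H (ρ, θ + 2 * π, z) = H (ρ, θ, z)) ∧
      (∀ ρ θ z, H (ρ, θ, z + N.len b) = H (ρ, θ, z)) ∧
      (∀ θ ∈ Icc (-(π / 4)) (π / 4), ∀ z, H (1, π - θ, z) = H (1, θ, z)) ∧
      (∀ θ ∈ Icc (π / 4) (3 * π / 4), ∀ z, H (1, -θ, z) = H (1, θ, z)) ∧
      (∀ θ z, H (0, θ, z) = Ψ none (N.nb b θ z)) ∧
      ∀ p ∈ N.O (some b), Ψ (some b) p ∈ range H ∨ Ψ (some b) p ∈ Ψ none '' N.O none := by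
  have key : ∀ {p q : R3}, p ∈ N.O (some b) → p - q ∈ N.latS b →
      Ψ (some b) p = Ψ (some b) q := fun hp h =>
    (hG.eq_iff hp (mem_O_of_lat hp h)).2 ⟨rfl, hp, mem_O_of_lat hp h, h⟩
  refine ⟨fun x => Ψ (some b) (N.sqP b x),
    (hG.cont (some b)).comp_continuous (N.continuous_sqP b) (N.sqP_mem b), ?_, ?_, ?_, ?_, ?_, ?_⟩
  · intro ρ θ z
    simp only [sqP, sqR, sqμ, cos_add_two_pi, sin_add_two_pi]
  · intro ρ θ z
    exact key (N.sqP_mem b _) (mem_lat.2 ⟨⟨0, by simp [sqP]⟩, ⟨0, by simp [sqP]⟩, 1, by simp [sqP]⟩)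
  · intro θ hθ z
    have hc : 0 < cos θ := cos_pos_of_mem_Ioo ⟨by linarith [hθ.1, pi_pos], by linarith [hθ.2, pi_pos]⟩
    have hm : sqμ θ = cos θ := by
      rw [sqμ, abs_of_pos hc, max_eq_left]
      have h1 : |θ| ≤ π / 4 := abs_le.2 hθ
      rw [abs_sin_eq_sin_abs_of_abs_le_pi (by linarith [pi_pos]), ← cos_abs, ← sin_pi_div_two_sub]
      exact sin_le_sin_of_le_of_le_pi_div_two (by linarith [pi_pos, abs_nonneg θ])
        (by linarith [abs_nonneg θ]) (by linarith)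
    have hm' : sqμ (π - θ) = cos θ := by rw [← hm]; simp [sqμ]
    refine key (N.sqP_mem b _) (mem_lat.2 ⟨⟨-1, ?_⟩, ⟨0, ?_⟩, 0, by simp [sqP]⟩)
    · simp only [sqP, sqR_one, hm, hm', Prod.fst_sub, cos_pi_sub]
      field_simp
      push_cast
      ring
    · simp [sqP, sqR_one, hm, hm']
  · intro θ hθ z
    have hc : 0 < sin θ := sin_pos_of_pos_of_lt_pi (by linarith [hθ.1, pi_pos])
      (by linarith [hθ.2, pi_pos])
    have hm : sqμ θ = sin θ := by
      rw [sqμ, abs_of_pos hc, max_eq_right]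
      have h1 : |π / 2 - θ| ≤ π / 4 := abs_le.2 ⟨by linarith [hθ.2], by linarith [hθ.1]⟩
      rw [← sin_pi_div_two_sub, abs_sin_eq_sin_abs_of_abs_le_pi (by linarith [pi_pos]),
        ← cos_pi_div_two_sub, ← cos_pi_div_two_sub θ, ← cos_abs (π / 2 - θ)]
      exact cos_le_cos_of_nonneg_of_le_pi (abs_nonneg _) (by linarith [pi_pos, abs_nonneg (π / 2 - θ)])
        (by linarith)
    have hm' : sqμ (-θ) = sin θ := by rw [← hm]; simp [sqμ]
    refine key (N.sqP_mem b _) (mem_lat.2 ⟨⟨0, ?_⟩, ⟨-1, ?_⟩, 0, by simp [sqP]⟩)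
    · simp [sqP, sqR_one, hm, hm']
    · simp only [sqP, sqR_one, hm, hm', Prod.fst_sub, Prod.snd_sub, sin_neg]
      field_simp
      push_cast
      ring
  · intro θ z
    have h1 : N.sqP b (0, θ, z) = N.pol b (N.nb b θ z) := by
      rw [pol_nb]; simp [sqP, sqR]
    have h2 := N.sqP_mem b (0, θ, z)
    refine (hG.eq_iff h2 (N.nb_mem b θ z)).2 ⟨N.nb_mem b θ z, h2, ?_, ?_⟩
    · rw [rad_nb]; linarith
    · rw [h1, sub_self]; exact zero_mem _
  · intro p hp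
    have r0 := N.r0_pos b
    have hP : 0 < N.per b := by unfold per; linarith
    set q : R3 := (p.1 - round (p.1 / N.per b) * N.per b,
      p.2.1 - round (p.2.1 / N.per b) * N.per b, p.2.2) with hq
    have hpq : p - q ∈ N.latS b := mem_lat.2
      ⟨⟨round (p.1 / N.per b), by simp [hq]⟩, ⟨round (p.2.1 / N.per b), by simp [hq]⟩, 0,
        by simp [hq]⟩
    have hqO := mem_O_of_lat hp hpq
    rw [key hp hpq]
    by_cases h : (N.r0 b + 1 / 2) ^ 2 ≤ q.1 ^ 2 + q.2.1 ^ 2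
    · obtain ⟨x, hx⟩ := N.exists_sqP (abs_sub_round_mul hP _) (abs_sub_round_mul hP _) h
      exact Or.inl ⟨x, by simp only [hx]⟩
    · have h0 : N.r0 b ^ 2 < q.1 ^ 2 + q.2.1 ^ 2 := by simpa using hqO 0 0
      have h1 : N.r0 b < √(q.1 ^ 2 + q.2.1 ^ 2) := lt_sqrt_of_sq_lt h0
      have h2 : √(q.1 ^ 2 + q.2.1 ^ 2) < N.r0 b + 1 :=
        (sqrt_lt' (by linarith)).2 (by nlinarith [not_le.1 h])
      obtain ⟨n, hn, hr, hn'⟩ := exists_pol h1 h2 (sq_sqrt (by positivity)).symm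
      refine Or.inr ⟨n, hn, (hG.eq_iff hn hqO).2 ⟨hn, hqO, hr ▸ h1, ?_⟩⟩
      rw [hn', sub_self]; exact zero_mem _

theorem connected (hG : GlueOut N.O N.G N.rel g Ψ) : ConnectedSpace M := by
  have hc : Convex ℝ (N.O none) := (convex_Ioo (-3 : ℝ) 4).linear_preimage (LinearMap.fst ℝ ℝ (ℝ × ℝ))
  have h0 : IsPreconnected (Ψ none '' N.O none) := hc.isPreconnected.image _ (hG.cont none)
  have hx : Ψ none 0 ∈ Ψ none '' N.O none := ⟨0, by simp [O], rfl⟩
  refine { isPreconnected_univ := isPreconnected_of_forall (Ψ none 0) fun z _ => ?_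
           toNonempty := ⟨Ψ none 0⟩ }
  obtain ⟨i, p, hp, rfl⟩ := hG.surj z
  cases i with
  | none => exact ⟨_, subset_univ _, hx, ⟨p, hp, rfl⟩, h0⟩
  | some b =>
    obtain ⟨H, hH, -, -, -, -, h5, h6⟩ := N.exists_square hG b
    rcases h6 p hp with h | h
    · exact ⟨_ ∪ range H, subset_univ _, Or.inl hx, Or.inr h,
        h0.union (H (0, 0, 0)) ⟨_, N.nb_mem b 0 0, (h5 0 0).symm⟩ (mem_range_self _)
          (isPreconnected_range hH)⟩
    · exact ⟨_, subset_univ _, hx, h, h0⟩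

end Neck

end Vale.Agent.P255
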